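import Crest.Agent.H6.CCBase

set_option autoImplicit false
set_option linter.unusedSectionVars false
set_option linter.unusedVariables false
set_option linter.unusedSimpArgs false

/-! Exact-cost calculus: the judgement `CC` and its basic closure properties. -/

namespace Crest.Agent.H3.Ptime
open Function

variable {α β γ : Type} [Enc α] [Enc β] [Enc γ]

/-- `f` is computed in time `O(T + size of the input + 1)` on inputs `a` with `S a T` -/
def CC (f : α → β) (S : α → ℕ → Prop) : Prop :=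
  ∃ (p : Prog) (c : ℕ), ∀ a T, S a T →
    ∃ t ≤ c * (T + sz a + 1), Run p (sg (cd a)) t (sg (cd (f a)))

/-- linear time -/
abbrev Lin (f : α → β) : Prop := CC f (fun _ _ => True)

theorem sz_pos (a : α) : 1 ≤ sz a := by
  unfold sz cd; cases enc a <;> simp [Tr.code]

theorem CC.mono' {f : α → β} {S S' : α → ℕ → Prop} (h : CC f S) (K : ℕ)
    (hS : ∀ a T, S' a T → ∃ T', S a T' ∧ T' ≤ K * (T + sz a + 1)) : CC f S' := by
  obtain ⟨p, c, h⟩ := h
  refine ⟨p, c * (K + 1), fun a T hT => ?_⟩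
  obtain ⟨T', h1, h2⟩ := hS a T hT
  refine R.mono (h a T' h1) ?_
  rw [mul_assoc]
  refine Nat.mul_le_mul_left _ ?_
  rw [add_mul]; omega

theorem CC.mono {f : α → β} {S S' : α → ℕ → Prop} (h : CC f S)
    (hS : ∀ a T, S' a T → S a T) : CC f S' :=
  h.mono' 1 (fun a T hT => ⟨T, hS a T hT, by omega⟩)

theorem CC.up {f : α → β} {S : α → ℕ → Prop} (h : CC f S) :
    CC f (fun a T => ∃ T' ≤ T, S a T') :=
  h.mono' 1 (fun a T ⟨T', h1, h2⟩ => ⟨T', h2, by omega⟩)

theorem Lin.cc {f : α → β} (h : Lin f) (S : α → ℕ → Prop) : CC f S := h.mono (fun _ _ _ => trivial)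

theorem CC.congr {f g : α → β} {S : α → ℕ → Prop} (h : CC f S)
    (e : ∀ a T, S a T → f a = g a) : CC g S := by
  obtain ⟨p, c, h⟩ := h
  exact ⟨p, c, fun a T hT => e a T hT ▸ h a T hT⟩

theorem CC.of_eq {f g : α → β} {S : α → ℕ → Prop} (h : CC f S) (e : ∀ a, f a = g a) : CC g S :=
  h.congr (fun a _ _ => e a)

theorem CC.szb {f : α → β} {S : α → ℕ → Prop} (h : CC f S) :
    ∃ c, ∀ a T, S a T → sz (f a) ≤ c * (T + sz a + 1) := by
  obtain ⟨p, c, h⟩ := h
  refine ⟨c + 1, fun a T hT => ?_⟩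
  have := R.length_le (h a T hT) 0
  simp only [sg_0] at this
  unfold sz at this ⊢
  rw [add_mul]; omega

theorem CC.ofEnc {α' β' : Type} [Enc α'] [Enc β'] {F : α' → β'} {S' : α' → ℕ → Prop}
    (hF : CC F S') {f : α → β} {S : α → ℕ → Prop}
    (i : α → α') (hi : ∀ a, enc (i a) = enc a) (ho : ∀ a, enc (F (i a)) = enc (f a))
    (hS : ∀ a T, S a T → S' (i a) T) : CC f S := by
  obtain ⟨p, c, h⟩ := hF
  refine ⟨p, c, fun a T hT => ?_⟩
  have := h (i a) T (hS a T hT)
  simpa [cd, sz, hi, ho] using this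

theorem CC.ofEncOut {β' : Type} [Enc β'] {F : α → β'} {S : α → ℕ → Prop} (hF : CC F S)
    {f : α → β} (h : ∀ a, enc (F a) = enc (f a)) : CC f S :=
  hF.ofEnc id (fun _ => rfl) h (fun _ _ h => h)

theorem CC.ofR {f : α → β} {S : α → ℕ → Prop} (p : Prog) (c : ℕ)
    (h : ∀ a T, S a T → R p (sg (cd a)) (c * (T + sz a + 1)) (sg (cd (f a)))) : CC f S :=
  ⟨p, c, h⟩

theorem CC.id' {S : α → ℕ → Prop} : CC (fun a : α => a) S :=
  CC.ofR .skip 1 (fun a T _ => (R.skip _).mono (by omega))

theorem CC.ofEq {f : α → β} {S : α → ℕ → Prop} (h : ∀ a, enc (f a) = enc a) : CC f S :=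
  (CC.id' (α := α)).ofEncOut (fun a => (h a).symm)

/-- general composition -/
theorem CC.comp2 {g : β → γ} {f : α → β} {S : α → ℕ → Prop} {S' : β → ℕ → Prop} (hg : CC g S')
    (hf : CC f S) (h : ∀ a T, S a T → S' (f a) T) : CC (fun a => g (f a)) S := by
  obtain ⟨d, hd⟩ := hf.szb
  obtain ⟨p, c, hp⟩ := hf
  obtain ⟨q, e, hq⟩ := hg
  refine CC.ofR (.seq p q) (c + e * (d + 1)) (fun a T hT => ?_)
  refine (R.seq (hp a T hT) (hq _ T (h a T hT))).mono ?_
  have := hd a T hT
  rw [add_mul, mul_assoc]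
  refine Nat.add_le_add_left (Nat.mul_le_mul_left _ ?_) _
  rw [add_mul]; omega

/-- composition where the cost of the outer function is only bounded up to a constant -/
theorem CC.comp3 {g : β → γ} {f : α → β} {S : α → ℕ → Prop} {S' : β → ℕ → Prop} (hg : CC g S')
    (hf : CC f S) (K : ℕ) (h : ∀ a T, S a T → ∃ T', S' (f a) T' ∧ T' ≤ K * (T + sz a + 1)) :
    CC (fun a => g (f a)) S := by
  have h1 : CC f (fun a T => (∃ T' ≤ T, S a T') ∧ ∃ T' ≤ T, S' (f a) T') :=
    hf.up.mono (fun _ _ h => h.1)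
  refine (hg.up.comp2 h1 (fun _ _ h => h.2)).mono' (K + 1) (fun a T hT => ?_)
  obtain ⟨T', h1, h2⟩ := h a T hT
  exact ⟨T + T', ⟨⟨T, by omega, hT⟩, ⟨T', by omega, h1⟩⟩, by rw [add_mul]; omega⟩

/-- composition with a linear outer function -/
theorem CC.comp {g : β → γ} {f : α → β} {S : α → ℕ → Prop} (hg : CC g (fun _ _ => True))
    (hf : CC f S) : CC (fun a => g (f a)) S := hg.comp2 hf (fun _ _ _ => trivial)

theorem CC.const {S : α → ℕ → Prop} (c : β) : CC (fun _ : α => c) S := by
  refine CC.ofR (.seq (clr 0) (pushL 0 (cd c))) (sz c + 4) (fun a T _ => ?_)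
  refine (((run_clr 0 _ _ (sg_0 _)).seq (run_pushL 0 _ _)).cast (by simp)).mono ?_
  unfold sz; nlinarith

theorem Lin.car : Lin Tr.car :=
  CC.ofR carP 9 (fun a T _ => (run_car a).mono (by have := sz_pos a; unfold sz cd at *; simp [enc] at *; omega))
theorem Lin.cdr : Lin Tr.cdr :=
  CC.ofR cdrP 9 (fun a T _ => (run_cdr a).mono (by have := sz_pos a; unfold sz cd at *; simp [enc] at *; omega))
theorem Lin.sel : Lin (fun x : Tr × Tr => bif x.1.isNode then x.2.car else x.2.cdr) :=
  CC.ofR selP 12 (fun a T _ => (run_sel a.1 a.2).mono (by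
    unfold sz cd; simp [enc]; omega))

/-- copy register `a` to register `b` (on top), `c` is an empty scratch register and `d` too -/
def cpy (a b c d : ℕ) : Prog := .seq (mv2 a c d) (.seq (mv c a) (mv d b))

theorem run_cpy {a b c d : ℕ} (hab : a ≠ b) (hac : a ≠ c) (had : a ≠ d) (hbc : b ≠ c)
    (hbd : b ≠ d) (hcd : c ≠ d) (s : St) (hc : s c = []) (hd : s d = []) :
    R (cpy a b c d) s (13 * (s a).length + 3) (update s b (s a ++ s b)) := by
  have h1 := run_mv2 hac had hcd (s a) s rfl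
  have h2 := h1.seq ((run_mv (a := c) (b := a) hac.symm (s a).reverse _
    (by simp [hcd, hc])).seq (run_mv (a := d) (b := b) hbd.symm (s a).reverse _
    (by simp [had.symm, hcd.symm, hd])))
  refine (h2.mono (by simp; omega)).cast ?_
  st_ext

theorem CC.pair {f : α → β} {g : α → γ} {S : α → ℕ → Prop} (hf : CC f S) (hg : CC g S) :
    CC (fun a => (f a, g a)) S := by
  obtain ⟨d, hd⟩ := hf.szb
  obtain ⟨p, c, hp⟩ := hf
  obtain ⟨q, e, hq⟩ := hg
  refine CC.ofR (.seq (cpy 0 1 2 3) (.seq (call p 1 3) (.seq (call q 0 3)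
    (.seq (mvT 1 0 2 3) (.push 0 true))))) (c + e + 9 * d + 20) (fun a T hT => ?_)
  rw [sg_eq_sL _ 3, sg_eq_sL _ 3]
  have s1 : R (cpy 0 1 2 3) (sL [cd a, [], [], []]) (13 * sz a + 3) (sL [cd a, cd a, [], []]) :=
    (run_cpy (by omega) (by omega) (by omega) (by omega) (by omega) (by omega) _ rfl rfl).cast
      (by rw [sL_up _ _ _ (by simp)]; simp)
  have s2 : R (call p 1 3) (sL [cd a, cd a, [], []]) _ (sL [cd a, cd (f a), [], []]) :=
    (R.call (hp a T hT) (by omega) rfl (sL_hi _ _ (by simp))).cast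
      (by rw [sL_up _ _ _ (by simp)]; simp)
  have s3 : R (call q 0 3) (sL [cd a, cd (f a), [], []]) _ (sL [cd (g a), cd (f a), [], []]) :=
    (R.call (hq a T hT) (by omega) rfl (sL_hi _ _ (by simp))).cast
      (by rw [sL_up _ _ _ (by simp)]; simp)
  have s4 : R (mvT 1 0 2 3) (sL [cd (g a), cd (f a), [], []]) (9 * sz (f a) + 3)
      (sL [cd (f a) ++ cd (g a), [], [], []]) :=
    (run_mvT (by omega) (by omega) (by omega) (by omega) (by omega) (enc (f a)) [] _
      (by simp [cd]) rfl rfl).cast (by simp [sL_up, cd])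
  have s5 : R (.push 0 true) (sL [cd (f a) ++ cd (g a), [], [], []]) 1
      (sL [cd (f a, g a), [], [], []]) :=
    (R.push 0 true _).cast (by simp [sL_up, cd, enc, Tr.code])
  refine (s1.seq (s2.seq (s3.seq (s4.seq s5)))).mono ?_
  have := hd a T hT
  nlinarith

/-- polynomial time, with the exact polynomial bound -/
theorem CC.ofPT {f : α → β} (h : PT f) : ∃ k : ℕ, CC f (fun a T => sz a ^ k ≤ T) := by
  obtain ⟨p, T, ⟨P, hP⟩, h⟩ := h
  refine ⟨P.natDegree, CC.ofR p (P.eval 1) (fun a U hU => (h a).mono ((hP a).trans ?_))⟩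
  have h1 := sz_pos a
  calc P.eval (sz a) = ∑ i ∈ Finset.range (P.natDegree + 1), P.coeff i * sz a ^ i :=
        Polynomial.eval_eq_sum_range _
    _ ≤ ∑ i ∈ Finset.range (P.natDegree + 1), P.coeff i * sz a ^ P.natDegree :=
        Finset.sum_le_sum (fun i hi => Nat.mul_le_mul_left _
          (Nat.pow_le_pow_right h1 (by simpa [Nat.lt_succ_iff] using hi)))
    _ = P.eval 1 * sz a ^ P.natDegree := by
        rw [← Finset.sum_mul, Polynomial.eval_eq_sum_range]; simp
    _ ≤ _ := Nat.mul_le_mul_left _ (by omega)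

attribute [fun_prop] CC
attribute [fun_prop] CC.id' CC.comp CC.const CC.pair

variable {S : α → ℕ → Prop}

theorem CC.enc' {f : α → β} (hf : CC f S) : CC (fun a => (enc (f a) : Tr)) S :=
  hf.ofEncOut (fun _ => rfl)

@[fun_prop] theorem CC.fst {f : α → β × γ} (hf : CC f S) : CC (fun a => (f a).1) S :=
  (CC.comp Lin.car hf.enc').ofEncOut (fun _ => rfl)

@[fun_prop] theorem CC.snd {f : α → β × γ} (hf : CC f S) : CC (fun a => (f a).2) S :=
  (CC.comp Lin.cdr hf.enc').ofEncOut (fun _ => rfl)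

/-- strict conditional: both branches are evaluated -/
@[fun_prop] theorem CC.cond {c : α → Bool} {f g : α → β} (hc : CC c S) (hf : CC f S)
    (hg : CC g S) : CC (fun a => cond (c a) (f a) (g a)) S := by
  refine (CC.comp Lin.sel (hc.enc'.pair (hf.pair hg).enc')).ofEncOut (fun a => ?_)
  cases h : c a <;> simp [h] <;> rfl

@[fun_prop] theorem CC.and {f g : α → Bool} (hf : CC f S) (hg : CC g S) :
    CC (fun a => f a && g a) S :=
  (show CC (fun a => _root_.cond (f a) (g a) false) S by fun_prop).of_eq fun a => by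
    cases f a <;> simp
@[fun_prop] theorem CC.or {f g : α → Bool} (hf : CC f S) (hg : CC g S) :
    CC (fun a => f a || g a) S :=
  (show CC (fun a => _root_.cond (f a) true (g a)) S by fun_prop).of_eq fun a => by
    cases f a <;> simp
@[fun_prop] theorem CC.not {f : α → Bool} (hf : CC f S) : CC (fun a => !f a) S :=
  (show CC (fun a => _root_.cond (f a) false true) S by fun_prop).of_eq fun a => by
    cases f a <;> simp
@[fun_prop] theorem CC.xor {f g : α → Bool} (hf : CC f S) (hg : CC g S) :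
    CC (fun a => Bool.xor (f a) (g a)) S :=
  (show CC (fun a => _root_.cond (f a) (!g a) (g a)) S by fun_prop).of_eq fun a => by
    cases f a <;> simp

@[fun_prop] theorem CC.cons {f : α → β} {l : α → List β} (hf : CC f S) (hl : CC l S) :
    CC (fun a => f a :: l a) S := (hf.pair hl).ofEncOut (fun _ => rfl)

@[fun_prop] theorem CC.tail {l : α → List β} (hl : CC l S) : CC (fun a => (l a).tail) S := by
  refine (CC.comp Lin.cdr hl.enc').ofEncOut (fun a => ?_)
  cases l a <;> rfl

@[fun_prop] theorem CC.isEmpty {l : α → List β} (hl : CC l S) :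
    CC (fun a => (l a).isEmpty) S := by
  refine (CC.comp Lin.sel (hl.enc'.pair (CC.const (false, true)).enc')).ofEncOut (fun a => ?_)
  cases l a <;> rfl

@[fun_prop] theorem CC.headD {l : α → List β} {d : α → β} (hl : CC l S) (hd : CC d S) :
    CC (fun a => (l a).headD (d a)) S := by
  refine (hl.isEmpty.cond hd.enc' (CC.comp Lin.car hl.enc')).ofEncOut (fun a => ?_)
  cases l a <;> rfl

/-- strip a Boolean from register `r` and branch on it -/
def brB (r : ℕ) (p q : Prog) : Prog :=
  .seq (.pop r) (.ite r (.seq (.pop r) (.seq (.pop r) (.seq (.pop r) p))) (.seq (.pop r) q))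

theorem run_brT {r : ℕ} {p q : Prog} {s s' : St} {t : ℕ} (x : List Bool)
    (hs : s r = true :: (cd true ++ x)) (h : R p (update s r x) t s') :
    R (brB r p q) s (t + 5) s' := by
  have h1 : R (.seq (.pop r) (.seq (.pop r) (.seq (.pop r) p))) (update s r (s r).tail) (t + 3) s' := by
    refine ((R.pop r _).seq ((R.pop r _).seq ((R.pop r _).seq (t' := t) ?_))).mono (by omega)
    simpa [hs, cd_true] using h
  exact ((R.pop r s).seq (R.iteT (by simp [hs, cd_true]) h1)).mono (by omega)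

theorem run_brF {r : ℕ} {p q : Prog} {s s' : St} {t : ℕ} (x : List Bool)
    (hs : s r = true :: (cd false ++ x)) (h : R q (update s r x) t s') :
    R (brB r p q) s (t + 5) s' := by
  have h1 : R (.seq (.pop r) q) (update s r (s r).tail) (t + 1) s' := by
    refine ((R.pop r _).seq (t' := t) ?_).mono (by omega)
    simpa [hs, cd_false] using h
  exact ((R.pop r s).seq (R.iteF (by simp [hs, cd_false]) h1)).mono (by omega)

theorem cd_pair (a : α) (b : β) : cd (a, b) = true :: (cd a ++ cd b) := rfl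

/-- lazy conditional: only the chosen branch is evaluated -/
theorem CC.branch {c : α → Bool} {f g : α → β} {S1 S2 : α → ℕ → Prop} (hc : CC c S)
    (hf : CC f S1) (hg : CC g S2) (h1 : ∀ a T, S a T → c a = true → S1 a T)
    (h2 : ∀ a T, S a T → c a = false → S2 a T) :
    CC (fun a => _root_.cond (c a) (f a) (g a)) S := by
  obtain ⟨r, e, hr⟩ := hc.pair (CC.id' (S := S))
  obtain ⟨p, c1, hp⟩ := hf
  obtain ⟨q, c2, hq⟩ := hg
  refine CC.ofR (.seq r (brB 0 p q)) (e + c1 + c2 + 5) (fun a T hT => ?_)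
  cases hca : c a
  · have := R.seq (hr a T hT) (run_brF (r := 0) (p := p) (q := q) (cd a)
      (by simp [cd_pair, hca]) (by simpa using (show R _ _ _ _ from hq a T (h2 a T hT hca))))
    refine this.mono ?_
    nlinarith
  · have := R.seq (hr a T hT) (run_brT (r := 0) (p := p) (q := q) (cd a)
      (by simp [cd_pair, hca]) (by simpa using (show R _ _ _ _ from hp a T (h1 a T hT hca))))
    refine this.mono ?_
    nlinarith

example : Lin (fun x : (α × β) × List γ × γ => (x.1.2, x.2.2 :: x.2.1.tail, x.2.1.isEmpty)) := by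
  fun_prop

end Crest.Agent.H3.Ptime
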