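import Crest.Agent.H6.CCList
import Crest.Agent.H9.IMI

set_option autoImplicit false
set_option linter.unusedSectionVars false
set_option linter.unusedVariables false
set_option linter.unusedSimpArgs false

/-! Row 326: the core combinators. -/

namespace Crest.Agent.H3.Ptime
open Function

variable {α β γ σ δ ε : Type} [Enc α] [Enc β] [Enc γ] [Enc σ] [Enc δ] [Enc ε]

theorem MRun.det {cont : σ → Bool} {ctl : σ → Bool × Bool × Bool}
    {f : σ × List α × List β × List γ → σ × List α × List β × List γ}
    {S : σ × List α × List β × List γ → ℕ → Prop} {x y y' : σ × List α × List β × List γ}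
    {T T' : ℕ} (h : MRun cont ctl f S x T y) (h' : MRun cont ctl f S x T' y') : y = y' := by
  induction h generalizing T' with
  | stop x T h1 =>
    cases h' with
    | stop => rfl
    | step _ _ _ _ _ h2 => simp [h1] at h2
  | step x y T1 T2 T h1 h2 h3 h4 ih =>
    cases h' with
    | stop _ _ h5 => simp [h1] at h5
    | step _ _ _ _ _ _ _ h5 => exact ih h5

/-- the loop principle with preparation of the input and extraction of the output -/
theorem CC.mloop' {cont : σ → Bool} {ctl : σ → Bool × Bool × Bool}
    {f : σ × List α × List β × List γ → σ × List α × List β × List γ}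
    {S : σ × List α × List β × List γ → ℕ → Prop} (hc : Lin cont) (hctl : Lin ctl) (hf : CC f S)
    {G : δ → σ × List α × List β × List γ} {S0 : δ → ℕ → Prop} (hG : CC G S0)
    {H : σ × List α × List β × List γ → ε} (hH : Lin H) (F : δ → ε) :
    CC F (fun a T => S0 a T ∧ ∃ y, MRun cont ctl f S (G a) T y ∧ H y = F a) := by
  classical
  let E : σ × List α × List β × List γ → σ × List α × List β × List γ := fun x =>
    if h : ∃ y T, MRun cont ctl f S x T y then h.choose else x
  have hE : ∀ x T y, MRun cont ctl f S x T y → E x = y := by
    intro x T y h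
    have h' : ∃ y T, MRun cont ctl f S x T y := ⟨y, T, h⟩
    simp only [E, dif_pos h']
    obtain ⟨T', h2⟩ := h'.choose_spec
    exact h2.det h
  have h1 := (CC.mloop hc hctl hf E).comp2
    (S := fun a T => S0 a T ∧ ∃ y, MRun cont ctl f S (G a) T y ∧ H y = F a)
    (hG.mono (fun _ _ h => h.1)) (fun a T ⟨_, y, h, _⟩ => by rw [hE _ _ _ h]; exact h)
  exact (CC.comp hH h1).congr (fun a T ⟨_, y, h, e⟩ => by rw [hE _ _ _ h, e])

/-! ### plain loops -/

theorem CC.loop {step : σ → σ} {cont : σ → Bool} {S Sc : σ → ℕ → Prop}
    (hs : CC step S) (hc : CC cont Sc) (n : σ → ℕ) : CC (fun s => step^[n s] s) (fun s T =>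
      (∀ i < n s, cont (step^[i] s) = true) ∧ cont (step^[n s] s) = false ∧ ∃ τ : ℕ → ℕ,
        (∀ i ≤ n s, Sc (step^[i] s) (τ i) ∧ (i < n s → S (step^[i] s) (τ i))) ∧
        ∑ i ∈ Finset.range (n s + 1), (τ i + sz (step^[i] s)) ≤ T) := by
  let f : (Bool × σ) × List Unit × List Unit × List Unit →
      (Bool × σ) × List Unit × List Unit × List Unit :=
    fun x => ((cont (step x.1.2), step x.1.2), [], [], [])
  let Sf : (Bool × σ) × List Unit × List Unit × List Unit → ℕ → Prop :=
    fun x T => (∃ t ≤ T, S x.1.2 t) ∧ ∃ t ≤ T, Sc (step x.1.2) t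
  have h1 : CC (fun x : (Bool × σ) × List Unit × List Unit × List Unit => step x.1.2) Sf :=
    hs.up.comp2 (by fun_prop) (fun _ _ h => h.1)
  have hf : CC f Sf := ((hc.up.comp2 h1 (fun _ _ h => h.2)).pair h1).pair (CC.const _)
  have hG : CC (fun s : σ => ((cont s, s), ([] : List Unit), ([] : List Unit), ([] : List Unit)))
      (fun s T => ∃ t ≤ T, Sc s t) := (hc.up.pair CC.id').pair (CC.const _)
  have h := CC.mloop' (cont := fun b : Bool × σ => b.1) (ctl := fun _ => (false, false, false))
    (by fun_prop) (by fun_prop) hf hG (H := fun x => x.1.2) (by fun_prop) (fun s => step^[n s] s)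
  refine h.mono' 12 ?_
  rintro s T ⟨h1, h2, τ, h3, h4⟩
  have key : ∀ j i, i + j = n s → MRun (fun b : Bool × σ => b.1) (fun _ => (false, false, false)) f Sf
      ((cont (step^[i] s), step^[i] s), [], [], [])
      (12 * ∑ k ∈ Finset.Ico i (n s + 1), (τ k + sz (step^[k] s)) - τ (n s) * 11 - τ i)
      ((false, step^[n s] s), [], [], []) := by
    intro j
    induction j with
    | zero =>
      intro i hi
      obtain rfl : i = n s := by omega
      rw [h2]; exact .stop _ _ rfl
    | succ j ih =>
      intro i hi
      have e : mstep (fun _ => (false, false, false)) f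
          ((cont (step^[i] s), step^[i] s), [], [], []) =
          ((cont (step^[i + 1] s), step^[i + 1] s), [], [], []) := by
        simp [mstep, minp, f, iterate_succ_apply']
      refine .step _ _ (τ i + τ (i + 1)) _ _ (h1 i (by omega)) ?_ (by rw [e]; exact ih (i + 1) (by omega)) ?_
      · refine ⟨⟨τ i, by omega, (h3 i (by omega)).2 (by omega)⟩, τ (i + 1), by omega, ?_⟩
        have := (h3 (i + 1) (by omega)).1
        rwa [iterate_succ_apply'] at this
      · rw [Finset.sum_eq_sum_Ico_succ_bot (by omega : i < n s + 1)]
        have a1 : τ (n s) ≤ ∑ k ∈ Finset.Ico (i + 1) (n s + 1), (τ k + sz (step^[k] s)) :=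
          le_trans (by omega) (Finset.single_le_sum (f := fun k => τ k + sz (step^[k] s))
            (fun _ _ => Nat.zero_le _) (a := n s) (by simp; omega))
        have a2 : τ (i + 1) ≤ ∑ k ∈ Finset.Ico (i + 1) (n s + 1), (τ k + sz (step^[k] s)) :=
          le_trans (by omega) (Finset.single_le_sum (f := fun k => τ k + sz (step^[k] s))
            (fun _ _ => Nat.zero_le _) (a := i + 1) (by simp; omega))
        have := sz_bool (cont (step^[i] s))
        have := sz_pos (step^[i] s)
        simp [minp, sz_pair, sz_nil]
        omega
  refine ⟨12 * T, ⟨⟨τ 0, ?_, (h3 0 (by omega)).1⟩, _, (key (n s) 0 (by simp)).mono ?_, rfl⟩,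
    by omega⟩
  · have : τ 0 ≤ ∑ i ∈ Finset.range (n s + 1), (τ i + sz (step^[i] s)) :=
      le_trans (by omega) (Finset.single_le_sum (f := fun k => τ k + sz (step^[k] s))
        (fun _ _ => Nat.zero_le _) (a := 0) (by simp))
    omega
  · rw [← Finset.range_eq_Ico]; omega

/-! ### merging -/

def mergeF (le : α × α → Bool) (x : Bool × List α × List α × List α) :
    Bool × List α × List α × List α :=
  lcase x.2.1 (false, [], x.2.2.1, [])
    (fun a _ => lcase x.2.2.1 (false, [a], [], [])
      (fun b _ => bif le (a, b) then (true, [], [b], [a]) else (true, [a], [], [b])))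

theorem merge_run (le : α × α → Bool) (S : α × α → ℕ → Prop) (τ w : ℕ) :
    ∀ (n : ℕ) (l m acc : List α), l.length + m.length = n → (∀ a ∈ l, ∀ b ∈ m, S (a, b) τ) →
    (∀ a ∈ l ++ m, sz a ≤ w) →
    ∃ y, MRun (fun b : Bool => b) (fun _ => (true, true, false)) (mergeF le)
      (fun x T => ∀ a t b u, x.2.1 = a :: t → x.2.2.1 = b :: u → S (a, b) T) (true, l, m, acc)
      (n * (τ + 2 * w + 20) + 20) y ∧
      y.2.2.2.reverse ++ (y.2.1 ++ y.2.2.1) = acc.reverse ++ List.merge l m (fun a b => le (a, b)) := by
  intro n
  have hb := sz_bool true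
  induction n with
  | zero =>
    intro l m acc h _ _
    obtain rfl : l = [] := by simpa using (show l.length = 0 by omega)
    obtain rfl : m = [] := by simpa using h
    refine ⟨(false, [], [], acc), .step _ _ 0 0 _ rfl (by simp [minp]) ?_ ?_, by simp⟩
    · simpa [mstep, minp, mergeF] using MRun.stop _ _ rfl
    · simp [minp, sz_pair, sz_nil]; omega
  | succ n ih =>
    intro l m acc h hS hw
    have e : (n + 1) * (τ + 2 * w + 20) = n * (τ + 2 * w + 20) + (τ + 2 * w + 20) := by ring
    cases l with
    | nil =>
      cases m with
      | nil => simp at h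
      | cons b m =>
        refine ⟨(false, [], b :: m, acc), .step _ _ 0 0 _ rfl (by simp [minp]) ?_ ?_, by simp⟩
        · simpa [mstep, minp, mergeF] using MRun.stop _ _ rfl
        · have := hw b (by simp)
          simp [minp, sz_pair, sz_nil, sz_cons]; omega
    | cons a l =>
      cases m with
      | nil =>
        refine ⟨(false, a :: l, [], acc), .step _ _ 0 0 _ rfl (by simp [minp]) ?_ ?_, by simp⟩
        · simpa [mstep, minp, mergeF] using MRun.stop _ _ rfl
        · have := hw a (by simp)
          simp [minp, sz_pair, sz_nil, sz_cons]; omega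
      | cons b m =>
        have ha := hw a (by simp)
        have hb := hw b (by simp)
        have hab := hS a (by simp) b (by simp)
        cases hle : le (a, b)
        · obtain ⟨y, h1, h2⟩ := ih (a :: l) m (b :: acc) (by simp at h ⊢; omega)
            (fun x hx z hz => hS x hx z (by simp [hz]))
            (fun x hx => hw x (by simp at hx ⊢; tauto))
          refine ⟨y, .step _ _ τ _ _ rfl ?_ (by simpa [mstep, minp, mergeF, hle] using h1) ?_, ?_⟩
          · intro a' t b' u e1 e2
            simp [minp] at e1 e2
            rw [← e1.1, ← e2.1]; exact hab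
          · simp [minp, sz_pair, sz_nil, sz_cons]; omega
          · rw [h2, List.cons_merge_cons]; simp [hle]
        · obtain ⟨y, h1, h2⟩ := ih l (b :: m) (a :: acc) (by simp at h ⊢; omega)
            (fun x hx z hz => hS x (by simp [hx]) z hz)
            (fun x hx => hw x (by simp at hx ⊢; tauto))
          refine ⟨y, .step _ _ τ _ _ rfl ?_ (by simpa [mstep, minp, mergeF, hle] using h1) ?_, ?_⟩
          · intro a' t b' u e1 e2
            simp [minp] at e1 e2
            rw [← e1.1, ← e2.1]; exact hab
          · simp [minp, sz_pair, sz_nil, sz_cons]; omega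
          · rw [h2, List.cons_merge_cons]; simp [hle]

theorem CC.merge {le : α × α → Bool} {S : α × α → ℕ → Prop} (hle : CC le S) :
    CC (fun x : List α × List α => List.merge x.1 x.2 (fun a b => le (a, b))) (fun x T =>
      ∃ τ w : ℕ, (∀ a ∈ x.1, ∀ b ∈ x.2, S (a, b) τ) ∧ (∀ a ∈ x.1 ++ x.2, sz a ≤ w) ∧
        (x.1.length + x.2.length) * (τ + w) ≤ T) := by
  have hF : CC (mergeF le)
      (fun x T => ∀ a t b u, x.2.1 = a :: t → x.2.2.1 = b :: u → S (a, b) T) := by
    unfold mergeF
    refine CC.lcases (S1 := fun _ _ => True)
      (S2 := fun p T => ∀ b u, p.1.2.2.1 = b :: u → S (p.2.1, b) T) (by fun_prop) (by fun_prop)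
      (CC.lcases (S1 := fun _ _ => True) (S2 := fun q T => S (q.1.2.1, q.2.1) T)
        (by fun_prop) (by fun_prop) ?_ (fun _ _ _ _ => trivial) (fun p T b u h e => h b u e))
      (fun _ _ _ _ => trivial) (fun x T a t h e b u e' => h a t b u e e')
    refine CC.cond (hle.comp2 (by fun_prop) (fun _ _ h => h)) (by fun_prop) (by fun_prop)
  have h := CC.mloop' (cont := fun b : Bool => b) (ctl := fun _ => (true, true, false))
    (by fun_prop) (by fun_prop) hF
    (G := fun x : List α × List α => (true, x.1, x.2, ([] : List α))) (S0 := fun _ _ => True)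
    (by fun_prop) (H := fun y => y.2.2.2.reverse ++ (y.2.1 ++ y.2.2.1)) (by fun_prop)
    (fun x : List α × List α => List.merge x.1 x.2 (fun a b => le (a, b)))
  refine h.mono' 22 ?_
  rintro ⟨l, m⟩ T ⟨τ, w, h1, h2, h3⟩
  obtain ⟨y, h4, h5⟩ := merge_run le S τ w _ l m [] rfl h1 h2
  refine ⟨_, ⟨trivial, y, h4, by simpa using h5⟩, ?_⟩
  have := length_le_sz l
  have := length_le_sz m
  simp only [sz_pair] at h3 ⊢
  nlinarith

/-! ### unary numbers -/

theorem sz_replicate_unit (n : ℕ) : sz (List.replicate n ()) = 2 * n + 1 := by
  induction n with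
  | zero => rfl
  | succ n ih => rw [List.replicate_succ, sz_cons, ih, sz_unit]; omega

theorem sz_units (l : List Unit) : sz l = 2 * l.length + 1 := by
  rw [← sz_replicate_unit]; congr 1; exact List.eq_replicate_iff.2 ⟨rfl, fun _ _ => rfl⟩

theorem CC.unary : CC (fun n : ℕ => List.replicate n ()) (fun n T => n * (sz n + 1) ≤ T) := by
  have h := CC.foldl (f := fun (s : List Unit) (b : Bool) => bif b then () :: (s ++ s) else s ++ s)
    (S := fun _ _ => True) (by fun_prop)
  have hb : CC (fun n : ℕ => n.bits) (fun n T => n * (sz n + 1) ≤ T) := CC.ofEq (fun _ => rfl)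
  have hl : ∀ (l : List Bool) (s : List Unit),
      (l.foldl (fun (s : List Unit) (b : Bool) => bif b then () :: (s ++ s) else s ++ s) s).length =
      l.foldl (fun n b => Nat.bit b n) s.length := by
    intro l
    induction l with
    | nil => intro s; rfl
    | cons b l ih =>
      intro s
      rw [List.foldl_cons, List.foldl_cons, ih]
      congr 1
      cases b <;> simp [Nat.bit_val] <;> omega
  refine (h.comp3 ((CC.const ([] : List Unit)).pair hb.reverse) 3 (fun n T hT => ?_)).of_eq
    (fun n => ?_)
  · refine ⟨_, ⟨fun s l => l.foldl (fun n b => Nat.bit b n) s.length = n, fun _ => 2 * n + 1,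
      ofB_bits n, fun s x l h => ⟨?_, 0, trivial, ?_⟩, le_rfl⟩, ?_⟩
    · have := hl [x] s
      simp only [List.foldl_cons, List.foldl_nil] at this h ⊢
      rw [this]; exact h
    · beta_reduce at h ⊢
      rw [foldl_bit] at h
      rw [sz_units]
      have : s.length * 1 ≤ s.length * 2 ^ (x :: l).length :=
        Nat.mul_le_mul_left _ Nat.one_le_two_pow
      omega
    · have : n.bits.length ≤ sz n := length_le_sz n.bits
      simp
      nlinarith
  · exact List.eq_replicate_iff.2 ⟨by rw [hl]; exact ofB_bits n, fun _ _ => rfl⟩

/-! ### counting and cutting blocks -/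

/-- state: (continue, refilling); `A` the units to be counted, `B` counter units (`true`) above
marks (`false`), `C` the used counter units -/
def cntF (x : (Bool × Bool) × List Unit × List Bool × List Unit) :
    (Bool × Bool) × List Unit × List Bool × List Unit :=
  bif x.1.2 then (bif x.2.2.2.isEmpty then ((true, false), [], [], []) else ((true, true), [], [true], []))
  else bif x.2.2.1.headD false then
    (bif x.2.1.isEmpty then ((false, false), [], [true], []) else ((true, false), [], [], [()]))
  else ((true, true), x.2.1, false :: x.2.2.1, [])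

def cntC (s : Bool × Bool) : Bool × Bool × Bool := (!s.2, !s.2, s.2)

abbrev CntRun := MRun (fun s : Bool × Bool => s.1) cntC cntF (fun _ _ => True)

theorem sz_minp_cnt (x : (Bool × Bool) × List Unit × List Bool × List Unit) :
    sz (minp cntC x) ≤ 30 := by
  obtain ⟨⟨a, b⟩, A, B, C⟩ := x
  have h1 := sz_bool a
  have h2 := sz_bool b
  have hA : sz (popI (!b) A).1 ≤ 3 := by
    cases b <;> cases A <;> simp [sz_nil, sz_cons, sz_unit]
  have hB : sz (popI (!b) B).1 ≤ 5 := by
    cases b <;> cases B <;> simp [sz_nil, sz_cons]
    rename_i c _; have := sz_bool c; omega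
  have hC : sz (popI b C).1 ≤ 3 := by
    cases b <;> cases C <;> simp [sz_nil, sz_cons, sz_unit]
  simp only [minp, cntC, sz_pair]; omega

theorem CntRun.step' {x y : (Bool × Bool) × List Unit × List Bool × List Unit} {T : ℕ}
    (h1 : x.1.1 = true) (h : CntRun (mstep cntC cntF x) T y) : CntRun x (T + 30) y :=
  .step _ _ 0 T _ h1 trivial h (by have := sz_minp_cnt x; omega)

theorem cnt_refill (A : List Unit) (y : (Bool × Bool) × List Unit × List Bool × List Unit) (T : ℕ) :
    ∀ (j : ℕ) (B : List Bool), CntRun ((true, false), A, List.replicate j true ++ B, []) T y →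
      CntRun ((true, true), A, B, List.replicate j ()) (T + 30 * (j + 1)) y := by
  intro j
  induction j with
  | zero =>
    intro B h
    exact CntRun.step' rfl (by simpa [mstep, minp, cntF, cntC] using h)
  | succ j ih =>
    intro B h
    have := ih (true :: B) (by rwa [List.replicate_succ', List.append_assoc] at h)
    exact (CntRun.step' rfl
      (by simpa [mstep, minp, cntF, cntC, List.replicate_succ] using this)).mono (by omega)

theorem cnt_use (B : List Bool) (y : (Bool × Bool) × List Unit × List Bool × List Unit) (T n : ℕ) :
    ∀ (j i : ℕ), CntRun ((true, false), List.replicate n (), B, List.replicate (j + i) ()) T y →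
      CntRun ((true, false), List.replicate (j + n) (), List.replicate j true ++ B,
        List.replicate i ()) (T + 30 * j) y := by
  intro j
  induction j with
  | zero => intro i h; simpa using h
  | succ j ih =>
    intro i h
    have := ih (i + 1) (by rwa [show j + (i + 1) = j + 1 + i by omega])
    rw [show j + 1 + n = (j + n) + 1 by omega]
    exact (CntRun.step' rfl
      (by simpa [mstep, minp, cntF, cntC, List.replicate_succ] using this)).mono (by omega)

theorem cnt_run (k : ℕ) (hk : 0 < k) : ∀ (q r m : ℕ), r < k →
    ∃ y, CntRun ((true, false), List.replicate (q * k + r) (),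
      List.replicate k true ++ List.replicate m false, []) (120 * (q * k + r) + 30) y ∧
      y.2.2.1.filter (fun b => !b) = List.replicate (m + q) false := by
  intro q
  induction q with
  | zero =>
    intro r m hr
    obtain ⟨s, rfl⟩ : ∃ s, k = r + (s + 1) := ⟨k - r - 1, by omega⟩
    refine ⟨((false, false), [], List.replicate (s + 1) true ++ List.replicate m false,
      List.replicate r ()), ?_, by simp⟩
    have h0 : CntRun ((true, false), List.replicate 0 (),
        List.replicate (s + 1) true ++ List.replicate m false, List.replicate (r + 0) ()) (0 + 30)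
        ((false, false), [], List.replicate (s + 1) true ++ List.replicate m false,
          List.replicate r ()) :=
      CntRun.step' rfl (by
        simpa [mstep, minp, cntF, cntC, List.replicate_succ] using MRun.stop _ _ rfl)
    have := cnt_use _ _ _ 0 r 0 h0
    rw [← List.append_assoc, ← List.replicate_add] at this
    simpa using this.mono (by omega)
  | succ q ih =>
    intro r m hr
    obtain ⟨y, h1, h2⟩ := ih r (m + 1) hr
    refine ⟨y, ?_, by rw [h2]; congr 1; omega⟩
    have h3 := cnt_refill _ _ _ _ _ h1
    have h4 : CntRun ((true, false), List.replicate (q * k + r) (), List.replicate m false,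
        List.replicate (k + 0) ()) _ y := CntRun.step' rfl (by
      have e : mstep cntC cntF ((true, false), List.replicate (q * k + r) (),
          List.replicate m false, List.replicate (k + 0) ()) = ((true, true),
          List.replicate (q * k + r) (), List.replicate (m + 1) false, List.replicate k ()) := by
        generalize List.replicate (q * k + r) () = A
        cases m <;> cases A <;> simp [mstep, minp, cntF, cntC, List.replicate_succ]
      rw [e]; exact h3)
    have h5 := cnt_use _ _ _ _ k 0 h4
    rw [show (q + 1) * k + r = k + (q * k + r) by ring]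
    exact h5.mono (by omega)

/-- the quotient of two lengths, in unary -/
theorem Lin.divL : Lin (fun x : List α × List β =>
    List.replicate (x.1.length / x.2.length) false) := by
  have h := CC.mloop' (cont := fun s : Bool × Bool => s.1) (ctl := cntC) (f := cntF)
    (S := fun _ _ => True) (by fun_prop) (by unfold cntC; fun_prop) (by unfold cntF; fun_prop)
    (G := fun x : List α × List β => ((true, false), x.1.map (fun _ => ()),
      x.2.map (fun _ => true), [])) (S0 := fun _ _ => True) (by fun_prop)
    (H := fun y => y.2.2.1.filter (fun b => !b)) (by fun_prop)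
    (fun x : List α × List β => List.replicate (x.1.length / x.2.length) false)
  have h2 : CC (fun x : List α × List β => List.replicate (x.1.length / x.2.length) false)
      (fun x _ => x.2 ≠ []) := by
    refine h.mono' 120 ?_
    rintro ⟨l, u⟩ T hu
    have hk : 0 < u.length := List.length_pos_iff.2 hu
    obtain ⟨y, h1, h2⟩ := cnt_run u.length hk (l.length / u.length) (l.length % u.length) 0
      (Nat.mod_lt _ hk)
    rw [Nat.div_add_mod'] at h1
    refine ⟨_, ⟨trivial, y, by simpa using h1, by simpa using h2⟩, ?_⟩
    have := length_le_sz l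
    rw [sz_pair]; omega
  refine (CC.branch (c := fun x : List α × List β => x.2.isEmpty) (S := fun _ _ => True)
    (by fun_prop) (CC.const (S := fun _ _ => True) []) h2 (fun _ _ _ _ => trivial)
    (fun x _ _ h => by simpa using h)).of_eq (fun x => ?_)
  obtain ⟨l, u⟩ := x
  cases u <;> simp

def emitC (p : α × Bool) : List Bool := (bif p.2 then [false, true] else []) ++ true :: cd p.1

theorem emitC_rest (c : List α) :
    (c.zip (List.replicate c.length false)).flatMap emitC ++ [false] = cd c := by
  induction c with
  | nil => rfl
  | cons x c ih => simp [List.replicate_succ, emitC, cd_cons, ← ih]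

theorem emitC_all (k : ℕ) : ∀ (q : ℕ) (l : List α), q * (k + 1) ≤ l.length →
    (l.zip ((List.replicate q false).flatMap (fun _ => true :: List.replicate k false))).flatMap
      emitC ++ [false, false] =
    false :: cd ((List.range q).map (fun j => (l.drop (j * (k + 1))).take (k + 1))) := by
  intro q
  induction q with
  | zero => intro l _; simp [cd_nil]
  | succ q ih =>
    intro l hl
    have hl' : k + 1 ≤ l.length := le_trans (by nlinarith) hl
    have h1 := ih (l.drop (k + 1)) (by simp; rw [add_mul] at hl; omega)
    rw [List.range_succ_eq_map, List.map_cons, List.map_map, cd_cons]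
    have e : (fun j => (l.drop (j * (k + 1))).take (k + 1)) ∘ Nat.succ =
        fun j => ((l.drop (k + 1)).drop (j * (k + 1))).take (k + 1) := by
      funext j; simp [List.drop_drop]; congr 2; ring
    rw [e]
    cases l with
    | nil => simp at hl'
    | cons x l =>
      have h2 := emitC_rest (l.take k)
      have h3 : (l.take k).length = k := by simp at hl' ⊢; omega
      rw [h3] at h2
      simp only [List.drop_succ_cons] at h1 ⊢
      rw [List.replicate_succ, List.flatMap_cons]
      conv_lhs => rw [← List.take_append_drop k l]
      rw [List.cons_append, List.zip_cons_cons, List.zip_append (by simp [h3]), List.flatMap_cons,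
        List.flatMap_append, List.append_assoc, List.append_assoc, h1]
      simp [emitC, cd_cons, ← h2]

theorem Lin.chunks : Lin (fun x : List Unit × List α => H9.IM.chunks x.1.length x.2) := by
  have h1 : Lin (fun x : List Unit × List α => List.replicate (x.2.length / x.1.length) false) :=
    CC.comp (f := fun x : List Unit × List α => (x.2, x.1)) Lin.divL (by fun_prop)
  have h2 : Lin (fun x : List Unit × List α =>
      (List.replicate (x.2.length / x.1.length) false).flatMap
        (fun _ => true :: x.1.tail.map (fun _ => false))) := by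
    refine (CC.flatMapC (f := fun (c : List Unit) (_ : Bool) => true :: c.tail.map (fun _ => false))
      (S := fun _ _ => True) (by fun_prop)).comp3 ((CC.fst CC.id').pair h1) 3 (fun x T _ => ?_)
    refine ⟨_, ⟨fun _ => 0, fun _ _ => trivial, le_rfl⟩, ?_⟩
    obtain ⟨u, l⟩ := x
    have := length_le_sz l
    have := Nat.div_mul_le_self l.length u.length
    have := Nat.div_le_self l.length u.length
    simp [sz_units u, sz_pair]
    nlinarith
  have h3 : Lin (emitC (α := α)) := by
    unfold emitC
    exact CC.append (by fun_prop) ((CC.const _).cons (CC.cd' (by fun_prop)))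
  refine CC.ofRaw (((((CC.snd CC.id').zip h2).flatMapL h3).append
    (CC.const [false, false])).tail.of_eq (fun x => ?_))
  obtain ⟨u, l⟩ := x
  cases u with
  | nil => simp [H9.IM.chunks, cd_nil]
  | cons a u =>
    have := emitC_all u.length (l.length / (u.length + 1)) l (Nat.div_mul_le_self _ _)
    simp only [List.length_cons, List.tail_cons, List.map_const', H9.IM.chunks]
    rw [this]; rfl

end Crest.Agent.H3.Ptime

namespace Crest.Agent.H9.IM
open Crest.Agent.H3.Ptime

theorem mapAcc_scan {σ α β : Type} (f : σ × α → σ × β) (s : σ) (l : List α) :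
    mapAcc (fun s a => ((f (s, a)).1, [(f (s, a)).2])) s l = scan f s l := by
  induction l generalizing s with
  | nil => rfl
  | cons x l ih => simp [mapAcc, scan, ih]

theorem coreStmt : CoreStmt where
  scan' := by
    intro σ α β _ _ _ f S hf
    have h := CC.mapAcc (f := fun s a => ((f (s, a)).1, [(f (s, a)).2])) (S := S)
      (hf.fst.pair (hf.snd.cons (CC.const _)))
    refine (h.of_eq (fun x => mapAcc_scan f _ _)).mono ?_
    rintro ⟨s, l⟩ T ⟨τ, h1, h2⟩
    refine AccRun.mono ?_ h2
    clear h2
    induction l generalizing s with
    | nil => exact .nil _ _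
    | cons x l ih =>
      exact .cons _ _ _ (τ (s, x)) _ _ (h1 _ (by simp [visits]))
        (ih _ (fun y hy => h1 y (by simp [visits, hy]))) (by simp [visits])
  map := by
    intro ε α β _ _ _ f S hf
    refine (CC.mapC (f := fun e a => f (e, a)) (S := S) hf).mono ?_
    rintro ⟨e, l⟩ T ⟨τ, h1, h2⟩
    exact ⟨τ, h1, by rwa [sum_map_add_const] at h2⟩
  loop := fun hs hc n => CC.loop hs hc n
  append := Lin.append
  reverse := by intro α _; fun_prop
  flatten := by intro α _; fun_prop
  zip := by intro α β _ _; fun_prop
  take := by intro α β _ _; exact CC.takeL (CC.fst CC.id') (CC.snd CC.id')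
  drop := by intro α β _ _; exact CC.dropL (CC.fst CC.id') (CC.snd CC.id')
  chunks' := Lin.chunks
  unary := CC.unary
  merge := fun h => CC.merge h

end Crest.Agent.H9.IM
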