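import Crest.Agent.H6.CCLoop

set_option autoImplicit false
set_option linter.unusedSectionVars false
set_option linter.unusedVariables false
set_option linter.unusedSimpArgs false

/-! Exact-cost calculus: streaming list operations. -/

namespace Crest.Agent.H3.Ptime
open Function

variable {α β γ σ : Type} [Enc α] [Enc β] [Enc γ] [Enc σ]

/-- case distinction on a list -/
def lcase (l : List β) (g : γ) (h : β → List β → γ) : γ :=
  match l with
  | [] => g
  | x :: t => h x t

@[simp] theorem lcase_nil (g : γ) (h : β → List β → γ) : lcase [] g h = g := rfl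
@[simp] theorem lcase_cons (x : β) (t : List β) (g : γ) (h : β → List β → γ) :
    lcase (x :: t) g h = h x t := rfl

/-- lazy case distinction on a list -/
theorem CC.lcases {l : α → List β} {g : α → γ} {h : α → β → List β → γ} {S S1 : α → ℕ → Prop}
    {S2 : α × β × List β → ℕ → Prop} (hl : CC l S) (hg : CC g S1)
    (hh : CC (fun p : α × β × List β => h p.1 p.2.1 p.2.2) S2)
    (h1 : ∀ a T, S a T → l a = [] → S1 a T)
    (h2 : ∀ a T x t, S a T → l a = x :: t → S2 (a, x, t) T) :
    CC (fun a => lcase (l a) (g a) (h a)) S := by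
  obtain ⟨d, hd⟩ := hl.szb
  obtain ⟨r, e, hr⟩ := hl.isEmpty.pair ((CC.id' (S := S)).pair hl)
  obtain ⟨p, c1, hp⟩ := hg.comp2 (f := fun x : α × List β => x.1)
    (S := fun x T => S1 x.1 T) (by fun_prop) (fun _ _ h => h)
  obtain ⟨q, c2, hq⟩ := hh
  refine CC.ofR (.seq r (brB 0 p q)) (e + (c1 + c2) * (d + 2) + 5) (fun a T hT => ?_)
  have h3 := hd a T hT
  obtain ⟨U, hU⟩ : ∃ U, U = T + sz a + 1 := ⟨_, rfl⟩
  have h4 : T + sz (a, l a) + 1 ≤ (d + 2) * U := by
    rw [sz_pair, add_mul, hU]; omega
  have h5 : (e + (c1 + c2) * (d + 2) + 5) * U =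
    e * U + c1 * ((d + 2) * U) + c2 * ((d + 2) * U) + 5 * U := by ring
  have hr' : R r _ _ _ := hr a T hT
  cases hla : l a with
  | nil =>
    have hp' : R p _ _ _ := hp (a, l a) T (h1 a T hT hla)
    have := R.seq hr' (run_brT (r := 0) (p := p) (q := q) (cd (a, l a))
      (by simp [cd_pair, hla]) (by simpa using hp'))
    refine (this.mono ?_).cast (by simp)
    have := Nat.mul_le_mul_left c1 h4
    rw [← hU, h5]; omega
  | cons x t =>
    have hq' : R q (sg (cd (a, x :: t))) (c2 * (T + sz (a, x :: t) + 1)) _ :=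
      hq (a, x, t) T (h2 a T x t hT hla)
    rw [← hla] at hq'
    have := R.seq hr' (run_brF (r := 0) (p := p) (q := q) (cd (a, l a))
      (by simp [cd_pair, hla]) (by simpa using hq'))
    refine (this.mono ?_).cast (by simp)
    have := Nat.mul_le_mul_left c2 h4
    rw [← hU, h5]; omega

/-- strict form for `fun_prop` with linear branches -/
theorem CC.lcase' {l : α → List β} {g : α → γ} {h : α → β → List β → γ} {S : α → ℕ → Prop}
    (hl : CC l S) (hg : CC g S)
    (hh : CC (fun p : α × β × List β => h p.1 p.2.1 p.2.2) (fun p T => S p.1 T)) :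
    CC (fun a => lcase (l a) (g a) (h a)) S :=
  hl.lcases hg hh (fun _ _ h _ => h) (fun _ _ _ _ h _ => h)

/-! ### raw codes -/

theorem CC.cd' {f : α → β} {S : α → ℕ → Prop} (hf : CC f S) : CC (fun a => cd (f a)) S := by
  refine CC.comp (g := fun b : β => cd b) (CC.ofR inP 24 (fun b T _ => (run_in (cd b)).mono ?_)) hf
  unfold sz; omega

/-- it is enough to produce the code of the result as a list of bits -/
theorem CC.ofRaw {f : α → β} {S : α → ℕ → Prop} (hf : CC (fun a => cd (f a)) S) : CC f S := by
  obtain ⟨d, hd⟩ := hf.szb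
  obtain ⟨p, c, hp⟩ := hf
  refine CC.ofR (.seq p outP) (c + 12 * d + 5) (fun a T hT => ?_)
  refine (R.seq (hp a T hT) (run_out _)).mono ?_
  have := hd a T hT
  have := length_le_sz (cd (f a))
  nlinarith

/-! ### append and reverse -/

theorem Lin.append : Lin (fun x : List α × List α => x.1 ++ x.2) := by
  refine CC.ofR (.seq (.pop 0) (.seq (splitG 0 1 2) (.seq (.pop 1) (mv 1 0)))) 9 (fun x T _ => ?_)
  obtain ⟨l, m⟩ := x
  obtain ⟨w, h1, h2⟩ := cd_append l
  have h1' : (enc l).code = w ++ [false] := h1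
  rw [sg_eq_sL _ 2, sg_eq_sL _ 2]
  have s0 : R (.pop 0) (sL [cd (l, m), [], []]) 1 (sL [cd l ++ cd m, [], []]) :=
    (R.pop 0 _).cast (by simp [sL_up, cd_pair])
  have s1 : R (splitG 0 1 2) (sL [cd l ++ cd m, [], []]) (5 * sz l + 2)
      (sL [cd m, false :: w.reverse, []]) :=
    (run_splitG (by omega) (by omega) (by omega) (enc l) (cd m) _ rfl rfl).cast
      (by simp [sL_up, h1'])
  have s2 : R (.pop 1) (sL [cd m, false :: w.reverse, []]) 1 (sL [cd m, w.reverse, []]) :=
    (R.pop 1 _).cast (by simp [sL_up])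
  have s3 : R (mv 1 0) (sL [cd m, w.reverse, []]) _ (sL [cd (l ++ m), [], []]) :=
    (run_mv (a := 1) (b := 0) (by omega) w.reverse _ rfl).cast (by simp [sL_up, h2])
  refine (s0.seq (s1.seq (s2.seq s3))).mono ?_
  have : sz l = w.length + 1 := by simp [sz, h1]
  have := sz_pos m
  rw [sz_pair]; simp; omega

@[fun_prop] theorem CC.append {l m : α → List β} {S : α → ℕ → Prop} (hl : CC l S) (hm : CC m S) :
    CC (fun a => l a ++ m a) S := CC.comp Lin.append (hl.pair hm)

def revF (x : Bool × List α × List Unit × List α) : Bool × List α × List Unit × List α :=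
  (!x.2.1.isEmpty, [], [], x.2.1)

theorem rev_run (l m : List α) : MRun (fun b : Bool => b) (fun _ => (true, false, false)) revF
    (fun _ _ => True) (true, l, ([] : List Unit), m) (20 * sz l) (false, [], [], l.reverseAux m) := by
  induction l generalizing m with
  | nil =>
    refine .step _ _ 0 0 _ rfl trivial (.stop _ _ rfl) ?_
    simp [minp, sz_pair, sz_nil]; have := sz_bool true; omega
  | cons x l ih =>
    refine .step _ _ 0 _ _ rfl trivial (ih (x :: m)) ?_
    simp [minp, sz_pair, sz_nil, sz_cons]; have := sz_bool true; omega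

theorem Lin.reverseAux : Lin (fun x : List α × List α => x.1.reverseAux x.2) := by
  have h := CC.mloop (cont := fun b : Bool => b) (ctl := fun _ => (true, false, false))
    (f := revF (α := α)) (S := fun _ _ => True) (by fun_prop) (by fun_prop)
    (by unfold revF; fun_prop) (fun x => (false, [], [], x.2.1.reverseAux x.2.2.2))
  have h2 := h.comp3 (f := fun x : List α × List α => (true, x.1, ([] : List Unit), x.2))
    (S := fun _ _ => True) (by fun_prop) 20 (fun x T _ => ⟨_, rev_run x.1 x.2, by
      obtain ⟨a, b⟩ := x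
      rw [sz_pair]; simp; omega⟩)
  exact h2.snd.snd.snd

@[fun_prop] theorem CC.reverseAux {l m : α → List β} {S : α → ℕ → Prop} (hl : CC l S)
    (hm : CC m S) : CC (fun a => (l a).reverseAux (m a)) S := CC.comp Lin.reverseAux (hl.pair hm)

@[fun_prop] theorem CC.reverse {l : α → List β} {S : α → ℕ → Prop} (hl : CC l S) :
    CC (fun a => (l a).reverse) S := (hl.reverseAux (CC.const [])).of_eq (fun _ => rfl)

/-! ### transducers -/

/-- run a transducer along a list: final state and concatenated outputs -/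
def mapAcc (f : σ → α → σ × List β) : σ → List α → σ × List β
  | s, [] => (s, [])
  | s, x :: l => ((mapAcc f (f s x).1 l).1, (f s x).2 ++ (mapAcc f (f s x).1 l).2)

/-- the cost of a transducer run: the costs of the steps and the sizes of the states -/
inductive AccRun (f : σ → α → σ × List β) (S : σ × α → ℕ → Prop) : σ → List α → ℕ → Prop
  | nil (s : σ) (T : ℕ) : AccRun f S s [] T
  | cons (s : σ) (x : α) (l : List α) (T1 T2 T : ℕ) : S (s, x) T1 → AccRun f S (f s x).1 l T2 →
      T1 + sz s + T2 ≤ T → AccRun f S s (x :: l) T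

def accF (f : σ → α → σ × List β) (x : (Bool × σ) × List α × List Unit × List β) :
    (Bool × σ) × List α × List Unit × List β :=
  lcase x.2.1 ((false, x.1.2), [], [], [])
    (fun a _ => ((true, (f x.1.2 a).1), [], [], (f x.1.2 a).2.reverse))

theorem acc_run (f : σ → α → σ × List β) (S : σ × α → ℕ → Prop) (d : ℕ)
    (hd : ∀ a T, S a T → sz (f a.1 a.2) ≤ d * (T + sz a + 1)) {s : σ} {l : List α} {T : ℕ}
    (h : AccRun f S s l T) (m : List β) :
    MRun (fun b : Bool × σ => b.1) (fun _ => (true, false, false)) (accF f)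
      (fun x T => ∀ a t, x.2.1 = a :: t → S (x.1.2, a) T) ((true, s), l, ([] : List Unit), m)
      ((2 * d + 20) * (T + sz l) + sz s)
      ((false, (mapAcc f s l).1), [], [], (mapAcc f s l).2.reverse ++ m) := by
  induction h generalizing m with
  | nil s T =>
    refine .step _ _ 0 0 _ rfl (by simp [minp]) (.stop _ _ rfl) ?_
    simp [minp, sz_pair, sz_nil]; have := sz_bool true; nlinarith
  | cons s x l T1 T2 T h1 h2 h3 ih =>
    have ih' := ih ((f s x).2.reverse ++ m)
    have e : (mapAcc f (f s x).1 l).2.reverse ++ ((f s x).2.reverse ++ m) =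
      (mapAcc f s (x :: l)).2.reverse ++ m := by simp [mapAcc]
    rw [e] at ih'
    refine .step _ _ T1 _ _ rfl ?_ ih' ?_
    · intro a t h
      simp [minp] at h
      simpa [minp, ← h.1] using h1
    · have h4 := hd _ _ h1
      have h5 : sz (f s x).1 ≤ sz (f s x) := by
        generalize f s x = y; obtain ⟨a, b⟩ := y; rw [sz_pair]; simp; omega
      simp only [sz_pair] at h4
      simp [minp, sz_pair, sz_nil, sz_cons]
      have := sz_bool true
      have h6 : (2 * d + 20) * (T1 + sz s + T2 + (sz x + sz l + 1)) ≤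
        (2 * d + 20) * (T + (sz x + sz l + 1)) := Nat.mul_le_mul_left _ (by omega)
      nlinarith

theorem CC.mapAcc {f : σ → α → σ × List β} {S : σ × α → ℕ → Prop}
    (hf : CC (fun p : σ × α => f p.1 p.2) S) :
    CC (fun p : σ × List α => mapAcc f p.1 p.2) (fun p T => AccRun f S p.1 p.2 T) := by
  obtain ⟨d, hd⟩ := hf.szb
  have hF : CC (accF f) (fun x T => ∀ a t, x.2.1 = a :: t → S (x.1.2, a) T) := by
    unfold accF
    have h1 : CC (fun p : ((Bool × σ) × List α × List Unit × List β) × α × List α =>
        f p.1.1.2 p.2.1) (fun p T => S (p.1.1.2, p.2.1) T) :=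
      hf.comp2 (f := fun p : ((Bool × σ) × List α × List Unit × List β) × α × List α =>
        (p.1.1.2, p.2.1)) (by fun_prop) (fun _ _ h => h)
    exact CC.lcases (S1 := fun _ _ => True) (S2 := fun p T => S (p.1.1.2, p.2.1) T)
      (by fun_prop) (by fun_prop)
      (((CC.const true).pair h1.fst).pair ((CC.const _).pair ((CC.const _).pair h1.snd.reverse)))
      (fun _ _ _ _ => trivial) (fun a T x t h e => h x t e)
  have h := CC.mloop (cont := fun b : Bool × σ => b.1) (ctl := fun _ => (true, false, false))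
    (by fun_prop) (by fun_prop) hF
    (fun x => ((false, (Ptime.mapAcc f x.1.2 x.2.1).1), [], [],
      (Ptime.mapAcc f x.1.2 x.2.1).2.reverse ++ x.2.2.2))
  have h2 := h.comp3 (f := fun x : σ × List α => ((true, x.1), x.2, ([] : List Unit),
    ([] : List β))) (S := fun p T => AccRun f S p.1 p.2 T) (by fun_prop) (2 * d + 21)
    (fun x T hx => ⟨_, acc_run f S d hd hx [], by
      obtain ⟨a, b⟩ := x
      rw [sz_pair]; simp; nlinarith⟩)
  exact (h2.fst.snd.pair h2.snd.snd.snd.reverse).of_eq (fun x => by simp)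

/-- a uniform way to bound a transducer run: an invariant on states -/
theorem AccRun.of_inv {f : σ → α → σ × List β} {S : σ × α → ℕ → Prop} (I : σ → List α → Prop)
    (τ : α → ℕ) (hI : ∀ s x l, I s (x :: l) → I (f s x).1 l ∧ ∃ t, S (s, x) t ∧ t + sz s ≤ τ x) :
    ∀ (l : List α) (s : σ), I s l → AccRun f S s l (l.map τ).sum := by
  intro l
  induction l with
  | nil => intro s _; exact .nil _ _
  | cons x l ih =>
    intro s hs
    obtain ⟨h1, t, h2, h3⟩ := hI s x l hs
    exact .cons _ _ _ t _ _ h2 (ih _ h1) (by simp; omega)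

theorem AccRun.mono {f : σ → α → σ × List β} {S : σ × α → ℕ → Prop} {s : σ} {l : List α}
    {T T' : ℕ} (h : AccRun f S s l T) (hT : T ≤ T') : AccRun f S s l T' := by
  cases h with
  | nil => exact .nil _ _
  | cons _ x l T1 T2 _ h1 h2 h3 => exact .cons _ _ _ T1 T2 _ h1 h2 (h3.trans hT)

theorem mapAcc_flatMap (f : γ → α → List β) (c : γ) (l : List α) :
    mapAcc (fun c x => (c, f c x)) c l = (c, l.flatMap (f c)) := by
  induction l with
  | nil => rfl
  | cons x l ih => simp [mapAcc, ih]

theorem sum_map_add_const (τ : α → ℕ) (k : ℕ) (l : List α) :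
    (l.map (fun x => τ x + k)).sum = (l.map τ).sum + l.length * k := by
  induction l with
  | nil => simp
  | cons x l ih => simp [ih]; ring

/-- `flatMap` with a context that is copied for every item -/
theorem CC.flatMapC {f : γ → α → List β} {S : γ × α → ℕ → Prop}
    (hf : CC (fun p : γ × α => f p.1 p.2) S) :
    CC (fun p : γ × List α => p.2.flatMap (f p.1)) (fun p T => ∃ τ : α → ℕ,
      (∀ x ∈ p.2, S (p.1, x) (τ x)) ∧ (p.2.map τ).sum + p.2.length * sz p.1 ≤ T) := by
  have h := CC.mapAcc (f := fun c x => (c, f c x)) (S := S) (by fun_prop)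
  refine (h.snd.of_eq (fun p => by rw [mapAcc_flatMap])).mono ?_
  rintro ⟨c, l⟩ T ⟨τ, h1, h2⟩
  refine (AccRun.of_inv (fun s l' => s = c ∧ ∀ x ∈ l', S (c, x) (τ x)) (fun x => τ x + sz c)
    ?_ l c ⟨rfl, h1⟩).mono (by rw [sum_map_add_const]; exact h2)
  rintro s x l ⟨rfl, h⟩
  exact ⟨⟨rfl, fun y hy => h y (List.mem_cons_of_mem _ hy)⟩, τ x, h x List.mem_cons_self, le_rfl⟩

/-- `map` with a context that is copied for every item -/
theorem CC.mapC {f : γ → α → β} {S : γ × α → ℕ → Prop}
    (hf : CC (fun p : γ × α => f p.1 p.2) S) :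
    CC (fun p : γ × List α => p.2.map (f p.1)) (fun p T => ∃ τ : α → ℕ,
      (∀ x ∈ p.2, S (p.1, x) (τ x)) ∧ (p.2.map τ).sum + p.2.length * sz p.1 ≤ T) :=
  (CC.flatMapC (f := fun c x => [f c x]) (S := S) (by fun_prop)).of_eq (fun p => by
    induction p.2 with
    | nil => rfl
    | cons x l ih => simp [ih])

theorem CC.flatMap {f : α → List β} {S : α → ℕ → Prop} (hf : CC f S) :
    CC (fun l : List α => l.flatMap f) (fun l T => ∃ τ : α → ℕ,
      (∀ x ∈ l, S x (τ x)) ∧ (l.map τ).sum ≤ T) := by
  have h := CC.flatMapC (γ := Unit) (f := fun _ x => f x) (S := fun p T => S p.2 T)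
    (hf.comp2 (by fun_prop) (fun _ _ h => h))
  refine h.comp3 (f := fun l : List α => ((), l)) (by fun_prop) 1 ?_
  rintro l T ⟨τ, h1, h2⟩
  refine ⟨T + sz l, ⟨τ, h1, ?_⟩, by omega⟩
  have := length_le_sz l
  simp [sz_unit]; omega

theorem CC.map {f : α → β} {S : α → ℕ → Prop} (hf : CC f S) :
    CC (fun l : List α => l.map f) (fun l T => ∃ τ : α → ℕ,
      (∀ x ∈ l, S x (τ x)) ∧ (l.map τ).sum ≤ T) :=
  (CC.flatMap (f := fun x => [f x]) (S := S) (by fun_prop)).of_eq (fun l => by
    induction l with
    | nil => rfl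
    | cons x l ih => simp [ih])

/-- uniform cost per item -/
theorem CC.mapU {f : α → β} {S : α → ℕ → Prop} (hf : CC f S) :
    CC (fun l : List α => l.map f) (fun l T => ∃ t, (∀ x ∈ l, S x t) ∧ l.length * t ≤ T) :=
  hf.map.mono (fun l T ⟨t, h1, h2⟩ => ⟨fun _ => t, h1, by simpa using h2⟩)

/-- uniform cost per item, with a context -/
theorem CC.mapCU {f : γ → α → β} {S : γ × α → ℕ → Prop}
    (hf : CC (fun p : γ × α => f p.1 p.2) S) :
    CC (fun p : γ × List α => p.2.map (f p.1)) (fun p T => ∃ t,
      (∀ x ∈ p.2, S (p.1, x) t) ∧ p.2.length * (t + sz p.1) ≤ T) :=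
  hf.mapC.mono (fun l T ⟨t, h1, h2⟩ => ⟨fun _ => t, h1, by simpa [mul_add] using h2⟩)

@[fun_prop] theorem CC.flatMapL {l : α → List β} {f : β → List γ} {S : α → ℕ → Prop}
    (hl : CC l S) (hf : CC f (fun _ _ => True)) : CC (fun a => (l a).flatMap f) S :=
  hf.flatMap.comp2 hl (fun a T _ => ⟨fun _ => 0, fun _ _ => trivial, by simp⟩)

@[fun_prop] theorem CC.mapL {l : α → List β} {f : β → γ} {S : α → ℕ → Prop}
    (hl : CC l S) (hf : CC f (fun _ _ => True)) : CC (fun a => (l a).map f) S :=
  hf.map.comp2 hl (fun a T _ => ⟨fun _ => 0, fun _ _ => trivial, by simp⟩)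

@[fun_prop] theorem CC.flatten {l : α → List (List β)} {S : α → ℕ → Prop} (hl : CC l S) :
    CC (fun a => (l a).flatten) S :=
  (CC.flatMapL (f := fun x => x) hl CC.id').of_eq (fun a => by simp [List.flatMap])

@[fun_prop] theorem CC.filterL {l : α → List β} {f : β → Bool} {S : α → ℕ → Prop}
    (hl : CC l S) (hf : CC f (fun _ _ => True)) : CC (fun a => (l a).filter f) S :=
  (CC.flatMapL (f := fun x => _root_.cond (f x) [x] []) hl (by fun_prop)).of_eq (fun a => by
    induction l a with
    | nil => rfl
    | cons x L ih =>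
      rw [List.flatMap_cons, ih, List.filter_cons]
      cases f x <;> simp)

theorem mapAcc_foldl (f : σ → α → σ) (s : σ) (l : List α) :
    mapAcc (fun s x => (f s x, ([] : List Unit))) s l = (l.foldl f s, []) := by
  induction l generalizing s with
  | nil => rfl
  | cons x l ih => simp [mapAcc, ih]

/-- left fold; every step pays its cost and the size of the accumulator -/
theorem CC.foldl {f : σ → α → σ} {S : σ × α → ℕ → Prop}
    (hf : CC (fun p : σ × α => f p.1 p.2) S) :
    CC (fun p : σ × List α => p.2.foldl f p.1) (fun p T => ∃ (I : σ → List α → Prop) (τ : α → ℕ),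
      I p.1 p.2 ∧ (∀ s x l, I s (x :: l) → I (f s x) l ∧ ∃ t, S (s, x) t ∧ t + sz s ≤ τ x) ∧
      (p.2.map τ).sum ≤ T) := by
  have h := CC.mapAcc (f := fun s x => (f s x, ([] : List Unit))) (S := S) (by fun_prop)
  refine (h.fst.of_eq (fun p => by rw [mapAcc_foldl])).mono ?_
  rintro ⟨s, l⟩ T ⟨I, τ, h1, h2, h3⟩
  exact (AccRun.of_inv I τ h2 l s h1).mono h3

/-! ### zip, take, drop -/

def zipF (x : Bool × List α × List β × List (α × β)) : Bool × List α × List β × List (α × β) :=
  lcase x.2.1 (false, [], x.2.2.1, [])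
    (fun a _ => lcase x.2.2.1 (false, [a], [], []) (fun b _ => (true, [], [], [(a, b)])))

theorem zip_run (l : List α) (m : List β) (acc : List (α × β)) :
    MRun (fun b : Bool => b) (fun _ => (true, true, false)) zipF
    (fun _ _ => True) (true, l, m, acc) (20 * (sz l + sz m))
      (false, l.drop m.length, m.drop l.length, (l.zip m).reverse ++ acc) := by
  induction l generalizing m acc with
  | nil =>
    have e : mstep (fun _ => (true, true, false)) zipF (true, ([] : List α), m, acc) =
        (false, [], m, acc) := by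
      cases m <;> simp [mstep, minp, zipF]
    refine .step _ _ 0 0 _ rfl trivial (by rw [e]; simpa using .stop _ _ rfl) ?_
    have := sz_bool true
    cases m <;> simp [minp, sz_pair, sz_nil, sz_cons] <;> omega
  | cons x l ih =>
    cases m with
    | nil =>
      have e : mstep (fun _ => (true, true, false)) zipF (true, x :: l, ([] : List β), acc) =
          (false, x :: l, [], acc) := by
        simp [mstep, minp, zipF]
      refine .step _ _ 0 0 _ rfl trivial (by rw [e]; simpa using .stop _ _ rfl) ?_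
      have := sz_bool true
      have := sz_pos l
      simp [minp, sz_pair, sz_nil, sz_cons]; omega
    | cons y m =>
      have e : mstep (fun _ => (true, true, false)) zipF (true, x :: l, y :: m, acc) =
          (true, l, m, (x, y) :: acc) := by
        simp [mstep, minp, zipF]
      refine .step _ _ 0 (20 * (sz l + sz m)) _ rfl trivial
        (by rw [e]; simpa using ih m ((x, y) :: acc)) ?_
      have := sz_bool true
      simp [minp, sz_pair, sz_nil, sz_cons]; omega

theorem Lin.zipRest : Lin (fun x : List α × List β =>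
    (x.1.drop x.2.length, x.2.drop x.1.length, x.1.zip x.2)) := by
  have hF : Lin (zipF (α := α) (β := β)) := by
    unfold zipF
    refine CC.lcase' (by fun_prop) (by fun_prop) (CC.lcase' ?_ ?_ ?_) <;> fun_prop
  have h := CC.mloop (cont := fun b : Bool => b) (ctl := fun _ => (true, true, false))
    (by fun_prop) (by fun_prop) hF (fun x => (false, x.2.1.drop x.2.2.1.length,
      x.2.2.1.drop x.2.1.length, (x.2.1.zip x.2.2.1).reverse ++ x.2.2.2))
  have h2 := h.comp3 (f := fun x : List α × List β => (true, x.1, x.2, ([] : List (α × β))))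
    (S := fun _ _ => True) (by fun_prop) 20 (fun x T _ => ⟨_, zip_run x.1 x.2 [], by
      obtain ⟨a, b⟩ := x
      rw [sz_pair]; simp; omega⟩)
  exact (h2.snd.fst.pair (h2.snd.snd.fst.pair h2.snd.snd.snd.reverse)).of_eq (fun x => by simp)

@[fun_prop] theorem CC.zip {l : α → List β} {m : α → List γ} {S : α → ℕ → Prop} (hl : CC l S)
    (hm : CC m S) : CC (fun a => (l a).zip (m a)) S := (CC.comp Lin.zipRest (hl.pair hm)).snd.snd

@[fun_prop] theorem CC.dropL {l : α → List β} {m : α → List γ} {S : α → ℕ → Prop} (hl : CC l S)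
    (hm : CC m S) : CC (fun a => dropL (l a) (m a)) S := (CC.comp Lin.zipRest (hl.pair hm)).fst

/-- take as many entries as another list is long -/
def takeL (l : List β) (m : List γ) : List β := l.take m.length

@[fun_prop] theorem CC.takeL {l : α → List β} {m : α → List γ} {S : α → ℕ → Prop} (hl : CC l S)
    (hm : CC m S) : CC (fun a => takeL (l a) (m a)) S :=
  ((hl.zip hm).mapL (f := Prod.fst) (by fun_prop)).of_eq (fun a => by
    unfold Ptime.takeL
    generalize l a = L; generalize m a = M
    induction L generalizing M with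
    | nil => simp
    | cons x L ih => cases M <;> simp [ih])

@[fun_prop] theorem CC.zipWithL {δ : Type} [Enc δ] {l : α → List β} {m : α → List γ}
    {f : β → γ → δ} {S : α → ℕ → Prop} (hl : CC l S) (hm : CC m S)
    (hf : CC (fun p : β × γ => f p.1 p.2) (fun _ _ => True)) :
    CC (fun a => List.zipWith f (l a) (m a)) S :=
  ((hl.zip hm).mapL hf).of_eq (fun a => by
    rw [List.zip, List.map_zipWith])

end Crest.Agent.H3.Ptime
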