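import Crest.Agent.H3.PTMore

set_option autoImplicit false
set_option linter.unusedSectionVars false
set_option linter.unusedVariables false
set_option linter.unusedSimpArgs false

/-! Exact-cost calculus on top of `H3/PT*`: renaming of registers and calls. -/

namespace Crest.Agent.H3.Ptime
open Function

def Prog.ren (ρ : ℕ → ℕ) : Prog → Prog
  | .skip => .skip
  | .push r b => .push (ρ r) b
  | .pop r => .pop (ρ r)
  | .seq p q => .seq (p.ren ρ) (q.ren ρ)
  | .ite r p q => .ite (ρ r) (p.ren ρ) (q.ren ρ)
  | .whl r p => .whl (ρ r) (p.ren ρ)

theorem extend_update {ρ : ℕ → ℕ} (hρ : Injective ρ) (s u : St) (r : ℕ) (v : List Bool) :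
    extend ρ (update s r v) u = update (extend ρ s u) (ρ r) v := by
  funext k
  by_cases hk : ∃ a, ρ a = k
  · obtain ⟨a, rfl⟩ := hk
    rw [hρ.extend_apply]
    by_cases ha : a = r
    · subst ha; simp
    · rw [update_of_ne ha, update_of_ne (fun h => ha (hρ h)), hρ.extend_apply]
  · rw [extend_apply' _ _ _ hk, update_of_ne (fun h => hk ⟨r, h.symm⟩), extend_apply' _ _ _ hk]

theorem Run.ren {ρ : ℕ → ℕ} (hρ : Injective ρ) {p : Prog} {s s' : St} {t : ℕ} (h : Run p s t s')
    (u : St) : Run (p.ren ρ) (extend ρ s u) t (extend ρ s' u) := by
  induction h with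
  | skip s => exact .skip _
  | push r b s =>
    have := Run.push (ρ r) b (extend ρ s u)
    rwa [hρ.extend_apply, ← extend_update hρ] at this
  | pop r s =>
    have := Run.pop (ρ r) (extend ρ s u)
    rwa [hρ.extend_apply, ← extend_update hρ] at this
  | seq _ _ a b => exact .seq a b
  | iteT h _ a => exact .iteT (by rwa [hρ.extend_apply]) a
  | iteF h _ a => exact .iteF (by rwa [hρ.extend_apply]) a
  | whl0 h => exact .whl0 (by rwa [hρ.extend_apply])
  | whlS h _ _ a b => exact .whlS (by rwa [hρ.extend_apply]) a b

/-- register `0` goes to `i`, the others above `k` -/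
def rho (i k : ℕ) (r : ℕ) : ℕ := if r = 0 then i else r + k

theorem rho_inj {i k : ℕ} (h : i ≤ k) : Injective (rho i k) := by
  intro a b hab
  unfold rho at hab
  split_ifs at hab <;> omega

/-- run `p` on register `i`, with scratch registers above `k` -/
def call (p : Prog) (i k : ℕ) : Prog := p.ren (rho i k)

theorem R.call {p : Prog} {x y : List Bool} {T : ℕ} (h : R p (sg x) T (sg y)) {i k : ℕ}
    (hi : i ≤ k) {s : St} (hs : s i = x) (hk : ∀ r, k < r → s r = []) :
    R (call p i k) s T (update s i y) := by
  obtain ⟨t, ht, h⟩ := h
  have key : ∀ z : List Bool, extend (rho i k) (sg z) s = update s i z := by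
    intro z
    funext r
    by_cases hr : ∃ a, rho i k a = r
    · obtain ⟨a, rfl⟩ := hr
      rw [(rho_inj hi).extend_apply]
      by_cases ha : a = 0
      · subst ha; simp [rho]
      · have : rho i k a ≠ i := by simp [rho, ha]; omega
        rw [update_of_ne this, hk _ (by simp [rho, ha]; omega)]
        simp [sg, ha]
    · rw [extend_apply' _ _ _ hr, update_of_ne]
      rintro rfl
      exact hr ⟨0, by simp [rho]⟩
  have := h.ren (rho_inj hi) s
  rw [key, key, ← hs, update_eq_self] at this
  exact ⟨t, ht, this⟩

/-- states given by a list of registers -/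
def sL (l : List (List Bool)) : St := fun r => l.getD r []

@[simp] theorem sL_at (l : List (List Bool)) (r : ℕ) : sL l r = l.getD r [] := rfl

theorem sL_up (l : List (List Bool)) (i : ℕ) (v : List Bool) (h : i < l.length) :
    update (sL l) i v = sL (l.set i v) := by
  funext r
  by_cases hr : r = i
  · subst hr; simp [List.getD_eq_getElem?_getD, h]
  · rw [update_of_ne hr]; simp [List.getD_eq_getElem?_getD, List.getElem?_set_ne (Ne.symm hr)]

theorem sL_hi (l : List (List Bool)) (k : ℕ) (h : l.length ≤ k + 1) : ∀ r, k < r → sL l r = [] := by
  intro r hr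
  simp [List.getD_eq_getElem?_getD, List.getElem?_eq_none (show l.length ≤ r by omega)]

theorem sg_eq_sL (x : List Bool) (n : ℕ) : sg x = sL (x :: List.replicate n []) := by
  funext r
  rcases r with _ | r
  · simp
  · simp [sg, List.getD_eq_getElem?_getD, List.getElem?_replicate]
    split_ifs <;> simp

/-- equality of states -/
macro "st_ext" : tactic => `(tactic| (
  funext k
  simp only [Function.update_apply]
  split_ifs <;> first | rfl | omega | (subst_vars; simp_all [codes, Tr.code])))

/-! ### moving one tree between registers -/

def splitLG (a b c : ℕ) : Prog := .whl c (.ite a (.seq (.pop a) (.seq (.push b true) (.push c true)))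
  (.seq (.pop a) (.seq (.push b false) (.pop c))))

theorem run_splitLG {a b c : ℕ} (hab : a ≠ b) (hac : a ≠ c) (hbc : b ≠ c) :
    ∀ (n : ℕ) (ts : List Tr) (rest : List Bool) (s : St), (codes ts).length = n →
    s a = codes ts ++ rest → s c = List.replicate ts.length true →
    R (splitLG a b c) s (5 * n + 1)
      (update (update (update s a rest) b ((codes ts).reverse ++ s b)) c []) := by
  intro n
  induction n with
  | zero =>
    intro ts rest s h ha hc
    cases ts with
    | nil =>
      refine (R.whl0 (by simpa using hc)).cast ?_
      simp [codes] at ha hc ⊢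
      rw [← ha, update_eq_self, update_eq_self, ← hc, update_eq_self]
    | cons t ts => cases t <;> simp [codes, Tr.code] at h
  | succ n ih =>
    intro ts rest s h ha hc
    cases ts with
    | nil => simp [codes] at h
    | cons t ts =>
      cases t with
      | leaf =>
        have hb := R.iteF (r := a) (p := .seq (.pop a) (.seq (.push b true) (.push c true)))
          (s := s) (by simp [ha, codes, Tr.code]) ((R.pop a _).seq ((R.push b false _).seq
            (R.pop c _)))
        have h1 := R.whlS (r := c) (by simp [hc]) hb (ih ts rest _
          (by simpa [codes, Tr.code] using h)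
          (by simp [hab, hac, ha, codes, Tr.code])
          (by simp [hbc.symm, hac.symm, hc, List.replicate_succ]))
        refine (h1.mono (by omega)).cast ?_
        st_ext
      | node l r =>
        have hb := R.iteT (r := a) (q := .seq (.pop a) (.seq (.push b false) (.pop c)))
          (s := s) (by simp [ha, codes, Tr.code]) ((R.pop a _).seq ((R.push b true _).seq
            (R.push c true _)))
        have h1 := R.whlS (r := c) (by simp [hc]) hb (ih (l :: r :: ts) rest _
          (by simp [codes, Tr.code] at h ⊢; omega)
          (by simp [hab, hac, ha, codes, Tr.code])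
          (by simp [hbc.symm, hac.symm, hc, List.replicate_succ]))
        refine (h1.mono (by omega)).cast ?_
        st_ext

/-- move the top tree of `a`, reversed, onto `b`; `c` is an empty scratch register -/
def splitG (a b c : ℕ) : Prog := .seq (.push c true) (splitLG a b c)

theorem run_splitG {a b c : ℕ} (hab : a ≠ b) (hac : a ≠ c) (hbc : b ≠ c) (t : Tr)
    (rest : List Bool) (s : St) (ha : s a = t.code ++ rest) (hc : s c = []) :
    R (splitG a b c) s (5 * t.code.length + 2)
      (update (update s a rest) b (t.code.reverse ++ s b)) := by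
  have e : codes [t] = t.code := by simp [codes]
  have h := run_splitLG hab hac hbc _ [t] rest (update s c (true :: s c)) rfl
    (by simp [hac, e, ha]) (by simp [hc])
  rw [e] at h
  refine (((R.push c true s).seq h).mono (by omega)).cast ?_
  st_ext

/-- move the top tree of `a` onto `b`; `c`, `d` are empty scratch registers -/
def mvT (a b c d : ℕ) : Prog := .seq (splitG a c d) (mv c b)

theorem run_mvT {a b c d : ℕ} (hab : a ≠ b) (hac : a ≠ c) (had : a ≠ d) (hbc : b ≠ c)
    (hcd : c ≠ d) (t : Tr)
    (rest : List Bool) (s : St) (ha : s a = t.code ++ rest) (hc : s c = []) (hd : s d = []) :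
    R (mvT a b c d) s (9 * t.code.length + 3)
      (update (update s a rest) b (t.code ++ s b)) := by
  have h1 := run_splitG hac had hcd t rest s ha hd
  have h2 := run_mv (a := c) (b := b) hbc.symm (t.code.reverse) (update (update s a rest) c
    (t.code.reverse ++ s c)) (by simp [hc])
  refine ((h1.seq h2).mono (by simp; omega)).cast ?_
  st_ext

end Crest.Agent.H3.Ptime
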