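import Crest.Agent.H6.CCCore

set_option autoImplicit false
set_option linter.unusedSectionVars false
set_option linter.unusedVariables false
set_option linter.unusedSimpArgs false

/-! Exact-cost calculus: a loop with a small state and three stacks. -/

namespace Crest.Agent.H3.Ptime
open Function

variable {α β γ σ : Type} [Enc α] [Enc β] [Enc γ] [Enc σ]

/-- optional pop: the popped part (at most one item) and the rest -/
def popI (b : Bool) (l : List α) : List α × List α := bif b then (l.take 1, l.tail) else ([], l)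

@[simp] theorem popI_true (l : List α) : popI true l = (l.take 1, l.tail) := rfl
@[simp] theorem popI_false (l : List α) : popI false l = ([], l) := rfl

/-- the input of one step: the state and the popped tops -/
def minp (ctl : σ → Bool × Bool × Bool) (x : σ × List α × List β × List γ) :
    σ × List α × List β × List γ :=
  (x.1, (popI (ctl x.1).1 x.2.1).1, (popI (ctl x.1).2.1 x.2.2.1).1, (popI (ctl x.1).2.2 x.2.2.2).1)

/-- one step: pop as `ctl` says, apply `f`, push the lists returned by `f` -/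
def mstep (ctl : σ → Bool × Bool × Bool)
    (f : σ × List α × List β × List γ → σ × List α × List β × List γ)
    (x : σ × List α × List β × List γ) : σ × List α × List β × List γ :=
  ((f (minp ctl x)).1, (f (minp ctl x)).2.1 ++ (popI (ctl x.1).1 x.2.1).2,
    (f (minp ctl x)).2.2.1 ++ (popI (ctl x.1).2.1 x.2.2.1).2,
    (f (minp ctl x)).2.2.2 ++ (popI (ctl x.1).2.2 x.2.2.2).2)

/-- terminating runs with their cost -/
inductive MRun (cont : σ → Bool) (ctl : σ → Bool × Bool × Bool)
    (f : σ × List α × List β × List γ → σ × List α × List β × List γ)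
    (S : σ × List α × List β × List γ → ℕ → Prop) :
    σ × List α × List β × List γ → ℕ → σ × List α × List β × List γ → Prop
  | stop (x : σ × List α × List β × List γ) (T : ℕ) : cont x.1 = false → MRun cont ctl f S x T x
  | step (x y : σ × List α × List β × List γ) (T1 T2 T : ℕ) : cont x.1 = true →
      S (minp ctl x) T1 → MRun cont ctl f S (mstep ctl f x) T2 y →
      T1 + sz (minp ctl x) + T2 ≤ T → MRun cont ctl f S x T y

theorem MRun.mono {cont : σ → Bool} {ctl : σ → Bool × Bool × Bool}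
    {f : σ × List α × List β × List γ → σ × List α × List β × List γ}
    {S : σ × List α × List β × List γ → ℕ → Prop} {x y : σ × List α × List β × List γ} {T T' : ℕ}
    (h : MRun cont ctl f S x T y) (hT : T ≤ T') : MRun cont ctl f S x T' y := by
  cases h with
  | stop _ _ h => exact .stop _ _ h
  | step _ _ T1 T2 _ h1 h2 h3 h4 => exact .step _ _ T1 T2 _ h1 h2 h3 (h4.trans hT)

def popTo (r : ℕ) : Prog :=
  .ite r (.seq (.push 5 false) (.seq (.pop r) (.seq (mvT r 5 6 7) (.push 5 true)))) (.push 5 false)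

theorem run_popTo {r : ℕ} (hr : r < 5) (l : List α) (s : St) (hs : s r = cd l) (h6 : s 6 = [])
    (h7 : s 7 = []) : R (popTo r) s (9 * sz (l.take 1) + 10)
      (update (update s r (cd l.tail)) 5 (cd (l.take 1) ++ s 5)) := by
  have h5 : r ≠ 5 := by omega
  cases l with
  | nil =>
    refine ((R.iteF (by simp [hs, cd_nil]) (R.push 5 false s)).mono (by omega)).cast ?_
    simp only [List.tail_nil, List.take_nil]
    rw [← hs, update_eq_self, hs]; rfl
  | cons a l =>
    have h1 := run_mvT (a := r) (b := 5) (c := 6) (d := 7) h5 (by omega) (by omega) (by omega)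
      (by omega) (enc a) (cd l) (update (update s 5 (false :: s 5)) r
        (update s 5 (false :: s 5) r).tail) (by simp [h5, hs, cd_cons]; rfl)
      (by simp [h6, show 6 ≠ r by omega]) (by simp [h7, show 7 ≠ r by omega])
    have h2 := R.iteT (r := r) (q := .push 5 false) (by simp [hs, cd_cons])
      ((R.push 5 false s).seq ((R.pop r _).seq (h1.seq (R.push 5 true _))))
    refine (h2.mono (by
      have : (enc a).code.length = sz a := rfl
      simp [sz_cons, sz_nil, this]; omega)).cast ?_
    funext k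
    simp only [Function.update_apply]
    split_ifs <;> first | rfl | omega | (subst_vars; simp [cd_cons, cd_nil]; rfl)

def popIf (r : ℕ) : Prog := brB 0 (popTo r) (.push 5 false)

theorem run_popIf {r : ℕ} (hr : r < 5) (hr0 : r ≠ 0) (b : Bool) (x : List Bool) (l : List α)
    (s : St) (h0 : s 0 = true :: (cd b ++ x)) (hs : s r = cd l) (h6 : s 6 = [])
    (h7 : s 7 = []) : R (popIf r) s (9 * sz (popI b l).1 + 15)
      (update (update (update s 0 x) r (cd (popI b l).2)) 5 (cd (popI b l).1 ++ s 5)) := by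
  cases b
  · refine ((run_brF x h0 (R.push 5 false _)).mono (by omega)).cast ?_
    simp only [popI_false]
    rw [← hs]
    funext k
    simp only [Function.update_apply]
    split_ifs <;> first | rfl | omega | (subst_vars; rfl) | simp_all
  · exact (run_brT x h0 (run_popTo hr l _ (by simp [hr0, hs]) (by simp [h6])
      (by simp [h7]))).cast (by simp)

theorem cd_append (l : List α) : ∃ w, cd l = w ++ [false] ∧ ∀ m, cd (l ++ m) = w ++ cd m := by
  induction l with
  | nil => exact ⟨[], rfl, fun _ => rfl⟩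
  | cons a l ih =>
    obtain ⟨w, h1, h2⟩ := ih
    exact ⟨true :: (cd a ++ w), by simp [cd_cons, h1], fun m => by simp [cd_cons, h2]⟩

/-- prepend the list on top of `a` to the list in `b` -/
def preL (a b c d : ℕ) : Prog := .seq (splitG a c d) (.seq (.pop c) (mv c b))

theorem run_preL {a b c d : ℕ} (hab : a ≠ b) (hac : a ≠ c) (had : a ≠ d) (hbc : b ≠ c)
    (hcd : c ≠ d) (l m : List α) (rest : List Bool) (s : St) (ha : s a = cd l ++ rest)
    (hb : s b = cd m) (hc : s c = []) (hd : s d = []) :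
    R (preL a b c d) s (9 * sz l + 4) (update (update s a rest) b (cd (l ++ m))) := by
  obtain ⟨w, h1, h2⟩ := cd_append l
  have e1 := run_splitG hac had hcd (enc l) rest s ha hd
  have h1' : (enc l).code = w ++ [false] := h1
  have e2 := e1.seq ((R.pop c _).seq (run_mv (a := c) (b := b) hbc.symm w.reverse _
    (by simp [h1', hc])))
  refine (e2.mono (by simp [sz, h1, h1']; omega)).cast ?_
  rw [h2]
  funext k
  simp only [Function.update_apply]
  split_ifs <;> first | rfl | omega | (subst_vars; simp_all)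

def mbody (g f h : Prog) : Prog :=
  .seq (.pop 4) (.seq (call g 0 7) (.seq (popIf 3) (.seq (popIf 2) (.seq (.push 5 true)
  (.seq (popIf 1) (.seq (.push 5 true) (.seq (mvT 0 5 6 7) (.seq (.push 5 true)
  (.seq (call f 5 7) (.seq (.pop 5) (.seq (mvT 5 0 6 7) (.seq (.pop 5) (.seq (preL 5 1 6 7)
  (.seq (.pop 5) (.seq (preL 5 2 6 7) (.seq (preL 5 3 6 7) (.seq (call h 0 7)
    (brB 0 (.push 4 true) .skip))))))))))))))))))

def mrep (cont : σ → Bool) (x : σ × List α × List β × List γ) : St :=
  sL [cd x.1, cd x.2.1, cd x.2.2.1, cd x.2.2.2, bif cont x.1 then [true] else [], [], [], []]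

theorem run_flagB (h : Prog) (cont : σ → Bool) (x : σ × List α × List β × List γ) (T : ℕ)
    (hh : R h (sg (cd x.1)) T (sg (cd (cont x.1, x.1)))) :
    R (.seq (call h 0 7) (brB 0 (.push 4 true) .skip))
      (sL [cd x.1, cd x.2.1, cd x.2.2.1, cd x.2.2.2, [], [], [], []]) (T + 6) (mrep cont x) := by
  have s1 : R (call h 0 7) (sL [cd x.1, cd x.2.1, cd x.2.2.1, cd x.2.2.2, [], [], [], []]) T
      (sL [cd (cont x.1, x.1), cd x.2.1, cd x.2.2.1, cd x.2.2.2, [], [], [], []]) :=
    (R.call hh (by omega) rfl (sL_hi _ _ (by simp))).cast (by simp [sL_up])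
  unfold mrep
  cases hc : cont x.1
  · rw [hc] at s1
    exact (s1.seq (run_brF (cd x.1) (by simp [cd_pair]) (R.skip _))).cast (by simp [sL_up])
  · rw [hc] at s1
    exact (s1.seq (run_brT (cd x.1) (by simp [cd_pair]) (R.push 4 true _))).cast (by simp [sL_up])

theorem run_mbody (g p h : Prog) (cont : σ → Bool) (ctl : σ → Bool × Bool × Bool)
    (f : σ × List α × List β × List γ → σ × List α × List β × List γ)
    (x : σ × List α × List β × List γ) (hx : cont x.1 = true) (Tg Tp Th : ℕ)
    (hg : R g (sg (cd x.1)) Tg (sg (cd ((ctl x.1).2.2, (ctl x.1).2.1, (ctl x.1).1, x.1))))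
    (hp : R p (sg (cd (minp ctl x))) Tp (sg (cd (f (minp ctl x)))))
    (hh : R h (sg (cd (mstep ctl f x).1)) Th
      (sg (cd (cont (mstep ctl f x).1, (mstep ctl f x).1)))) :
    R (mbody g p h) (mrep cont x)
      (Tg + Tp + Th + 9 * sz (minp ctl x) + 9 * sz (f (minp ctl x)) + 100)
      (mrep cont (mstep ctl f x)) := by
  obtain ⟨s, A, B, C⟩ := x
  have hfl := run_flagB h cont _ Th hh
  simp only [mstep] at hfl ⊢
  simp only [minp] at hp hfl ⊢
  simp only at hx hg
  generalize (ctl s).1 = c1 at *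
  generalize (ctl s).2.1 = c2 at *
  generalize (ctl s).2.2 = c3 at *
  generalize hy : f (s, (popI c1 A).1, (popI c2 B).1, (popI c3 C).1) = y at *
  obtain ⟨s', a', b', c'⟩ := y
  have s0 : R (.pop 4) (mrep cont (s, A, B, C)) 1 (sL [cd s, cd A, cd B, cd C, [], [], [], []]) :=
    (R.pop 4 _).cast (by simp [mrep, hx, sL_up])
  have s1 : R (call g 0 7) (sL [cd s, cd A, cd B, cd C, [], [], [], []]) Tg
      (sL [cd (c3, c2, c1, s), cd A, cd B, cd C, [], [], [], []]) :=
    (R.call hg (by omega) rfl (sL_hi _ _ (by simp))).cast (by simp [sL_up])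
  have s2 : R (popIf 3) (sL [cd (c3, c2, c1, s), cd A, cd B, cd C, [], [], [], []]) _
      (sL [cd (c2, c1, s), cd A, cd B, cd (popI c3 C).2, [], cd (popI c3 C).1, [], []]) :=
    (run_popIf (by omega) (by omega) c3 (cd (c2, c1, s)) C _ rfl rfl rfl rfl).cast
      (by simp [sL_up])
  have s3 : R (popIf 2)
      (sL [cd (c2, c1, s), cd A, cd B, cd (popI c3 C).2, [], cd (popI c3 C).1, [], []]) _
      (sL [cd (c1, s), cd A, cd (popI c2 B).2, cd (popI c3 C).2, [],
        cd (popI c2 B).1 ++ cd (popI c3 C).1, [], []]) :=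
    (run_popIf (by omega) (by omega) c2 (cd (c1, s)) B _ rfl rfl rfl rfl).cast
      (by simp [sL_up])
  have s4 : R (.push 5 true) (sL [cd (c1, s), cd A, cd (popI c2 B).2, cd (popI c3 C).2, [],
        cd (popI c2 B).1 ++ cd (popI c3 C).1, [], []]) 1
      (sL [cd (c1, s), cd A, cd (popI c2 B).2, cd (popI c3 C).2, [],
        cd ((popI c2 B).1, (popI c3 C).1), [], []]) :=
    (R.push 5 true _).cast (by simp [sL_up, cd_pair])
  have s5 : R (popIf 1) (sL [cd (c1, s), cd A, cd (popI c2 B).2, cd (popI c3 C).2, [],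
        cd ((popI c2 B).1, (popI c3 C).1), [], []]) _
      (sL [cd s, cd (popI c1 A).2, cd (popI c2 B).2, cd (popI c3 C).2, [],
        cd (popI c1 A).1 ++ cd ((popI c2 B).1, (popI c3 C).1), [], []]) :=
    (run_popIf (by omega) (by omega) c1 (cd s) A _ rfl rfl rfl rfl).cast
      (by simp [sL_up])
  have s6 : R (.push 5 true) (sL [cd s, cd (popI c1 A).2, cd (popI c2 B).2, cd (popI c3 C).2, [],
        cd (popI c1 A).1 ++ cd ((popI c2 B).1, (popI c3 C).1), [], []]) 1
      (sL [cd s, cd (popI c1 A).2, cd (popI c2 B).2, cd (popI c3 C).2, [],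
        cd ((popI c1 A).1, (popI c2 B).1, (popI c3 C).1), [], []]) :=
    (R.push 5 true _).cast (by simp [sL_up, cd_pair])
  have s7 : R (mvT 0 5 6 7) (sL [cd s, cd (popI c1 A).2, cd (popI c2 B).2, cd (popI c3 C).2, [],
        cd ((popI c1 A).1, (popI c2 B).1, (popI c3 C).1), [], []]) (9 * sz s + 3)
      (sL [[], cd (popI c1 A).2, cd (popI c2 B).2, cd (popI c3 C).2, [],
        cd s ++ cd ((popI c1 A).1, (popI c2 B).1, (popI c3 C).1), [], []]) :=
    (run_mvT (by omega) (by omega) (by omega) (by omega) (by omega) (enc s) [] _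
      (by simp [cd]) rfl rfl).cast (by simp [sL_up, cd])
  have s8 : R (.push 5 true) (sL [[], cd (popI c1 A).2, cd (popI c2 B).2, cd (popI c3 C).2, [],
        cd s ++ cd ((popI c1 A).1, (popI c2 B).1, (popI c3 C).1), [], []]) 1
      (sL [[], cd (popI c1 A).2, cd (popI c2 B).2, cd (popI c3 C).2, [],
        cd (s, (popI c1 A).1, (popI c2 B).1, (popI c3 C).1), [], []]) :=
    (R.push 5 true _).cast (by simp [sL_up, cd_pair])
  have s9 : R (call p 5 7) (sL [[], cd (popI c1 A).2, cd (popI c2 B).2, cd (popI c3 C).2, [],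
        cd (s, (popI c1 A).1, (popI c2 B).1, (popI c3 C).1), [], []]) Tp
      (sL [[], cd (popI c1 A).2, cd (popI c2 B).2, cd (popI c3 C).2, [],
        cd (s', a', b', c'), [], []]) :=
    (R.call hp (by omega) rfl (sL_hi _ _ (by simp))).cast (by simp [sL_up])
  have hsz : sz (s, (popI c1 A).1, (popI c2 B).1, (popI c3 C).1) =
      sz s + sz (popI c1 A).1 + sz (popI c2 B).1 + sz (popI c3 C).1 + 3 := by
    simp only [sz_pair]; omega
  have hsz' : sz (s', a', b', c') = sz s' + sz a' + sz b' + sz c' + 3 := by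
    simp only [sz_pair]; omega
  generalize (popI c1 A).2 = RA at *
  generalize (popI c2 B).2 = RB at *
  generalize (popI c3 C).2 = RC at *
  have t0 : R (.pop 5) (sL [[], cd RA, cd RB, cd RC, [], cd (s', a', b', c'), [], []]) 1
      (sL [[], cd RA, cd RB, cd RC, [], cd s' ++ cd (a', b', c'), [], []]) :=
    (R.pop 5 _).cast (by simp [sL_up, cd_pair])
  have t1 : R (mvT 5 0 6 7) (sL [[], cd RA, cd RB, cd RC, [], cd s' ++ cd (a', b', c'), [], []])
      (9 * sz s' + 3) (sL [cd s', cd RA, cd RB, cd RC, [], cd (a', b', c'), [], []]) :=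
    (run_mvT (by omega) (by omega) (by omega) (by omega) (by omega) (enc s') (cd (a', b', c')) _
      (by simp [cd]) rfl rfl).cast (by simp [sL_up, cd])
  have t2 : R (.pop 5) (sL [cd s', cd RA, cd RB, cd RC, [], cd (a', b', c'), [], []]) 1
      (sL [cd s', cd RA, cd RB, cd RC, [], cd a' ++ cd (b', c'), [], []]) :=
    (R.pop 5 _).cast (by simp [sL_up, cd_pair])
  have t3 : R (preL 5 1 6 7) (sL [cd s', cd RA, cd RB, cd RC, [], cd a' ++ cd (b', c'), [], []]) _
      (sL [cd s', cd (a' ++ RA), cd RB, cd RC, [], cd (b', c'), [], []]) :=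
    (run_preL (by omega) (by omega) (by omega) (by omega) (by omega) a' RA (cd (b', c')) _
      rfl rfl rfl rfl).cast (by simp [sL_up])
  have t4 : R (.pop 5) (sL [cd s', cd (a' ++ RA), cd RB, cd RC, [], cd (b', c'), [], []]) 1
      (sL [cd s', cd (a' ++ RA), cd RB, cd RC, [], cd b' ++ cd c', [], []]) :=
    (R.pop 5 _).cast (by simp [sL_up, cd_pair])
  have t5 : R (preL 5 2 6 7) (sL [cd s', cd (a' ++ RA), cd RB, cd RC, [], cd b' ++ cd c', [], []]) _
      (sL [cd s', cd (a' ++ RA), cd (b' ++ RB), cd RC, [], cd c', [], []]) :=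
    (run_preL (by omega) (by omega) (by omega) (by omega) (by omega) b' RB (cd c') _
      rfl rfl rfl rfl).cast (by simp [sL_up])
  have t6 : R (preL 5 3 6 7) (sL [cd s', cd (a' ++ RA), cd (b' ++ RB), cd RC, [], cd c', [], []]) _
      (sL [cd s', cd (a' ++ RA), cd (b' ++ RB), cd (c' ++ RC), [], [], [], []]) :=
    (run_preL (by omega) (by omega) (by omega) (by omega) (by omega) c' RC [] _
      (by simp) rfl rfl rfl).cast (by simp [sL_up])
  refine (s0.seq (s1.seq (s2.seq (s3.seq (s4.seq (s5.seq (s6.seq (s7.seq (s8.seq (s9.seq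
    (t0.seq (t1.seq (t2.seq (t3.seq (t4.seq (t5.seq (t6.seq hfl))))))))))))))))).mono ?_
  omega

theorem sz_mstep_fst (ctl : σ → Bool × Bool × Bool)
    (f : σ × List α × List β × List γ → σ × List α × List β × List γ)
    (x : σ × List α × List β × List γ) : sz (mstep ctl f x).1 ≤ sz (f (minp ctl x)) := by
  show sz (f (minp ctl x)).1 ≤ _
  generalize f (minp ctl x) = y
  obtain ⟨a, b⟩ := y
  rw [sz_pair]; simp; omega

def munp : Prog := .seq (.pop 0) (.seq (mvT 0 5 6 7) (.seq (.pop 0) (.seq (mvT 0 1 6 7)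
    (.seq (.pop 0) (.seq (mvT 0 2 6 7) (.seq (mvT 0 3 6 7) (mvT 5 0 6 7)))))))

def mpk : Prog := .seq (mvT 0 5 6 7) (.seq (mvT 3 0 6 7) (.seq (mvT 2 0 6 7) (.seq (.push 0 true)
    (.seq (mvT 1 0 6 7) (.seq (.push 0 true) (.seq (mvT 5 0 6 7) (.push 0 true)))))))

theorem run_munp (s : σ) (A : List α) (B : List β) (C : List γ) :
    R munp (sg (cd (s, A, B, C))) (18 * (sz s + sz A + sz B + sz C) + 20)
      (sL [cd s, cd A, cd B, cd C, [], [], [], []]) := by
  rw [sg_eq_sL _ 7]
  have s0 : R (.pop 0) (sL [cd (s, A, B, C), [], [], [], [], [], [], []]) 1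
      (sL [cd s ++ cd (A, B, C), [], [], [], [], [], [], []]) :=
    (R.pop 0 _).cast (by simp [sL_up, cd_pair])
  have s1 : R (mvT 0 5 6 7) (sL [cd s ++ cd (A, B, C), [], [], [], [], [], [], []]) (9 * sz s + 3)
      (sL [cd (A, B, C), [], [], [], [], cd s, [], []]) :=
    (run_mvT (by omega) (by omega) (by omega) (by omega) (by omega) (enc s) (cd (A, B, C)) _
      (by simp [cd]) rfl rfl).cast (by simp [sL_up, cd])
  have s2 : R (.pop 0) (sL [cd (A, B, C), [], [], [], [], cd s, [], []]) 1
      (sL [cd A ++ cd (B, C), [], [], [], [], cd s, [], []]) :=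
    (R.pop 0 _).cast (by simp [sL_up, cd_pair])
  have s3 : R (mvT 0 1 6 7) (sL [cd A ++ cd (B, C), [], [], [], [], cd s, [], []]) (9 * sz A + 3)
      (sL [cd (B, C), cd A, [], [], [], cd s, [], []]) :=
    (run_mvT (by omega) (by omega) (by omega) (by omega) (by omega) (enc A) (cd (B, C)) _
      (by simp [cd]) rfl rfl).cast (by simp [sL_up, cd])
  have s4 : R (.pop 0) (sL [cd (B, C), cd A, [], [], [], cd s, [], []]) 1
      (sL [cd B ++ cd C, cd A, [], [], [], cd s, [], []]) :=
    (R.pop 0 _).cast (by simp [sL_up, cd_pair])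
  have s5 : R (mvT 0 2 6 7) (sL [cd B ++ cd C, cd A, [], [], [], cd s, [], []]) (9 * sz B + 3)
      (sL [cd C, cd A, cd B, [], [], cd s, [], []]) :=
    (run_mvT (by omega) (by omega) (by omega) (by omega) (by omega) (enc B) (cd C) _
      (by simp [cd]) rfl rfl).cast (by simp [sL_up, cd])
  have s6 : R (mvT 0 3 6 7) (sL [cd C, cd A, cd B, [], [], cd s, [], []]) (9 * sz C + 3)
      (sL [[], cd A, cd B, cd C, [], cd s, [], []]) :=
    (run_mvT (by omega) (by omega) (by omega) (by omega) (by omega) (enc C) [] _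
      (by simp [cd]) rfl rfl).cast (by simp [sL_up, cd])
  have s7 : R (mvT 5 0 6 7) (sL [[], cd A, cd B, cd C, [], cd s, [], []]) (9 * sz s + 3)
      (sL [cd s, cd A, cd B, cd C, [], [], [], []]) :=
    (run_mvT (by omega) (by omega) (by omega) (by omega) (by omega) (enc s) [] _
      (by simp [cd]) rfl rfl).cast (by simp [sL_up, cd])
  refine (s0.seq (s1.seq (s2.seq (s3.seq (s4.seq (s5.seq (s6.seq s7))))))).mono ?_
  omega

theorem run_mpk (s' : σ) (A' : List α) (B' : List β) (C' : List γ) :
    R mpk (sL [cd s', cd A', cd B', cd C', [], [], [], []])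
      (18 * (sz s' + sz A' + sz B' + sz C') + 20) (sg (cd (s', A', B', C'))) := by
  rw [sg_eq_sL _ 7]
  have t0 : R (mvT 0 5 6 7) (sL [cd s', cd A', cd B', cd C', [], [], [], []]) (9 * sz s' + 3)
      (sL [[], cd A', cd B', cd C', [], cd s', [], []]) :=
    (run_mvT (by omega) (by omega) (by omega) (by omega) (by omega) (enc s') [] _
      (by simp [cd]) rfl rfl).cast (by simp [sL_up, cd])
  have t1 : R (mvT 3 0 6 7) (sL [[], cd A', cd B', cd C', [], cd s', [], []]) (9 * sz C' + 3)
      (sL [cd C', cd A', cd B', [], [], cd s', [], []]) :=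
    (run_mvT (by omega) (by omega) (by omega) (by omega) (by omega) (enc C') [] _
      (by simp [cd]) rfl rfl).cast (by simp [sL_up, cd])
  have t2 : R (mvT 2 0 6 7) (sL [cd C', cd A', cd B', [], [], cd s', [], []]) (9 * sz B' + 3)
      (sL [cd B' ++ cd C', cd A', [], [], [], cd s', [], []]) :=
    (run_mvT (by omega) (by omega) (by omega) (by omega) (by omega) (enc B') [] _
      (by simp [cd]) rfl rfl).cast (by simp [sL_up, cd])
  have t3 : R (.push 0 true) (sL [cd B' ++ cd C', cd A', [], [], [], cd s', [], []]) 1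
      (sL [cd (B', C'), cd A', [], [], [], cd s', [], []]) :=
    (R.push 0 true _).cast (by simp [sL_up, cd_pair])
  have t4 : R (mvT 1 0 6 7) (sL [cd (B', C'), cd A', [], [], [], cd s', [], []]) (9 * sz A' + 3)
      (sL [cd A' ++ cd (B', C'), [], [], [], [], cd s', [], []]) :=
    (run_mvT (by omega) (by omega) (by omega) (by omega) (by omega) (enc A') [] _
      (by simp [cd]) rfl rfl).cast (by simp [sL_up, cd])
  have t5 : R (.push 0 true) (sL [cd A' ++ cd (B', C'), [], [], [], [], cd s', [], []]) 1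
      (sL [cd (A', B', C'), [], [], [], [], cd s', [], []]) :=
    (R.push 0 true _).cast (by simp [sL_up, cd_pair])
  have t6 : R (mvT 5 0 6 7) (sL [cd (A', B', C'), [], [], [], [], cd s', [], []]) (9 * sz s' + 3)
      (sL [cd s' ++ cd (A', B', C'), [], [], [], [], [], [], []]) :=
    (run_mvT (by omega) (by omega) (by omega) (by omega) (by omega) (enc s') [] _
      (by simp [cd]) rfl rfl).cast (by simp [sL_up, cd])
  have t7 : R (.push 0 true) (sL [cd s' ++ cd (A', B', C'), [], [], [], [], [], [], []]) 1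
      (sL [cd (s', A', B', C'), [], [], [], [], [], [], []]) :=
    (R.push 0 true _).cast (by simp [sL_up, cd_pair])
  refine (t0.seq (t1.seq (t2.seq (t3.seq (t4.seq (t5.seq (t6.seq t7))))))).mono ?_
  omega

theorem mloop_key {cont : σ → Bool} {ctl : σ → Bool × Bool × Bool}
    {f : σ × List α × List β × List γ → σ × List α × List β × List γ}
    {S : σ × List α × List β × List γ → ℕ → Prop} (hctl : Lin ctl) (hf : CC f S)
    (h : Prog) (ch : ℕ)
    (hh : ∀ s : σ, R h (sg (cd s)) (ch * (0 + sz s + 1)) (sg (cd (cont s, s)))) :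
    ∃ (q : Prog) (K : ℕ), ∀ x T y, MRun cont ctl f S x T y →
      R q (mrep cont x) (K * T + 1) (mrep cont y) ∧ cont y.1 = false := by
  obtain ⟨g, cg, hg⟩ : Lin (fun s : σ => ((ctl s).2.2, (ctl s).2.1, (ctl s).1, s)) := by fun_prop
  obtain ⟨d, hd⟩ := hf.szb
  obtain ⟨p, cp, hp⟩ := hf
  obtain ⟨K, hK⟩ : ∃ K, K = 2 * (cg + cp + ch * (d + 1) + 9 + 9 * d + 101) := ⟨_, rfl⟩
  refine ⟨.whl 4 (mbody g p h), K, ?_⟩
  intro x T y hr
  induction hr with
  | stop x T h => exact ⟨(R.whl0 (by simp [mrep, h])).mono (by omega), h⟩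
  | step x y T1 T2 T h1 h2 h3 h4 ih =>
    refine ⟨?_, ih.2⟩
    have hb := run_mbody g p h cont ctl f x h1 _ _ _ (hg x.1 0 trivial) (hp _ T1 h2) (hh _)
    refine (R.whlS (by simp [mrep, h1]) hb ih.1).mono ?_
    have e1 := hd _ T1 h2
    have e2 := sz_mstep_fst ctl f x
    have e3 : sz x.1 + 1 ≤ sz (minp ctl x) := by
      unfold minp; rw [sz_pair]; omega
    have e4 := sz_pos (minp ctl x)
    generalize sz (minp ctl x) = m at *
    generalize sz (f (minp ctl x)) = m' at *
    generalize sz (mstep ctl f x).1 = m'' at *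
    obtain ⟨U, hU⟩ : ∃ U, U = T1 + m + 1 := ⟨_, rfl⟩
    rw [← hU] at e1 ⊢
    have a1 : cg * (0 + sz x.1 + 1) ≤ cg * U := Nat.mul_le_mul_left _ (by omega)
    have a2 : ch * (0 + m'' + 1) ≤ ch * ((d + 1) * U) :=
      Nat.mul_le_mul_left _ (by rw [add_mul]; omega)
    have a3 : (cg + cp + ch * (d + 1) + 9 + 9 * d + 101) * U ≤ K * (T1 + m) := by
      rw [hK, mul_comm 2, mul_assoc]
      exact Nat.mul_le_mul_left _ (by omega)
    have a4 : K * (T1 + m) + K * T2 ≤ K * T := by
      rw [← mul_add]; exact Nat.mul_le_mul_left _ h4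
    have a5 : (cg + cp + ch * (d + 1) + 9 + 9 * d + 101) * U =
        cg * U + cp * U + ch * ((d + 1) * U) + 9 * U + 9 * (d * U) + 101 * U := by ring
    omega

/-- the loop principle with three stacks -/
theorem CC.mloop {cont : σ → Bool} {ctl : σ → Bool × Bool × Bool}
    {f : σ × List α × List β × List γ → σ × List α × List β × List γ}
    {S : σ × List α × List β × List γ → ℕ → Prop} (hc : Lin cont) (hctl : Lin ctl) (hf : CC f S)
    (F : σ × List α × List β × List γ → σ × List α × List β × List γ) :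
    CC F (fun x T => MRun cont ctl f S x T (F x)) := by
  obtain ⟨h, ch, hh⟩ : Lin (fun s : σ => (cont s, s)) := by fun_prop
  obtain ⟨q, K, key⟩ := mloop_key hctl hf h ch (fun s => hh s 0 trivial)
  refine CC.ofR (.seq munp (.seq (.seq (call h 0 7) (brB 0 (.push 4 true) .skip)) (.seq q mpk)))
    (73 * K + ch + 200) (fun x T hT => ?_)
  obtain ⟨hr, hy⟩ := key x T _ hT
  have hfl := run_flagB h cont x _ (hh x.1 0 trivial)
  have l0 := hr.length_le 0
  have l1 := hr.length_le 1
  have l2 := hr.length_le 2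
  have l3 := hr.length_le 3
  generalize F x = y at *
  obtain ⟨s, A, B, C⟩ := x
  obtain ⟨s', A', B', C'⟩ := y
  change sz s' ≤ sz s + _ at l0
  change sz A' ≤ sz A + _ at l1
  change sz B' ≤ sz B + _ at l2
  change sz C' ≤ sz C + _ at l3
  have e : mrep cont (s', A', B', C') = sL [cd s', cd A', cd B', cd C', [], [], [], []] := by
    simp only at hy
    simp [mrep, hy]
  rw [e] at hr
  refine ((run_munp s A B C).seq (hfl.seq (hr.seq (run_mpk s' A' B' C')))).mono ?_
  have hsz : sz (s, A, B, C) = sz s + sz A + sz B + sz C + 3 := by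
    simp only [sz_pair]; omega
  rw [hsz]
  obtain ⟨U, hU⟩ : ∃ U, U = T + (sz s + sz A + sz B + sz C + 3) + 1 := ⟨_, rfl⟩
  rw [← hU]
  have a1 : ch * (0 + sz s + 1) ≤ ch * U := Nat.mul_le_mul_left _ (by omega)
  have a2 : K * T ≤ K * U := Nat.mul_le_mul_left _ (by omega)
  have a3 : (73 * K + ch + 200) * U = 73 * (K * U) + ch * U + 200 * U := by ring
  simp only
  omega

end Crest.Agent.H3.Ptime
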