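import Mathlib

/-! Finite product probability with independence of disjointly supported events. -/

set_option autoImplicit false

namespace Crest.Agent.H6.ES

open Classical Finset

section Prob
variable {I A : Type} [Fintype A] [Inhabited A] (ι : Finset I)

noncomputable def ext (ω : ι → A) : I → A := fun p => if h : p ∈ ι then ω ⟨p, h⟩ else default

noncomputable def Pr (E : (I → A) → Prop) : ℝ :=
  ((univ : Finset (ι → A)).filter fun ω => E (ext ι ω)).card / (Fintype.card (ι → A) : ℝ)

def Dep (S : Set I) (E : (I → A) → Prop) : Prop :=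
  ∀ c c' : I → A, (∀ p ∈ S, c p = c' p) → E c → E c'

lemma card_pos' : (0 : ℝ) < Fintype.card (ι → A) := by exact_mod_cast Fintype.card_pos

lemma Pr_nonneg (E : (I → A) → Prop) : 0 ≤ Pr ι E := by unfold Pr; positivity

lemma Pr_mono {E F : (I → A) → Prop} (h : ∀ c, E c → F c) : Pr ι E ≤ Pr ι F := by
  unfold Pr
  apply div_le_div_of_nonneg_right _ (card_pos' ι).le
  exact_mod_cast Finset.card_le_card (Finset.monotone_filter_right _ fun ω _ => h _)

lemma Pr_congr {E F : (I → A) → Prop} (h : ∀ c, E c ↔ F c) : Pr ι E = Pr ι F := by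
  have : E = F := funext fun c => propext (h c)
  rw [this]

lemma Pr_true : Pr ι (fun _ : I → A => True) = 1 := by
  unfold Pr
  simp only [Finset.filter_true, Finset.card_univ]
  exact div_self (card_pos' ι).ne'

lemma Pr_false : Pr ι (fun _ : I → A => False) = 0 := by simp [Pr]

lemma Pr_or_and (E F : (I → A) → Prop) :
    Pr ι (fun c => E c ∨ F c) + Pr ι (fun c => E c ∧ F c) = Pr ι E + Pr ι F := by
  unfold Pr
  rw [← add_div, ← add_div]
  congr 1
  have := Finset.card_union_add_card_inter
    ((univ : Finset (ι → A)).filter fun ω => E (ext ι ω))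
    ((univ : Finset (ι → A)).filter fun ω => F (ext ι ω))
  rw [← Nat.cast_add, ← Nat.cast_add, ← this]
  congr 2 <;> (congr 1; ext ω; simp)

lemma Pr_or_le (E F : (I → A) → Prop) : Pr ι (fun c => E c ∨ F c) ≤ Pr ι E + Pr ι F := by
  have := Pr_or_and ι E F
  have := Pr_nonneg ι (fun c => E c ∧ F c)
  linarith

lemma Pr_or_disj (E F : (I → A) → Prop) (h : ∀ c, E c → F c → False) :
    Pr ι (fun c => E c ∨ F c) = Pr ι E + Pr ι F := by
  have h1 := Pr_or_and ι E F
  rw [Pr_congr ι (E := fun c => E c ∧ F c) (F := fun _ => False)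
    (fun c => ⟨fun h' => h c h'.1 h'.2, False.elim⟩), Pr_false] at h1
  linarith

lemma Pr_not (E : (I → A) → Prop) : Pr ι (fun c => ¬ E c) = 1 - Pr ι E := by
  have h1 := Pr_or_disj ι E (fun c => ¬ E c) (fun c h h' => h' h)
  rw [Pr_congr ι (E := fun c => E c ∨ ¬ E c) (F := fun _ => True)
    (fun c => ⟨fun _ => trivial, fun _ => Classical.em _⟩), Pr_true] at h1
  linarith

lemma Pr_exists_le {K : Type} (s : Finset K) (E : K → (I → A) → Prop) (δ : ℝ)
    (h : ∀ i ∈ s, Pr ι (E i) ≤ δ) : Pr ι (fun c => ∃ i ∈ s, E i c) ≤ s.card * δ := by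
  induction s using Finset.induction_on with
  | empty => simp [Pr]
  | insert a s ha ih =>
    rw [Pr_congr ι (F := fun c => E a c ∨ ∃ i ∈ s, E i c) (fun c => by simp)]
    refine (Pr_or_le ι _ _).trans ?_
    have h1 := h a (mem_insert_self _ _)
    have h2 := ih fun i hi => h i (mem_insert_of_mem hi)
    rw [Finset.card_insert_of_notMem ha]
    push_cast
    linarith

lemma Pr_and_indep {S T : Set I} (hST : Disjoint S T) {E F : (I → A) → Prop}
    (hE : Dep S E) (hF : Dep T F) : Pr ι (fun c => E c ∧ F c) = Pr ι E * Pr ι F := by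
  let mix : (ι → A) → (ι → A) → (ι → A) := fun ω ω' p => if (p : I) ∈ S then ω p else ω' p
  have h1 : ∀ ω ω', E (ext ι (mix ω ω')) ↔ E (ext ι ω) := by
    intro ω ω'
    have : ∀ p ∈ S, ext ι (mix ω ω') p = ext ι ω p := by
      intro p hp
      unfold ext
      split_ifs
      · simp [mix, hp]
      · rfl
    exact ⟨hE _ _ this, hE _ _ fun p hp => (this p hp).symm⟩
  have h2 : ∀ ω ω', F (ext ι (mix ω ω')) ↔ F (ext ι ω') := by
    intro ω ω'
    have : ∀ p ∈ T, ext ι (mix ω ω') p = ext ι ω' p := by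
      intro p hp
      have hp' : p ∉ S := fun h => Set.disjoint_left.1 hST h hp
      unfold ext
      split_ifs
      · simp [mix, hp']
      · rfl
    exact ⟨hF _ _ this, hF _ _ fun p hp => (this p hp).symm⟩
  have hinv : ∀ ω ω', mix (mix ω ω') (mix ω' ω) = ω := by
    intro ω ω'
    funext p
    simp only [mix]
    split_ifs <;> rfl
  have key : ((univ : Finset (ι → A)).filter fun ω => E (ext ι ω)).card *
      ((univ : Finset (ι → A)).filter fun ω => F (ext ι ω)).card =
      ((univ : Finset (ι → A)).filter fun ω => E (ext ι ω) ∧ F (ext ι ω)).card *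
        Fintype.card (ι → A) := by
    rw [← Finset.card_product, ← Finset.card_univ, ← Finset.card_product]
    refine Finset.card_bij' (fun p _ => (mix p.1 p.2, mix p.2 p.1))
      (fun p _ => (mix p.1 p.2, mix p.2 p.1)) ?_ ?_ ?_ ?_
    · rintro ⟨ω, ω'⟩ hp
      simp only [Finset.mem_product, Finset.mem_filter, Finset.mem_univ, true_and,
        and_true] at hp ⊢
      exact ⟨(h1 _ _).2 hp.1, (h2 _ _).2 hp.2⟩
    · rintro ⟨ω, ω'⟩ hp
      simp only [Finset.mem_product, Finset.mem_filter, Finset.mem_univ, true_and,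
        and_true] at hp ⊢
      exact ⟨(h1 _ _).2 hp.1, (h2 _ _).2 hp.2⟩
    · rintro ⟨ω, ω'⟩ _
      simp only [hinv]
    · rintro ⟨ω, ω'⟩ _
      simp only [hinv]
  unfold Pr
  have hc := card_pos' (A := A) ι
  have key' : (((univ : Finset (ι → A)).filter fun ω => E (ext ι ω)).card : ℝ) *
      ((univ : Finset (ι → A)).filter fun ω => F (ext ι ω)).card =
      ((univ : Finset (ι → A)).filter fun ω => E (ext ι ω) ∧ F (ext ι ω)).card *
        (Fintype.card (ι → A) : ℝ) := by exact_mod_cast key
  field_simp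
  rw [key']

lemma Pr_forall_indep {K : Type} (s : Finset K) (S : K → Set I) (E : K → (I → A) → Prop)
    (hS : ∀ i ∈ s, ∀ j ∈ s, i ≠ j → Disjoint (S i) (S j)) (hE : ∀ i ∈ s, Dep (S i) (E i))
    (δ : ℝ) (h : ∀ i ∈ s, Pr ι (E i) = δ) : Pr ι (fun c => ∀ i ∈ s, E i c) = δ ^ s.card := by
  induction s using Finset.induction_on with
  | empty => simpa using Pr_true ι
  | insert a s ha ih =>
    rw [Pr_congr ι (F := fun c => E a c ∧ ∀ i ∈ s, E i c) (fun c => by simp)]
    rw [Pr_and_indep ι (S := S a) (T := ⋃ i ∈ s, S i), h a (mem_insert_self _ _),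
      ih (fun i hi j hj => hS i (mem_insert_of_mem hi) j (mem_insert_of_mem hj))
        (fun i hi => hE i (mem_insert_of_mem hi)) (fun i hi => h i (mem_insert_of_mem hi)),
      Finset.card_insert_of_notMem ha, pow_succ']
    · simp only [Set.disjoint_iUnion_right]
      intro i hi
      exact hS a (mem_insert_self _ _) i (mem_insert_of_mem hi) (fun h => ha (h ▸ hi))
    · exact hE a (mem_insert_self _ _)
    · intro c c' hc hall i hi
      exact hE i (mem_insert_of_mem hi) c c'
        (fun p hp => hc p (Set.mem_biUnion (Finset.mem_coe.2 hi) hp)) (hall i hi)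

lemma Pr_coord (p : I) (hp : p ∈ ι) (Q : A → Prop) :
    Pr ι (fun c => Q (c p)) = ((univ : Finset A).filter Q).card / (Fintype.card A : ℝ) := by
  have key : ((univ : Finset (ι → A)).filter fun ω => Q (ext ι ω p)).card * Fintype.card A =
      ((univ : Finset A).filter Q).card * Fintype.card (ι → A) := by
    rw [← Finset.card_univ, ← Finset.card_univ, ← Finset.card_product, ← Finset.card_product]
    refine Finset.card_bij' (fun z _ => (z.1 ⟨p, hp⟩, Function.update z.1 ⟨p, hp⟩ z.2))
      (fun z _ => (Function.update z.2 ⟨p, hp⟩ z.1, z.2 ⟨p, hp⟩)) ?_ ?_ ?_ ?_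
    · rintro ⟨ω, a⟩ hz
      simpa [ext, hp] using hz
    · rintro ⟨a, ω⟩ hz
      simpa [ext, hp] using hz
    · rintro ⟨ω, a⟩ _
      simp
    · rintro ⟨a, ω⟩ _
      simp
  unfold Pr
  have hc := card_pos' (A := A) ι
  have hA : (0 : ℝ) < Fintype.card A := by exact_mod_cast Fintype.card_pos
  rw [div_eq_div_iff hc.ne' hA.ne']
  exact_mod_cast key

open MeasureTheory in
/-- averaging: some outcome makes the sum of two measures small -/
lemma exists_small (D : Set ℝ) (hD : MeasurableSet D) (hDf : volume D ≠ ⊤)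
    (B B' : (I → A) → Set ℝ) (hB : ∀ c, MeasurableSet (B c)) (hB' : ∀ c, MeasurableSet (B' c))
    (δ δ' : ℝ) (h : ∀ x ∈ D, Pr ι (fun c => x ∈ B c) ≤ δ)
    (h' : ∀ x ∈ D, Pr ι (fun c => x ∈ B' c) ≤ δ') :
    ∃ c, volume.real (B c ∩ D) + volume.real (B' c ∩ D) ≤ (δ + δ') * volume.real D := by
  have hc := card_pos' (A := A) ι
  haveI : IsFiniteMeasure (volume.restrict D) := isFiniteMeasure_restrict.2 hDf
  have avg : ∀ (B : (I → A) → Set ℝ) (_ : ∀ c, MeasurableSet (B c)) (δ : ℝ)
      (_ : ∀ x ∈ D, Pr ι (fun c => x ∈ B c) ≤ δ),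
      ∑ ω : ι → A, volume.real (B (ext ι ω) ∩ D) ≤
        Fintype.card (ι → A) * (δ * volume.real D) := by
    intro B hB δ h
    have h1 : ∀ ω : ι → A, volume.real (B (ext ι ω) ∩ D) =
        ∫ x in D, (B (ext ι ω)).indicator (fun _ => (1 : ℝ)) x := by
      intro ω
      rw [integral_indicator_const _ (hB _), smul_eq_mul, mul_one, Measure.real, Measure.real,
        Measure.restrict_apply (hB _)]
    simp only [h1]
    rw [← integral_finset_sum _ (fun ω _ => (integrable_const _).indicator (hB _))]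
    have h2 : (Fintype.card (ι → A) : ℝ) * (δ * volume.real D) =
        ∫ _ in D, (Fintype.card (ι → A) : ℝ) * δ := by
      rw [setIntegral_const, smul_eq_mul]; ring
    rw [h2]
    refine setIntegral_mono_on (integrable_finset_sum _
      (fun ω _ => (integrable_const _).indicator (hB _))) (integrable_const _) hD fun x hx => ?_
    have h3 := h x hx
    unfold Pr at h3
    rw [div_le_iff₀ hc] at h3
    rw [mul_comm]
    refine le_trans (le_of_eq ?_) h3
    simp [Set.indicator_apply]
  have h1 := avg B hB δ h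
  have h2 := avg B' hB' δ' h'
  by_contra hcon
  push Not at hcon
  have h3 : ∑ _ω : ι → A, (δ + δ') * volume.real D < ∑ ω : ι → A,
      (volume.real (B (ext ι ω) ∩ D) + volume.real (B' (ext ι ω) ∩ D)) :=
    Finset.sum_lt_sum_of_nonempty univ_nonempty fun ω _ => hcon _
  rw [Finset.sum_add_distrib, Finset.sum_const, Finset.card_univ, nsmul_eq_mul] at h3
  linarith

end Prob

end Crest.Agent.H6.ES
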