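import Crest.Agent.H6.ESa

/-! The staged coin process. -/

set_option autoImplicit false

namespace Crest.Agent.H6.ES

open Classical Finset

variable {A : Type}

/-- up to `i` trials spaced by `L`; first head moves on to `next`, no head gives `fin` -/
def stage (hd : A → Prop) (next fin : ℕ → (ℕ → A) → Prop) (L : ℕ) : ℕ → ℕ → (ℕ → A) → Prop
  | 0, a, c => fin a c
  | i + 1, a, c => (hd (c (a + L)) ∧ next (a + L) c) ∨
      (¬ hd (c (a + L)) ∧ stage hd next fin L i (a + L) c)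

def rem (hd fl : A → Prop) (C : ℕ) (L : ℕ → ℕ) : ℕ → ℕ → (ℕ → A) → Prop
  | 0 => fun a c => fl (c (a + 1))
  | k + 1 => stage hd (rem hd fl C L k) (rem hd fl C L k) (L k) C

def nospec (hd : A → Prop) (C : ℕ) (L : ℕ → ℕ) : ℕ → ℕ → (ℕ → A) → Prop
  | 0 => fun _ _ => True
  | k + 1 => stage hd (nospec hd C L k) (fun _ _ => False) (L k) C

def TT (C : ℕ) (L : ℕ → ℕ) : ℕ → ℕ
  | 0 => 1
  | k + 1 => C * L k + TT C L k

lemma stage_dep (hd : A → Prop) (next fin : ℕ → (ℕ → A) → Prop) (L T : ℕ) (hL : 1 ≤ L)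
    (hn : ∀ a, Dep (Set.Ioc a (a + T)) (next a)) (hf : ∀ a, Dep (Set.Ioc a (a + T)) (fin a))
    (i a : ℕ) : Dep (Set.Ioc a (a + (i * L + T))) (stage hd next fin L i a) := by
  induction i generalizing a with
  | zero =>
    rw [zero_mul, zero_add]
    exact hf a
  | succ i ih =>
    intro c c' hc h
    have h0 : c (a + L) = c' (a + L) := hc _ ⟨by omega, by nlinarith⟩
    rcases h with ⟨h1, h2⟩ | ⟨h1, h2⟩
    · refine Or.inl ⟨h0 ▸ h1, hn _ c c' (fun p hp => hc p ⟨?_, ?_⟩) h2⟩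
      · have := hp.1; omega
      · have := hp.2; nlinarith
    · refine Or.inr ⟨h0 ▸ h1, ih _ c c' (fun p hp => hc p ⟨?_, ?_⟩) h2⟩
      · have := hp.1; omega
      · have := hp.2; nlinarith

lemma rem_dep (hd fl : A → Prop) (C : ℕ) (L : ℕ → ℕ) (hL : ∀ k, 1 ≤ L k) (k a : ℕ) :
    Dep (Set.Ioc a (a + TT C L k)) (rem hd fl C L k a) := by
  induction k generalizing a with
  | zero =>
    intro c c' hc h
    have h0 : c (a + 1) = c' (a + 1) := hc _ ⟨by omega, le_rfl⟩
    change fl (c' (a + 1))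
    exact h0 ▸ h
  | succ k ih => exact stage_dep hd _ _ _ _ (hL k) ih ih C a

lemma nospec_dep (hd : A → Prop) (C : ℕ) (L : ℕ → ℕ) (hL : ∀ k, 1 ≤ L k) (k a : ℕ) :
    Dep (Set.Ioc a (a + TT C L k)) (nospec hd C L k a) := by
  induction k generalizing a with
  | zero => intro c c' _ _; trivial
  | succ k ih => exact stage_dep hd _ _ _ _ (hL k) ih (fun a c c' _ h => h) C a

lemma Dep.comp {I : Type} {S : Set ℕ} {E : (ℕ → A) → Prop} (h : Dep S E) (idx : ℕ → I) :
    Dep (idx '' S) (fun ω : I → A => E (ω ∘ idx)) :=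
  fun _ _ hc => h _ _ fun p hp => hc _ ⟨p, hp, rfl⟩

lemma Dep.mono {I : Type} {S T : Set I} {E : (I → A) → Prop} (h : Dep S E) (hST : S ⊆ T) :
    Dep T E := fun c c' hc => h c c' fun p hp => hc p (hST hp)

section Prob
variable {I : Type} [Fintype A] [Inhabited A] (ι : Finset I) (idx : ℕ → I)
  (hinj : Function.Injective idx) (J : ℕ) (hJ : ∀ l, l ≤ J → idx l ∈ ι)
  (hd fl : A → Prop) (hhd : ((univ : Finset A).filter hd).card / (Fintype.card A : ℝ) = 1 / 2)
include hinj hJ hhd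

lemma Pr_hd_and (b T : ℕ) (hb : b ≤ J) (E : (ℕ → A) → Prop) (hE : Dep (Set.Ioc b (b + T)) E) :
    Pr ι (fun ω => hd ((ω ∘ idx) b) ∧ E (ω ∘ idx)) = 1 / 2 * Pr ι (fun ω => E (ω ∘ idx)) ∧
    Pr ι (fun ω => ¬ hd ((ω ∘ idx) b) ∧ E (ω ∘ idx)) = 1 / 2 * Pr ι (fun ω => E (ω ∘ idx)) := by
  have hdisj : Disjoint ({idx b} : Set I) (idx '' Set.Ioc b (b + T)) := by
    rw [Set.disjoint_singleton_left]
    rintro ⟨l, hl, h⟩
    have := hinj h
    have := hl.1
    omega
  have h1 : Pr ι (fun ω : I → A => hd ((ω ∘ idx) b)) = 1 / 2 :=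
    (Pr_coord ι (idx b) (hJ b hb) hd).trans hhd
  constructor
  · rw [Pr_and_indep ι hdisj (E := fun ω => hd ((ω ∘ idx) b)) _ (hE.comp idx), h1]
    intro c c' hc h
    have : c (idx b) = c' (idx b) := hc _ rfl
    change hd (c' (idx b))
    exact this ▸ h
  · rw [Pr_and_indep ι hdisj (E := fun ω => ¬ hd ((ω ∘ idx) b)) _ (hE.comp idx), Pr_not, h1]
    · norm_num
    intro c c' hc h
    have : c (idx b) = c' (idx b) := hc _ rfl
    change ¬ hd (c' (idx b))
    exact this ▸ h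

lemma Pr_stage (next fin : ℕ → (ℕ → A) → Prop) (L T : ℕ) (hL : 1 ≤ L)
    (hn : ∀ a, Dep (Set.Ioc a (a + T)) (next a)) (hf : ∀ a, Dep (Set.Ioc a (a + T)) (fin a))
    (p f : ℝ) (hp : ∀ a, a + T ≤ J → Pr ι (fun ω => next a (ω ∘ idx)) = p)
    (hf' : ∀ a, a + T ≤ J → Pr ι (fun ω => fin a (ω ∘ idx)) = f) (i a : ℕ)
    (ha : a + (i * L + T) ≤ J) :
    Pr ι (fun ω => stage hd next fin L i a (ω ∘ idx)) = p + (f - p) * (1 / 2) ^ i := by
  induction i generalizing a with
  | zero =>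
    simp only [stage]
    rw [hf' a (by omega)]; ring
  | succ i ih =>
    simp only [stage]
    rw [Pr_or_disj ι _ _ (fun c h h' => h'.1 h.1),
      (Pr_hd_and ι idx hinj J hJ hd hhd (a + L) T (by nlinarith) _ (hn _)).1,
      (Pr_hd_and ι idx hinj J hJ hd hhd (a + L) _ (by nlinarith) _
        (stage_dep hd next fin L T hL hn hf i _)).2,
      hp _ (by nlinarith), ih _ (by nlinarith)]
    ring

lemma Pr_rem (C : ℕ) (L : ℕ → ℕ) (hL : ∀ k, 1 ≤ L k) (k a : ℕ) (ha : a + TT C L k ≤ J) :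
    Pr ι (fun ω => rem hd fl C L k a (ω ∘ idx)) =
      ((univ : Finset A).filter fl).card / (Fintype.card A : ℝ) := by
  induction k generalizing a with
  | zero => exact Pr_coord ι (idx (a + 1)) (hJ _ ha) fl
  | succ k ih =>
    have := Pr_stage ι idx hinj J hJ hd hhd _ _ (L k) _ (hL k) (rem_dep hd fl C L hL k)
      (rem_dep hd fl C L hL k) _ _ ih ih C a ha
    refine this.trans ?_
    ring

lemma Pr_nospec (C : ℕ) (L : ℕ → ℕ) (hL : ∀ k, 1 ≤ L k) (k a : ℕ) (ha : a + TT C L k ≤ J) :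
    Pr ι (fun ω => nospec hd C L k a (ω ∘ idx)) = (1 - (1 / 2) ^ C) ^ k := by
  induction k generalizing a with
  | zero => simpa [nospec] using Pr_true ι
  | succ k ih =>
    have := Pr_stage ι idx hinj J hJ hd hhd _ (fun _ _ => False) (L k) _ (hL k)
      (nospec_dep hd C L hL k) (fun a c c' _ h => h) _ 0 ih (fun _ _ => Pr_false ι) C a ha
    refine this.trans ?_
    ring

end Prob

/-- reachable stage starts -/
def Starts (C : ℕ) (L : ℕ → ℕ) : ℕ → ℕ → Finset (ℕ × ℕ)
  | 0, _ => ∅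
  | k + 1, a => insert (k, a) ((Finset.Icc 1 C).biUnion fun i => Starts C L k (a + i * L k))

def WW (C : ℕ) : ℕ → ℕ
  | 0 => 0
  | k + 1 => 1 + C * WW C k

lemma card_Starts (C : ℕ) (L : ℕ → ℕ) (k a : ℕ) : (Starts C L k a).card ≤ WW C k := by
  induction k generalizing a with
  | zero => simp [Starts]
  | succ k ih =>
    simp only [Starts, WW]
    refine (Finset.card_insert_le _ _).trans ?_
    have := Finset.card_biUnion_le_card_mul (Finset.Icc 1 C)
      (fun i => Starts C L k (a + i * L k)) (WW C k) (fun i _ => ih _)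
    simp only [Nat.card_Icc, Nat.add_sub_cancel] at this
    omega

lemma mem_Starts (C : ℕ) (L : ℕ → ℕ) (k a : ℕ) (p : ℕ × ℕ) (hp : p ∈ Starts C L k a) :
    a ≤ p.2 ∧ p.2 + TT C L (p.1 + 1) ≤ a + TT C L k := by
  induction k generalizing a with
  | zero => simp [Starts] at hp
  | succ k ih =>
    simp only [Starts, Finset.mem_insert, Finset.mem_biUnion, Finset.mem_Icc] at hp
    rcases hp with rfl | ⟨i, hi, h⟩
    · simp
    · have := ih _ h
      have h2 : i * L k ≤ C * L k := Nat.mul_le_mul_right _ hi.2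
      simp only [TT] at this ⊢
      omega

lemma stage_of_tails (hd : A → Prop) (next fin : ℕ → (ℕ → A) → Prop) (L : ℕ) (c : ℕ → A)
    (i j a : ℕ) (hj : j < i) (ht : ∀ u, 1 ≤ u → u ≤ j → ¬ hd (c (a + u * L)))
    (hh : hd (c (a + (j + 1) * L))) (hn : next (a + (j + 1) * L) c) :
    stage hd next fin L i a c := by
  induction j generalizing i a with
  | zero =>
    obtain ⟨i, rfl⟩ : ∃ i', i = i' + 1 := ⟨i - 1, by omega⟩
    exact Or.inl ⟨by simpa using hh, by simpa using hn⟩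
  | succ j ih =>
    obtain ⟨i, rfl⟩ : ∃ i', i = i' + 1 := ⟨i - 1, by omega⟩
    refine Or.inr ⟨by simpa using ht 1 le_rfl (by omega), ih i (a + L) (by omega) ?_ ?_ ?_⟩
    · intro u hu1 hu
      have := ht (u + 1) (by omega) (by omega)
      rwa [show a + (u + 1) * L = a + L + u * L by ring] at this
    · rwa [show a + (j + 1 + 1) * L = a + L + (j + 1) * L by ring] at hh
    · rwa [show a + (j + 1 + 1) * L = a + L + (j + 1) * L by ring] at hn

lemma not_stage_false (hd : A → Prop) (next : ℕ → (ℕ → A) → Prop) (L : ℕ) (c : ℕ → A)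
    (i a : ℕ) (h : ¬ stage hd next (fun _ _ => False) L i a c) :
    (∀ u, 1 ≤ u → u ≤ i → ¬ hd (c (a + u * L))) ∨
    ∃ j, j < i ∧ (∀ u, 1 ≤ u → u ≤ j → ¬ hd (c (a + u * L))) ∧ hd (c (a + (j + 1) * L)) ∧
      ¬ next (a + (j + 1) * L) c := by
  induction i generalizing a with
  | zero => exact Or.inl fun u h1 h2 => by omega
  | succ i ih =>
    simp only [stage, not_or, not_and] at h
    by_cases hh : hd (c (a + L))
    · exact Or.inr ⟨0, by omega, fun u h1 h2 => by omega, by simpa using hh,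
        by simpa using h.1 hh⟩
    · have key : ∀ j, (∀ u, 1 ≤ u → u ≤ j → ¬ hd (c (a + L + u * L))) →
          ∀ u, 1 ≤ u → u ≤ j + 1 → ¬ hd (c (a + u * L)) := by
        intro j hj u h1 h2
        rcases Nat.eq_or_lt_of_le h1 with rfl | h3
        · simpa using hh
        · obtain ⟨u, rfl⟩ : ∃ u', u = u' + 1 := ⟨u - 1, by omega⟩
          rw [show a + (u + 1) * L = a + L + u * L by ring]
          exact hj u (by omega) (by omega)
      rcases ih _ (h.2 hh) with h1 | ⟨j, hj, h1, h2, h3⟩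
      · exact Or.inl (key i h1)
      · refine Or.inr ⟨j + 1, by omega, key j h1, ?_, ?_⟩
        · rwa [show a + (j + 1 + 1) * L = a + L + (j + 1) * L by ring]
        · rwa [show a + (j + 1 + 1) * L = a + L + (j + 1) * L by ring]

/-- deterministic core -/
theorem exists_rem {Y : Type} (hd fl : A → Prop) (C : ℕ) (L : ℕ → ℕ) (cx : ℕ → A)
    (cy : Y → ℕ → A) (k a : ℕ)
    (hloc : ∀ p ∈ Starts C L k a, ∃ i < C, ∃ y, (∀ l ≤ p.2 + i * L p.1, cy y l = cx l) ∧
      hd (cy y (p.2 + (i + 1) * L p.1)) ∧ rem hd fl C L p.1 (p.2 + (i + 1) * L p.1) (cy y))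
    (h : ¬ nospec hd C L k a cx) :
    ∃ y, (∀ l ≤ a, cy y l = cx l) ∧ rem hd fl C L k a (cy y) := by
  induction k generalizing a with
  | zero => exact absurd trivial h
  | succ k ih =>
    rcases not_stage_false hd _ _ _ _ _ h with h1 | ⟨j, hj, h1, h2, h3⟩
    · obtain ⟨i, hi, y, e1, e2, e3⟩ := hloc (k, a) (by simp [Starts])
      simp only at e1 e2 e3
      refine ⟨y, fun l hl => e1 l (by omega), stage_of_tails hd _ _ _ _ C i a hi ?_ e2 e3⟩
      intro u hu1 hu
      rw [e1 _ (by nlinarith)]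
      exact h1 u hu1 (by omega)
    · obtain ⟨y, e1, e2⟩ := ih (a + (j + 1) * L k) (fun p hp => hloc p (by
        simp only [Starts, Finset.mem_insert, Finset.mem_biUnion, Finset.mem_Icc]
        exact Or.inr ⟨j + 1, ⟨by omega, by omega⟩, hp⟩)) h3
      refine ⟨y, fun l hl => e1 l (by omega), stage_of_tails hd _ _ _ _ C j a hj ?_ ?_ e2⟩
      · intro u hu1 hu
        rw [e1 _ (by nlinarith)]
        exact h1 u hu1 hu
      · rw [e1 _ le_rfl]; exact h2

lemma meas_stage {X : Type} [MeasurableSpace X] (hd : A → Prop) (next fin : ℕ → (ℕ → A) → Prop)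
    (L : ℕ) (c : X → ℕ → A) (hc : ∀ (Q : A → Prop) l, MeasurableSet {x | Q (c x l)})
    (hn : ∀ a, MeasurableSet {x | next a (c x)}) (hf : ∀ a, MeasurableSet {x | fin a (c x)})
    (i a : ℕ) : MeasurableSet {x | stage hd next fin L i a (c x)} := by
  induction i generalizing a with
  | zero => exact hf a
  | succ i ih =>
    exact ((hc hd _).inter (hn _)).union ((hc (fun u => ¬ hd u) _).inter (ih _))

lemma meas_rem {X : Type} [MeasurableSpace X] (hd fl : A → Prop) (C : ℕ) (L : ℕ → ℕ)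
    (c : X → ℕ → A) (hc : ∀ (Q : A → Prop) l, MeasurableSet {x | Q (c x l)}) (k a : ℕ) :
    MeasurableSet {x | rem hd fl C L k a (c x)} := by
  induction k generalizing a with
  | zero => exact hc fl _
  | succ k ih => exact meas_stage hd _ _ _ c hc ih ih C a

end Crest.Agent.H6.ES
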