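import Crest.Agent.H6.ESb

/-! Cells, patterns, boundary sets. -/

set_option autoImplicit false

namespace Crest.Agent.H6.ES

open Classical Finset MeasureTheory

noncomputable def cell (β l : ℕ) (y : ℝ) : ℤ := ⌊(β : ℝ) ^ l * y⌋

noncomputable def idx (β : ℕ) (y : ℝ) : ℕ → ℕ × ℤ := fun l => (l, cell β l y)

lemma idx_inj (β : ℕ) (y : ℝ) : Function.Injective (idx β y) :=
  fun _ _ h => congrArg Prod.fst h

lemma cell_of_le (β : ℕ) (hβ : 0 < β) {l l' : ℕ} (h : l ≤ l') {x y : ℝ}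
    (he : cell β l' x = cell β l' y) : cell β l x = cell β l y := by
  obtain ⟨d, rfl⟩ := Nat.exists_eq_add_of_le h
  have hb : (0 : ℝ) < (β : ℝ) ^ d := by positivity
  have key : ∀ z : ℝ, cell β l z = cell β (l + d) z / ((β ^ d : ℕ) : ℤ) := by
    intro z
    unfold cell
    rw [← Int.floor_div_natCast]
    congr 1
    push_cast
    field_simp
    ring
  rw [key, key, he]

lemma cell_ne (β l : ℕ) {x y : ℝ} (h : 1 ≤ (β : ℝ) ^ l * |x - y|) : cell β l x ≠ cell β l y := by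
  intro he
  have := Int.abs_sub_lt_one_of_floor_eq_floor he
  rw [← mul_sub, abs_mul, abs_of_nonneg (by positivity)] at this
  linarith

lemma cell_mono (β l : ℕ) {x y : ℝ} (h : x ≤ y) : cell β l x ≤ cell β l y :=
  Int.floor_le_floor (mul_le_mul_of_nonneg_left h (by positivity))

lemma meas_cell (β l : ℕ) : Measurable (cell β l) :=
  Int.measurable_floor.comp (measurable_const.mul measurable_id)

lemma patterns {P : Type} (s : Finset P) (S : Set ℝ) (φ : P → ℝ → ℤ)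
    (hφ : ∀ p ∈ s, Monotone (φ p)) (lo : P → ℤ) (B : ℕ)
    (h : ∀ p ∈ s, ∀ z ∈ S, lo p ≤ φ p z ∧ φ p z ≤ lo p + B) :
    ∃ F : Finset ℝ, (∀ z ∈ F, z ∈ S) ∧ F.card ≤ s.card * B + 1 ∧
      ∀ z ∈ S, ∃ z' ∈ F, ∀ p ∈ s, φ p z' = φ p z := by
  let σ : ℝ → ℤ := fun z => ∑ p ∈ s, φ p z
  have hrep : ∀ v : ℤ, ∃ z', (∃ z ∈ S, σ z = v) → z' ∈ S ∧ σ z' = v := by
    intro v
    by_cases hv : ∃ z ∈ S, σ z = v
    · obtain ⟨z, hz⟩ := hv
      exact ⟨z, fun _ => hz⟩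
    · exact ⟨0, fun h => absurd h hv⟩
  choose rep hrep using hrep
  let V := (Finset.Icc (∑ p ∈ s, lo p) (∑ p ∈ s, lo p + (s.card * B : ℕ))).filter
    fun v => ∃ z ∈ S, σ z = v
  refine ⟨V.image rep, ?_, ?_, ?_⟩
  · intro z hz
    obtain ⟨v, hv, rfl⟩ := Finset.mem_image.1 hz
    exact (hrep v (Finset.mem_filter.1 hv).2).1
  · refine Finset.card_image_le.trans ((Finset.card_filter_le _ _).trans ?_)
    rw [Int.card_Icc]
    omega
  · intro z hz
    have hv : ∃ z' ∈ S, σ z' = σ z := ⟨z, hz, rfl⟩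
    refine ⟨rep (σ z), Finset.mem_image_of_mem _ (Finset.mem_filter.2 ⟨Finset.mem_Icc.2
      ⟨Finset.sum_le_sum fun p hp => (h p hp z hz).1, ?_⟩, hv⟩), ?_⟩
    · have := Finset.sum_le_sum fun p hp => (h p hp z hz).2
      rw [Finset.sum_add_distrib, Finset.sum_const] at this
      simpa [σ] using this
    · have h2 := (hrep _ hv).2
      rcases le_total z (rep (σ z)) with h3 | h3
      · have := (Finset.sum_eq_sum_iff_of_le (s := s) (f := fun p => φ p z)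
          (g := fun p => φ p (rep (σ z))) fun p hp => hφ p hp h3).1 h2.symm
        exact fun p hp => (this p hp).symm
      · exact (Finset.sum_eq_sum_iff_of_le (s := s) (g := fun p => φ p z)
          (f := fun p => φ p (rep (σ z))) fun p hp => hφ p hp h3).1 h2

/-- points close to a boundary of a level `a` cell -/
def Bd (β g a : ℕ) : Set ℝ :=
  ⋃ m ∈ Finset.Icc (-1 : ℤ) (β ^ a + 1), Metric.closedBall ((m : ℝ) / (β : ℝ) ^ a)
    (1 / (β : ℝ) ^ (a + g))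

lemma meas_Bd (β g a : ℕ) : MeasurableSet (Bd β g a) :=
  Finset.measurableSet_biUnion _ fun _ _ => Metric.isClosed_closedBall.measurableSet

lemma vol_Bd (β g a : ℕ) (hβ : 0 < β) : volume (Bd β g a) ≤ ENNReal.ofReal (8 / (β : ℝ) ^ g) := by
  refine (measure_biUnion_finset_le _ _).trans ?_
  simp only [Real.volume_closedBall, Finset.sum_const, Int.card_Icc, nsmul_eq_mul]
  have h1 : ((β : ℤ) ^ a + 1 + 1 - -1).toNat = β ^ a + 3 := by
    have : ((β : ℤ) ^ a + 1 + 1 - -1) = ((β ^ a + 3 : ℕ) : ℤ) := by push_cast; ring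
    rw [this, Int.toNat_natCast]
  rw [h1, ← ENNReal.ofReal_natCast, ← ENNReal.ofReal_mul (by positivity)]
  apply ENNReal.ofReal_le_ofReal
  have hb : (0 : ℝ) < β := by exact_mod_cast hβ
  have h2 : (1 : ℝ) ≤ (β : ℝ) ^ a := one_le_pow₀ (by exact_mod_cast hβ)
  push_cast
  rw [pow_add, le_div_iff₀ (by positivity)]
  have : ((β : ℝ) ^ a + 3) * (2 * (1 / ((β : ℝ) ^ a * (β : ℝ) ^ g))) * (β : ℝ) ^ g =
      2 * ((β : ℝ) ^ a + 3) / (β : ℝ) ^ a := by field_simp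
  rw [this, div_le_iff₀ (by positivity)]
  linarith

lemma cell_eq_of_not_Bd (β g a : ℕ) (hβ : 0 < β) {x y : ℝ} (hx : x ∈ Set.Icc (0 : ℝ) 1)
    (hB : x ∉ Bd β g a) (hy : (β : ℝ) ^ (a + g) * |y - x| < 1) : cell β a y = cell β a x := by
  have hb : (0 : ℝ) < β := by exact_mod_cast hβ
  have hba : (0 : ℝ) < (β : ℝ) ^ a := by positivity
  have hbg : (0 : ℝ) < (β : ℝ) ^ g := by positivity
  have hfar : ∀ m : ℤ, -1 ≤ m → m ≤ β ^ a + 1 → 1 / (β : ℝ) ^ g < |(β : ℝ) ^ a * x - m| := by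
    intro m h1 h2
    by_contra hc
    push Not at hc
    apply hB
    refine Set.mem_iUnion₂.2 ⟨m, Finset.mem_Icc.2 ⟨h1, h2⟩, ?_⟩
    rw [Metric.mem_closedBall, Real.dist_eq]
    have : x - m / (β : ℝ) ^ a = ((β : ℝ) ^ a * x - m) / (β : ℝ) ^ a := by field_simp
    rw [this, abs_div, abs_of_pos hba, div_le_iff₀ hba]
    refine hc.trans (le_of_eq ?_)
    rw [pow_add]; field_simp
  have h0 : 0 ≤ cell β a x := Int.floor_nonneg.2 (mul_nonneg hba.le hx.1)
  have h1 : cell β a x ≤ β ^ a := by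
    have : (β : ℝ) ^ a * x ≤ (((β : ℤ) ^ a : ℤ) : ℝ) := by
      push_cast; exact mul_le_of_le_one_right hba.le hx.2
    exact (Int.floor_le_floor this).trans (by rw [Int.floor_intCast])
  have h2 := hfar (cell β a x) (by omega) (by omega)
  have h3 := hfar (cell β a x + 1) (by omega) (by omega)
  have h4 : (cell β a x : ℝ) ≤ (β : ℝ) ^ a * x := Int.floor_le _
  have h5 : (β : ℝ) ^ a * x < cell β a x + 1 := Int.lt_floor_add_one _
  rw [abs_of_nonneg (by linarith)] at h2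
  push_cast at h3
  rw [abs_of_nonpos (by linarith)] at h3
  have h6 : |(β : ℝ) ^ a * y - (β : ℝ) ^ a * x| < 1 / (β : ℝ) ^ g := by
    rw [← mul_sub, abs_mul, abs_of_pos hba, lt_div_iff₀ hbg]
    rw [pow_add] at hy
    linarith
  rw [abs_lt] at h6
  unfold cell at *
  rw [Int.floor_eq_iff]
  constructor <;> linarith [h6.1, h6.2]

lemma exists_nn (q t : ℝ) (hq0 : 0 < q) (hq1 : q < 1) (ht : 0 < t) (β : ℕ) (hβ : 2 ≤ β * q ^ 2)
    (a0 : ℕ) (ha0 : 1 ≤ (β : ℝ) ^ a0 * t) :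
    ∃ n : ℕ → ℕ, ∀ j, a0 ≤ j → ∀ s : ℝ, q * t ≤ |s| → |s| ≤ t →
      (β : ℝ) ^ j * (|s| * q ^ n j) < 1 ∧ 2 ≤ (β : ℝ) ^ (j + 1) * (|s| * q ^ n j) := by
  have hb1 : (1 : ℝ) ≤ β := by nlinarith [mul_pos hq0 hq0, (Nat.cast_nonneg β : (0 : ℝ) ≤ β)]
  have hex : ∀ j : ℕ, ∃ n : ℕ, (β : ℝ) ^ j * (t * q ^ n) < 1 := by
    intro j
    have hp : (0 : ℝ) < (β : ℝ) ^ j * t := by positivity
    obtain ⟨n, hn⟩ := exists_pow_lt_of_lt_one (one_div_pos.2 hp) hq1
    refine ⟨n, ?_⟩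
    rw [lt_div_iff₀ hp] at hn
    linarith
  refine ⟨fun j => Nat.find (hex j), fun j hj s hs1 hs2 => ⟨?_, ?_⟩⟩
  · refine lt_of_le_of_lt ?_ (Nat.find_spec (hex j))
    gcongr
  · have h1 : 1 ≤ (β : ℝ) ^ j * t :=
      ha0.trans (mul_le_mul_of_nonneg_right (pow_le_pow_right₀ hb1 hj) ht.le)
    have h2 : Nat.find (hex j) ≠ 0 := by
      intro h
      have := Nat.find_spec (hex j)
      rw [h] at this
      simp at this
      linarith
    obtain ⟨m, hm⟩ := Nat.exists_eq_succ_of_ne_zero h2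
    have h3 := Nat.find_min (hex j) (m := m) (by omega)
    push Not at h3
    simp only [hm]
    have h4 : (β : ℝ) ^ (j + 1) * (q * t * q ^ (m + 1)) ≤ (β : ℝ) ^ (j + 1) * (|s| * q ^ (m + 1)) := by
      gcongr
    refine le_trans ?_ h4
    have h5 : (β : ℝ) ^ (j + 1) * (q * t * q ^ (m + 1)) =
        (β * q ^ 2) * ((β : ℝ) ^ j * (t * q ^ m)) := by ring
    rw [h5]
    nlinarith

end Crest.Agent.H6.ES
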