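import Crest.Agent.H6.ESc

/-! The union bound at one stage. -/

set_option autoImplicit false

namespace Crest.Agent.H6.ES

open Classical Finset MeasureTheory

noncomputable def io (β J : ℕ) : Finset (ℕ × ℤ) :=
  Finset.range (J + 1) ×ˢ Finset.Icc (-((β : ℤ) ^ J)) (2 * (β : ℤ) ^ J)

lemma idx_mem (β J : ℕ) (hβ : 0 < β) {y : ℝ} (hy : y ∈ Set.Icc (-1 : ℝ) 2) (l : ℕ) (hl : l ≤ J) :
    idx β y l ∈ io β J := by
  have hb : (1 : ℝ) ≤ β := by exact_mod_cast hβ
  have h1 : (β : ℝ) ^ l ≤ (β : ℝ) ^ J := pow_le_pow_right₀ hb hl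
  have h0 : (0 : ℝ) < (β : ℝ) ^ l := by positivity
  refine Finset.mem_product.2 ⟨Finset.mem_range.2 (by simp [idx]; omega), Finset.mem_Icc.2 ⟨?_, ?_⟩⟩
  · change _ ≤ ⌊_⌋
    rw [Int.le_floor]
    push_cast
    nlinarith [hy.1]
  · change ⌊_⌋ ≤ _
    have : (β : ℝ) ^ l * y ≤ ((2 * (β : ℤ) ^ J : ℤ) : ℝ) := by
      push_cast
      nlinarith [hy.2]
    exact (Int.floor_le_floor this).trans (by rw [Int.floor_intCast])

lemma hit_dep {A : Type} (hd fl : A → Prop) (C : ℕ) (L : ℕ → ℕ) (hL : ∀ k, 1 ≤ L k) (k b : ℕ) :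
    Dep (Set.Icc b (b + TT C L k)) (fun c : ℕ → A => hd (c b) ∧ rem hd fl C L k b c) := by
  intro c c' hc h
  have h0 : c b = c' b := hc b ⟨le_rfl, by omega⟩
  exact ⟨h0 ▸ h.1, rem_dep hd fl C L hL k b c c' (fun p hp => hc p ⟨hp.1.le, hp.2⟩) h.2⟩

lemma Dep.not {I A : Type} {S : Set I} {E : (I → A) → Prop} (h : Dep S E) :
    Dep S (fun c => ¬ E c) :=
  fun c c' hc h1 h2 => h1 (h c' c (fun p hp => (hc p hp).symm) h2)

theorem loc_bound {A : Type} [Fintype A] [Inhabited A] (hd fl : A → Prop)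
    (hhd : ((univ : Finset A).filter hd).card / (Fintype.card A : ℝ) = 1 / 2)
    (p : ℝ) (hp : ((univ : Finset A).filter fl).card / (Fintype.card A : ℝ) = p)
    (q t : ℝ) (hq0 : 0 < q) (β : ℕ) (hβ : 0 < β) (a0 : ℕ) (n : ℕ → ℕ)
    (hn : ∀ j, a0 ≤ j → ∀ s : ℝ, q * t ≤ |s| → |s| ≤ t →
      (β : ℝ) ^ j * (|s| * q ^ n j) < 1 ∧ 2 ≤ (β : ℝ) ^ (j + 1) * (|s| * q ^ n j))
    (C : ℕ) (L : ℕ → ℕ) (hL : ∀ k, 1 ≤ L k) (g J k a : ℕ) (ha : a0 ≤ a)
    (haJ : a + TT C L (k + 1) ≤ J) (x : ℝ) (hx : x ∈ Set.Icc (0 : ℝ) 1) :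
    Pr (io β J) (fun ω : ℕ × ℤ → A => ∃ s : ℝ, (q * t ≤ |s| ∧ |s| ≤ t) ∧
      ∀ i < C, ∀ u < L k - g,
        ¬ (hd ((ω ∘ idx β (x + s * q ^ n (a + i * L k + g + u))) (a + (i + 1) * L k)) ∧
          rem hd fl C L k (a + (i + 1) * L k)
            (ω ∘ idx β (x + s * q ^ n (a + i * L k + g + u))))) ≤
      ((C * (L k - g) * (2 * β ^ (L k + TT C L k)) + 1 : ℕ) : ℝ) *
        (1 - p / 2) ^ (C * (L k - g)) := by
  have hb : (1 : ℝ) ≤ β := by exact_mod_cast hβ
  set T := TT C L k with hT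
  let PP := Finset.range C ×ˢ Finset.range (L k - g)
  let jj : ℕ × ℕ → ℕ := fun z => a + z.1 * L k + g + z.2
  let bb : ℕ × ℕ → ℕ := fun z => a + (z.1 + 1) * L k
  let yy : ℝ → ℕ × ℕ → ℝ := fun s z => x + s * q ^ n (jj z)
  let S : Set ℝ := {s | q * t ≤ |s| ∧ |s| ≤ t}
  have hPP : ∀ z ∈ PP, z.1 < C ∧ z.2 < L k - g := fun z hz => by simpa [PP] using hz
  have hjb : ∀ z ∈ PP, jj z + 1 ≤ bb z ∧ bb z ≤ jj z + L k ∧ bb z + T ≤ J ∧ a0 ≤ jj z := by
    intro z hz
    obtain ⟨h1, h2⟩ := hPP z hz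
    have h3 : (z.1 + 1) * L k ≤ C * L k := Nat.mul_le_mul_right _ h1
    simp only [TT] at haJ
    simp only [jj, bb, add_mul, one_mul] at h3 ⊢
    omega
  have habs : ∀ s z, |yy s z - x| = |s| * q ^ n (jj z) := by
    intro s z
    simp only [yy, add_sub_cancel_left, abs_mul, abs_of_pos (pow_pos hq0 _)]
  have hyy : ∀ s ∈ S, ∀ z ∈ PP, yy s z ∈ Set.Icc (-1 : ℝ) 2 := by
    intro s hs z hz
    have h1 := (hn (jj z) (hjb z hz).2.2.2 s hs.1 hs.2).1
    have h2 : (1 : ℝ) ≤ (β : ℝ) ^ jj z := one_le_pow₀ hb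
    have h3 : |yy s z - x| ≤ 1 := by
      rw [habs]
      have : 0 ≤ |s| * q ^ n (jj z) := by positivity
      nlinarith
    rw [abs_le] at h3
    constructor <;> linarith [hx.1, hx.2, h3.1, h3.2]
  obtain ⟨F, hF1, hF2, hF3⟩ := patterns PP S (fun z s => cell β (bb z + T) (yy s z))
    (fun z _ s s' h => cell_mono β _ (by
      simp only [yy]; gcongr))
    (fun z => cell β (bb z + T) x - β ^ (L k + T)) (2 * β ^ (L k + T)) (by
      intro z hz s hs
      have h1 := (hn (jj z) (hjb z hz).2.2.2 s hs.1 hs.2).1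
      have h2 : (β : ℝ) ^ (bb z + T) ≤ (β : ℝ) ^ (L k + T) * (β : ℝ) ^ jj z := by
        rw [← pow_add]
        exact pow_le_pow_right₀ hb (by have := (hjb z hz).2.1; omega)
      have h3 : |(β : ℝ) ^ (bb z + T) * yy s z - (β : ℝ) ^ (bb z + T) * x| ≤ (β : ℝ) ^ (L k + T) := by
        rw [← mul_sub, abs_mul, habs, abs_of_nonneg (by positivity)]
        have h4 : 0 ≤ |s| * q ^ n (jj z) := by positivity
        have h5 : (0 : ℝ) ≤ (β : ℝ) ^ (L k + T) := by positivity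
        calc _ ≤ (β : ℝ) ^ (L k + T) * (β : ℝ) ^ jj z * (|s| * q ^ n (jj z)) :=
              mul_le_mul_of_nonneg_right h2 h4
          _ = (β : ℝ) ^ (L k + T) * ((β : ℝ) ^ jj z * (|s| * q ^ n (jj z))) := by ring
          _ ≤ (β : ℝ) ^ (L k + T) * 1 := mul_le_mul_of_nonneg_left h1.le h5
          _ = _ := mul_one _
      rw [abs_le] at h3
      constructor
      · have : (β : ℝ) ^ (bb z + T) * x - (((β : ℤ) ^ (L k + T) : ℤ) : ℝ) ≤
            (β : ℝ) ^ (bb z + T) * yy s z := by push_cast; linarith [h3.1]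
        have := Int.floor_le_floor this
        rw [Int.floor_sub_intCast] at this
        exact this
      · have : (β : ℝ) ^ (bb z + T) * yy s z ≤
            (β : ℝ) ^ (bb z + T) * x + (((β : ℤ) ^ (L k + T) : ℤ) : ℝ) := by
          push_cast; linarith [h3.2]
        have := Int.floor_le_floor this
        rw [Int.floor_add_intCast] at this
        unfold cell
        push_cast
        linarith)
  let Ev : ℝ → ℕ × ℕ → (ℕ × ℤ → A) → Prop := fun s z ω =>
    ¬ (hd ((ω ∘ idx β (yy s z)) (bb z)) ∧ rem hd fl C L k (bb z) (ω ∘ idx β (yy s z)))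
  have hp1 : p ≤ 1 := by
    rw [← hp, div_le_one (by exact_mod_cast Fintype.card_pos)]
    exact_mod_cast Finset.card_filter_le _ _
  have hmain : ∀ s ∈ F, Pr (io β J) (fun ω => ∀ z ∈ PP, Ev s z ω) ≤
      (1 - p / 2) ^ (C * (L k - g)) := by
    intro s hs
    have hs' := hF1 s hs
    have := Pr_forall_indep (io β J) PP (fun z => idx β (yy s z) '' Set.Icc (bb z) (bb z + T))
      (Ev s) ?_ (fun z _ => ((hit_dep hd fl C L hL k (bb z)).not).comp _) (1 - p / 2) ?_
    · rw [this]; simp [PP]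
    · have key : ∀ z ∈ PP, ∀ z' ∈ PP, jj z < jj z' →
          Disjoint (idx β (yy s z) '' Set.Icc (bb z) (bb z + T))
            (idx β (yy s z') '' Set.Icc (bb z') (bb z' + T)) := by
        intro z hz z' hz' hlt
        rw [Set.disjoint_left]
        rintro _ ⟨l, hl, rfl⟩ ⟨l', hl', h⟩
        have h1 : l' = l := congrArg Prod.fst h
        subst h1
        refine cell_ne β l' ?_ (congrArg Prod.snd h)
        have e1 := (hn (jj z) (hjb z hz).2.2.2 s hs'.1 hs'.2).2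
        have e2 := (hn (jj z') (hjb z' hz').2.2.2 s hs'.1 hs'.2).1
        have e3 : (β : ℝ) ^ (jj z + 1) ≤ (β : ℝ) ^ jj z' := pow_le_pow_right₀ hb hlt
        have e4 : (β : ℝ) ^ (jj z + 1) ≤ (β : ℝ) ^ l' :=
          pow_le_pow_right₀ hb ((hjb z hz).1.trans hl.1)
        have e5 : |s| * q ^ n (jj z) - |s| * q ^ n (jj z') ≤ |yy s z' - yy s z| := by
          rw [← habs, ← habs, abs_sub_comm (yy s z') (yy s z)]
          have := abs_sub_abs_le_abs_sub (yy s z - x) (yy s z' - x)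
          rwa [sub_sub_sub_cancel_right] at this
        have e6 : 0 ≤ |s| * q ^ n (jj z') := by positivity
        have e7 : (β : ℝ) ^ (jj z + 1) * (|s| * q ^ n (jj z')) ≤ 1 :=
          (mul_le_mul_of_nonneg_right e3 e6).trans e2.le
        have e8 : (0 : ℝ) ≤ (β : ℝ) ^ (jj z + 1) := by positivity
        have e9 := mul_le_mul_of_nonneg_left e5 e8
        have e10 := mul_le_mul_of_nonneg_right e4 (abs_nonneg (yy s z' - yy s z))
        nlinarith
      intro z hz z' hz' hne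
      rcases lt_trichotomy (jj z) (jj z') with h | h | h
      · exact key z hz z' hz' h
      · exfalso
        apply hne
        obtain ⟨h1, h2⟩ := hPP z hz
        obtain ⟨h3, h4⟩ := hPP z' hz'
        simp only [jj] at h
        have h5 : z.1 = z'.1 := by
          rcases lt_trichotomy z.1 z'.1 with h6 | h6 | h6
          · have : (z.1 + 1) * L k ≤ z'.1 * L k := Nat.mul_le_mul_right _ h6
            rw [add_mul] at this; omega
          · exact h6
          · have : (z'.1 + 1) * L k ≤ z.1 * L k := Nat.mul_le_mul_right _ h6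
            rw [add_mul] at this; omega
        refine Prod.ext h5 ?_
        rw [h5] at h; omega
      · exact (key z' hz' z hz h).symm
    · intro z hz
      have hJ := idx_mem β J hβ (hyy s hs' z hz)
      have h1 := (hjb z hz).2.2.1
      simp only [Ev]
      rw [Pr_not, (Pr_hd_and (io β J) _ (idx_inj β _) J hJ hd hhd (bb z) T (by omega) _
        (rem_dep hd fl C L hL k _)).1, Pr_rem (io β J) _ (idx_inj β _) J hJ hd fl hhd C L hL k _ h1,
        hp]
      ring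
  have h2 := Pr_exists_le (io β J) F (fun s ω => ∀ z ∈ PP, Ev s z ω) _ hmain
  refine le_trans (Pr_mono _ ?_) (h2.trans ?_)
  · rintro ω ⟨s, hs, h⟩
    obtain ⟨s', hs', h3⟩ := hF3 s hs
    refine ⟨s', hs', fun z hz => ?_⟩
    refine ((hit_dep hd fl C L hL k (bb z)).not) (ω ∘ idx β (yy s z)) _ ?_
      (h z.1 (hPP z hz).1 z.2 (hPP z hz).2)
    intro l hl
    simp only [Function.comp, idx]
    rw [cell_of_le β hβ hl.2 (h3 z hz)]
  · apply mul_le_mul_of_nonneg_right _ (pow_nonneg (by linarith) _)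
    have : PP.card = C * (L k - g) := by simp [PP]
    rw [this] at hF2
    exact_mod_cast hF2

end Crest.Agent.H6.ES
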