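import Crest.Agent.H6.ESd

/-! One scale, and the final statement. -/

set_option autoImplicit false

namespace Crest.Agent.H6.ES

open Classical Finset MeasureTheory

lemma exists_u (c δ : ℝ) (hδ : 0 < δ) : ∃ u : ℕ, 1 ≤ u ∧ (c * u + 1) * (1 / 2) ^ u ≤ δ := by
  have h1 := tendsto_pow_const_div_const_pow_of_one_lt 1 (r := 2) (by norm_num)
  have h0 := tendsto_pow_const_div_const_pow_of_one_lt 0 (r := 2) (by norm_num)
  have h2 := (h1.const_mul c).add h0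
  simp only [mul_zero, add_zero] at h2
  obtain ⟨u, hu1, hu2⟩ := ((h2.eventually (gt_mem_nhds hδ)).and
    (Filter.eventually_ge_atTop 1)).exists
  refine ⟨u, hu2, le_trans (le_of_eq ?_) hu1.le⟩
  rw [one_div_pow]; ring

lemma exists_L (C : ℕ) (Q : ℕ → ℕ → Prop) (h : ∀ T, ∃ l, Q T l) :
    ∃ L : ℕ → ℕ, ∀ k, Q (TT C L k) (L k) := by
  choose f hf using h
  let T : ℕ → ℕ := fun k => Nat.rec 1 (fun _ T => C * f T + T) k
  have hT : ∀ k, TT C (fun k => f (T k)) k = T k := by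
    intro k
    induction k with
    | zero => rfl
    | succ k ih => simp only [TT, ih]; rfl
  exact ⟨fun k => f (T k), fun k => by rw [hT]; exact hf _⟩

lemma closed_bad (q t : ℝ) (U : Set ℝ) (hU : IsOpen U) :
    IsClosed {x : ℝ | ∃ s : ℝ, (q * t ≤ |s| ∧ |s| ≤ t) ∧ ∀ n : ℕ, x + s * q ^ n ∉ U} := by
  let S : Set ℝ := {s | q * t ≤ |s| ∧ |s| ≤ t}
  have hS : IsCompact S := by
    refine (isCompact_Icc (a := -t) (b := t)).of_isClosed_subset ?_ fun s hs => abs_le.1 hs.2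
    exact (isClosed_le continuous_const continuous_abs).inter
      (isClosed_le continuous_abs continuous_const)
  haveI : CompactSpace S := isCompact_iff_compactSpace.1 hS
  have h1 : IsClosed {z : ℝ × S | ∀ n : ℕ, z.1 + (z.2 : ℝ) * q ^ n ∉ U} := by
    rw [Set.setOf_forall]
    refine isClosed_iInter fun n => ?_
    exact hU.isClosed_compl.preimage (f := fun z : ℝ × S => z.1 + (z.2 : ℝ) * q ^ n) (by fun_prop)
  have h2 := isClosedMap_fst_of_compactSpace _ h1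
  convert h2 using 1
  ext x
  simp only [Set.mem_setOf_eq, Set.mem_image, Prod.exists, exists_and_right, exists_eq_right,
    Subtype.exists]
  constructor
  · rintro ⟨s, hs, h⟩; exact ⟨s, hs, h⟩
  · rintro ⟨s, hs, h⟩; exact ⟨s, hs, h⟩

theorem bad_prob {A : Type} [Fintype A] [Inhabited A] (hd fl : A → Prop)
    (hhd : ((univ : Finset A).filter hd).card / (Fintype.card A : ℝ) = 1 / 2)
    (p : ℝ) (hfl : ((univ : Finset A).filter fl).card / (Fintype.card A : ℝ) = p)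
    (q t : ℝ) (hq0 : 0 < q) (β : ℕ) (hβ0 : 0 < β) (a0 : ℕ) (n : ℕ → ℕ)
    (hn : ∀ j, a0 ≤ j → ∀ s : ℝ, q * t ≤ |s| → |s| ≤ t →
      (β : ℝ) ^ j * (|s| * q ^ n j) < 1 ∧ 2 ≤ (β : ℝ) ^ (j + 1) * (|s| * q ^ n j))
    (C : ℕ) (L : ℕ → ℕ) (hL1 : ∀ k, 1 ≤ L k) (g K : ℕ) (δ δ' : ℝ) (hδ' : 0 ≤ δ')
    (hK : (1 - (1 / 2 : ℝ) ^ C) ^ K ≤ δ)
    (hL : ∀ k, ((C * (L k - g) * (2 * β ^ (L k + TT C L k)) + 1 : ℕ) : ℝ) *
        (1 - p / 2) ^ (C * (L k - g)) ≤ δ')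
    (x : ℝ) (hx : x ∈ Set.Icc (0 : ℝ) 1)
    (hB : ∀ z ∈ Starts C L K a0, ∀ i < C, x ∉ Bd β g (z.2 + i * L z.1)) :
    Pr (io β (a0 + TT C L K)) (fun ω : ℕ × ℤ → A => ∃ s : ℝ, (q * t ≤ |s| ∧ |s| ≤ t) ∧
      ∀ m : ℕ, ¬ (rem hd fl C L K a0 (ω ∘ idx β (x + s * q ^ m)) ∧
        x + s * q ^ m ∈ Set.Icc (-1 : ℝ) 2)) ≤ δ + WW C K * δ' := by
  have hb1 : (1 : ℝ) ≤ β := by exact_mod_cast hβ0
  have hxD : x ∈ Set.Icc (-1 : ℝ) 2 := ⟨by linarith [hx.1], by linarith [hx.2]⟩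
  have h1 := Pr_nospec (io β _) _ (idx_inj β x) _ (idx_mem β _ hβ0 hxD) hd hhd C L hL1 K a0
    le_rfl
  have h2 := Pr_exists_le (io β (a0 + TT C L K)) (Starts C L K a0)
    (fun z (ω : ℕ × ℤ → A) => ∃ s : ℝ, (q * t ≤ |s| ∧ |s| ≤ t) ∧
      ∀ i < C, ∀ u < L z.1 - g,
        ¬ (hd ((ω ∘ idx β (x + s * q ^ n (z.2 + i * L z.1 + g + u))) (z.2 + (i + 1) * L z.1)) ∧
          rem hd fl C L z.1 (z.2 + (i + 1) * L z.1)
            (ω ∘ idx β (x + s * q ^ n (z.2 + i * L z.1 + g + u))))) δ' (fun z hz =>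
    (loc_bound hd fl hhd p hfl q t hq0 β hβ0 a0 n hn C L hL1 g _ z.1 z.2
      (mem_Starts C L K a0 z hz).1 (mem_Starts C L K a0 z hz).2 x hx).trans (hL z.1))
  have h3 : ((Starts C L K a0).card : ℝ) * δ' ≤ WW C K * δ' :=
    mul_le_mul_of_nonneg_right (by exact_mod_cast card_Starts C L K a0) hδ'
  refine le_trans (Pr_mono _ ?_) ((Pr_or_le _ _ _).trans (add_le_add (h1.le.trans hK)
    (h2.trans h3)))
  rintro ω ⟨s, hs, hsU⟩
  by_contra hc
  rw [not_or] at hc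
  obtain ⟨hc1, hc2⟩ := hc
  push Not at hc2
  have hsmall : ∀ j, a0 ≤ j → (β : ℝ) ^ j * |x + s * q ^ n j - x| < 1 := by
    intro j hj
    rw [add_sub_cancel_left, abs_mul, abs_of_pos (pow_pos hq0 _)]
    exact (hn j hj s hs.1 hs.2).1
  obtain ⟨j, -, hj⟩ := exists_rem (Y := {j : ℕ // a0 ≤ j}) hd fl C L (ω ∘ idx β x)
    (fun j => ω ∘ idx β (x + s * q ^ n j.1)) K a0 (by
      intro z hz
      obtain ⟨i, hi, u, hu, e1, e2⟩ := hc2 z hz s hs
      have hz0 := (mem_Starts C L K a0 z hz).1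
      refine ⟨i, hi, ⟨z.2 + i * L z.1 + g + u, by omega⟩, fun l hl => ?_, e1, e2⟩
      simp only [Function.comp, idx]
      rw [cell_of_le β hβ0 hl (cell_eq_of_not_Bd β g _ hβ0 hx (hB z hz i hi) ?_)]
      refine lt_of_le_of_lt ?_ (hsmall (z.2 + i * L z.1 + g + u) (by omega))
      apply mul_le_mul_of_nonneg_right _ (abs_nonneg _)
      exact pow_le_pow_right₀ hb1 (by omega)) hc1
  refine hsU (n j.1) ⟨hj, ?_⟩
  have h3 := hsmall j.1 j.2
  have h4 : (1 : ℝ) ≤ (β : ℝ) ^ j.1 := one_le_pow₀ hb1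
  have h5 : |x + s * q ^ n j.1 - x| ≤ 1 := by
    nlinarith [abs_nonneg (x + s * q ^ n j.1 - x)]
  rw [abs_le] at h5
  constructor <;> linarith [hx.1, hx.2, h5.1, h5.2]

theorem core {A : Type} [Fintype A] [Inhabited A] (hd fl : A → Prop)
    (hhd : ((univ : Finset A).filter hd).card / (Fintype.card A : ℝ) = 1 / 2)
    (p : ℝ) (hp0 : 0 ≤ p) (hfl : ((univ : Finset A).filter fl).card / (Fintype.card A : ℝ) = p)
    (q t : ℝ) (hq0 : 0 < q) (β : ℕ) (hβ0 : 0 < β) (a0 : ℕ) (n : ℕ → ℕ)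
    (hn : ∀ j, a0 ≤ j → ∀ s : ℝ, q * t ≤ |s| → |s| ≤ t →
      (β : ℝ) ^ j * (|s| * q ^ n j) < 1 ∧ 2 ≤ (β : ℝ) ^ (j + 1) * (|s| * q ^ n j))
    (C : ℕ) (L : ℕ → ℕ) (hL1 : ∀ k, 1 ≤ L k) (g K : ℕ) (δ δ' : ℝ) (hδ : 0 < δ) (hδ' : 0 ≤ δ')
    (hK : (1 - (1 / 2 : ℝ) ^ C) ^ K ≤ δ)
    (hL : ∀ k, ((C * (L k - g) * (2 * β ^ (L k + TT C L k)) + 1 : ℕ) : ℝ) *
        (1 - p / 2) ^ (C * (L k - g)) ≤ δ') (hW : WW C K * δ' ≤ δ)
    (hg : (WW C K : ℝ) * C * 8 ≤ δ * (β : ℝ) ^ g) :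
    ∃ V : Set ℝ, MeasurableSet V ∧ volume V ≤ ENNReal.ofReal (3 * p + 8 * δ) ∧
      ∀ x ∈ Set.Icc (0 : ℝ) 1, x ∉ V → ∀ s : ℝ, q * t ≤ |s| → |s| ≤ t →
        ∃ n : ℕ, x + s * q ^ n ∈ V := by
  have hb1 : (1 : ℝ) ≤ β := by exact_mod_cast hβ0
  obtain ⟨R, hR⟩ : ∃ R : (ℕ × ℤ → A) → Set ℝ,
      ∀ ω y, y ∈ R ω ↔ rem hd fl C L K a0 (ω ∘ idx β y) :=
    ⟨fun ω => {y | rem hd fl C L K a0 (ω ∘ idx β y)}, fun _ _ => Iff.rfl⟩
  have hRm : ∀ ω, MeasurableSet (R ω) := fun ω => by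
    have := meas_rem hd fl C L (fun y => ω ∘ idx β y) (fun Q l =>
      (meas_cell β l) (t := {m | Q (ω (l, m))}) (MeasurableSet.of_discrete)) K a0
    convert this using 1
    ext y; exact hR ω y
  have hDf : volume (Set.Icc (-1 : ℝ) 2) ≠ ⊤ := by simp
  have hU : ∀ ω, ∃ U, R ω ∩ Set.Icc (-1 : ℝ) 2 ⊆ U ∧ IsOpen U ∧
      volume U < volume (R ω ∩ Set.Icc (-1 : ℝ) 2) + ENNReal.ofReal δ := fun ω =>
    Set.exists_isOpen_lt_add _ (ne_top_of_le_ne_top hDf (measure_mono Set.inter_subset_right))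
      (by simpa using hδ)
  choose U hU1 hU2 hU3 using hU
  obtain ⟨BdA, hBdm, hBdv, hBd⟩ : ∃ BdA : Set ℝ, MeasurableSet BdA ∧
      volume BdA ≤ ENNReal.ofReal δ ∧
      ∀ x ∉ BdA, ∀ z ∈ Starts C L K a0, ∀ i < C, x ∉ Bd β g (z.2 + i * L z.1) := by
    refine ⟨⋃ z ∈ Starts C L K a0 ×ˢ Finset.range C, Bd β g (z.1.2 + z.2 * L z.1.1),
      Finset.measurableSet_biUnion _ fun _ _ => meas_Bd _ _ _, ?_, ?_⟩
    · refine (measure_biUnion_finset_le _ _).trans ?_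
      refine (Finset.sum_le_card_nsmul _ _ _ fun z _ => vol_Bd β g _ hβ0).trans ?_
      rw [nsmul_eq_mul, ← ENNReal.ofReal_natCast, ← ENNReal.ofReal_mul (by positivity)]
      apply ENNReal.ofReal_le_ofReal
      rw [Finset.card_product, Finset.card_range]
      have h1 : ((Starts C L K a0).card : ℝ) ≤ WW C K := by
        exact_mod_cast card_Starts C L K a0
      push_cast
      rw [← mul_div_assoc, div_le_iff₀ (by positivity)]
      have : ((Starts C L K a0).card : ℝ) * C * 8 ≤ WW C K * C * 8 := by gcongr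
      linarith
    · intro x hx z hz i hi hB
      exact hx (Set.mem_iUnion₂.2 ⟨(z, i), by simp [hz, hi], hB⟩)
  obtain ⟨B, hBm, hB⟩ : ∃ B : (ℕ × ℤ → A) → Set ℝ, (∀ ω, MeasurableSet (B ω)) ∧
      ∀ ω x, x ∈ B ω ↔ ((∃ s : ℝ, (q * t ≤ |s| ∧ |s| ≤ t) ∧ ∀ n : ℕ, x + s * q ^ n ∉ U ω) ∧
        x ∈ Set.Icc (0 : ℝ) 1) ∧ x ∉ BdA :=
    ⟨fun ω => ({x : ℝ | ∃ s : ℝ, (q * t ≤ |s| ∧ |s| ≤ t) ∧ ∀ n : ℕ, x + s * q ^ n ∉ U ω} ∩
      Set.Icc 0 1) \ BdA, fun ω =>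
      ((closed_bad q t _ (hU2 ω)).measurableSet.inter measurableSet_Icc).diff hBdm,
      fun _ _ => Iff.rfl⟩
  obtain ⟨ω, hω⟩ := exists_small (io β (a0 + TT C L K)) (Set.Icc (-1 : ℝ) 2) measurableSet_Icc
    hDf R B hRm hBm p (δ + δ) (by
      intro x hx
      rw [Pr_congr _ (fun ω => hR ω x)]
      exact ((Pr_rem (io β _) _ (idx_inj β x) _ (idx_mem β _ hβ0 hx) hd fl hhd C L hL1 K a0
        le_rfl).trans hfl).le) (by
      intro x hxD
      by_cases hx : x ∈ Set.Icc (0 : ℝ) 1 ∧ x ∉ BdA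
      swap
      · rw [Pr_congr _ (F := fun _ => False) (fun ω => ⟨fun h =>
          hx ⟨((hB ω x).1 h).1.2, ((hB ω x).1 h).2⟩, False.elim⟩), Pr_false]
        positivity
      have := bad_prob hd fl hhd p hfl q t hq0 β hβ0 a0 n hn C L hL1 g K δ δ' hδ' hK hL x hx.1
        (hBd x hx.2)
      refine le_trans (Pr_mono _ ?_) (this.trans (by linarith))
      intro ω h
      obtain ⟨⟨⟨s, hs, hsU⟩, -⟩, -⟩ := (hB ω x).1 h
      exact ⟨s, hs, fun m hm => hsU m (hU1 ω ⟨(hR _ _).2 hm.1, hm.2⟩)⟩)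
  have hD3 : volume.real (Set.Icc (-1 : ℝ) 2) = 3 := by
    simp only [Measure.real, Real.volume_Icc]; norm_num
  rw [hD3] at hω
  refine ⟨U ω ∪ (B ω ∩ Set.Icc (-1 : ℝ) 2) ∪ BdA, ((hU2 ω).measurableSet.union
    ((hBm ω).inter measurableSet_Icc)).union hBdm, ?_, ?_⟩
  · have e1 : volume (R ω ∩ Set.Icc (-1 : ℝ) 2) =
        ENNReal.ofReal (volume.real (R ω ∩ Set.Icc (-1 : ℝ) 2)) :=
      (ofReal_measureReal (ne_top_of_le_ne_top hDf (measure_mono Set.inter_subset_right))).symm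
    have e2 : volume (B ω ∩ Set.Icc (-1 : ℝ) 2) =
        ENNReal.ofReal (volume.real (B ω ∩ Set.Icc (-1 : ℝ) 2)) :=
      (ofReal_measureReal (ne_top_of_le_ne_top hDf (measure_mono Set.inter_subset_right))).symm
    refine (measure_union_le _ _).trans ?_
    refine (add_le_add ((measure_union_le _ _).trans (add_le_add (hU3 ω).le le_rfl)) hBdv).trans ?_
    have n1 : 0 ≤ volume.real (R ω ∩ Set.Icc (-1 : ℝ) 2) := measureReal_nonneg
    have n2 : 0 ≤ volume.real (B ω ∩ Set.Icc (-1 : ℝ) 2) := measureReal_nonneg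
    rw [e1, e2, ← ENNReal.ofReal_add n1 hδ.le, ← ENNReal.ofReal_add (by linarith) n2,
      ← ENNReal.ofReal_add (by linarith) hδ.le]
    apply ENNReal.ofReal_le_ofReal
    linarith
  · intro x hx hxV s hs1 hs2
    by_contra hc
    push Not at hc
    simp only [Set.mem_union, not_or] at hxV hc
    refine hxV.1.2 ⟨(hB ω x).2 ⟨⟨⟨s, ⟨hs1, hs2⟩, fun m => (hc m).1.1⟩, hx⟩, hxV.2⟩, ?_⟩
    constructor <;> linarith [hx.1, hx.2]

lemma exists_l (C β g T : ℕ) (hβ0 : 0 < β) (r δ : ℝ) (hr : 0 ≤ r) (hδ : 0 < δ)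
    (hC : r ^ C ≤ 1 / (2 * β)) : ∃ l, 1 ≤ l ∧
      ((C * (l - g) * (2 * β ^ (l + T)) + 1 : ℕ) : ℝ) * r ^ (C * (l - g)) ≤ δ := by
  have hb1 : (1 : ℝ) ≤ β := by exact_mod_cast hβ0
  obtain ⟨u, hu1, hu2⟩ := exists_u (C * 2 * (β : ℝ) ^ (g + T)) δ hδ
  refine ⟨u + g, by omega, le_trans ?_ hu2⟩
  rw [Nat.add_sub_cancel, pow_mul]
  have h1 : (r ^ C) ^ u ≤ (1 / (2 * β)) ^ u := pow_le_pow_left₀ (pow_nonneg hr _) hC u
  refine (mul_le_mul_of_nonneg_left h1 (by positivity)).trans ?_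
  have h2 : (1 : ℝ) ≤ (β : ℝ) ^ u := one_le_pow₀ hb1
  have h3 : (1 / (2 * (β : ℝ))) ^ u = (1 / 2) ^ u / (β : ℝ) ^ u := by
    rw [← div_pow]; congr 1; field_simp
  rw [h3, ← mul_div_assoc, div_le_iff₀ (by positivity)]
  push_cast
  have h4 : (0 : ℝ) < (1 / 2) ^ u := by positivity
  rw [show u + g + T = (g + T) + u by ring, pow_add _ (g + T) u]
  nlinarith

theorem one_scale (q : ℝ) (hq0 : 0 < q) (hq1 : q < 1) (t : ℝ) (ht : 0 < t) (ε : ℝ) (hε : 0 < ε) :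
    ∃ V : Set ℝ, MeasurableSet V ∧ volume V ≤ ENNReal.ofReal ε ∧
      ∀ x ∈ Set.Icc (0 : ℝ) 1, x ∉ V → ∀ s : ℝ, q * t ≤ |s| → |s| ≤ t →
        ∃ n : ℕ, x + s * q ^ n ∈ V := by
  obtain ⟨β, hβ⟩ := exists_nat_ge (2 / q ^ 2)
  rw [div_le_iff₀ (by positivity)] at hβ
  have hb1 : (1 : ℝ) < β := by nlinarith [mul_pos hq0 hq0, (Nat.cast_nonneg β : (0 : ℝ) ≤ β)]
  have hβ0 : 0 < β := by exact_mod_cast (zero_lt_one.trans hb1)
  obtain ⟨M, hM⟩ := exists_nat_one_div_lt (show 0 < ε / 20 by positivity)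
  obtain ⟨p, hpdef⟩ : ∃ p : ℝ, p = 1 / ((M : ℝ) + 1) := ⟨_, rfl⟩
  rw [← hpdef] at hM
  have hp0 : 0 < p := by rw [hpdef]; positivity
  have hp1 : p ≤ 1 := by
    rw [hpdef, div_le_one (by positivity)]
    have : (0 : ℝ) ≤ M := by positivity
    linarith
  let hd : Bool × Fin (M + 1) → Prop := fun u => u.1 = true
  let fl : Bool × Fin (M + 1) → Prop := fun u => u.2 = 0
  have hA : (Fintype.card (Bool × Fin (M + 1)) : ℝ) = 2 * (M + 1) := by simp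
  have hhd : ((univ : Finset (Bool × Fin (M + 1))).filter hd).card /
      (Fintype.card (Bool × Fin (M + 1)) : ℝ) = 1 / 2 := by
    have : (univ : Finset (Bool × Fin (M + 1))).filter hd = {true} ×ˢ univ := by
      ext u
      simp only [hd, Finset.mem_filter, Finset.mem_univ, true_and, Finset.mem_product,
        Finset.mem_singleton, and_true]
    rw [this, hA, Finset.card_product, Finset.card_singleton, Finset.card_univ, Fintype.card_fin]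
    push_cast
    field_simp
  have hfl : ((univ : Finset (Bool × Fin (M + 1))).filter fl).card /
      (Fintype.card (Bool × Fin (M + 1)) : ℝ) = p := by
    have : (univ : Finset (Bool × Fin (M + 1))).filter fl = univ ×ˢ {0} := by
      ext u
      simp only [fl, Finset.mem_filter, Finset.mem_univ, true_and, Finset.mem_product,
        Finset.mem_singleton, and_true]
    rw [this, hA, hpdef, Finset.card_product, Finset.card_singleton, Finset.card_univ,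
      Fintype.card_bool]
    push_cast
    field_simp
  obtain ⟨C, hC⟩ := exists_pow_lt_of_lt_one (show (0 : ℝ) < 1 / (2 * β) by positivity)
    (show 1 - p / 2 < 1 by linarith)
  obtain ⟨K, hK⟩ := exists_pow_lt_of_lt_one (show 0 < ε / 20 by positivity)
    (show (1 : ℝ) - (1 / 2) ^ C < 1 by
      have : (0 : ℝ) < (1 / 2) ^ C := by positivity
      linarith)
  obtain ⟨g, hg⟩ := pow_unbounded_of_one_lt (((WW C K : ℝ) * C * 8) / (ε / 20)) hb1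
  rw [div_lt_iff₀' (by positivity)] at hg
  obtain ⟨L, hL⟩ := exists_L C _ fun T => exists_l C β g T hβ0 (1 - p / 2)
    (ε / 20 / ((WW C K : ℝ) + 1)) (by linarith) (by positivity) hC.le
  obtain ⟨a0, ha0⟩ := pow_unbounded_of_one_lt (1 / t) hb1
  rw [div_lt_iff₀ ht] at ha0
  obtain ⟨n, hn⟩ := exists_nn q t hq0 hq1 ht β hβ a0 ha0.le
  obtain ⟨V, h1, h2, h3⟩ := core hd fl (by convert hhd) p hp0.le (by convert hfl) q t hq0 β hβ0
    a0 n hn C L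
    (fun k => (hL k).1) g K (ε / 20) (ε / 20 / ((WW C K : ℝ) + 1)) (by positivity) (by positivity)
    hK.le (fun k => (hL k).2) (by
      rw [← mul_div_assoc, div_le_iff₀ (by positivity)]
      nlinarith) hg.le
  exact ⟨V, h1, h2.trans (ENNReal.ofReal_le_ofReal (by linarith)), h3⟩

theorem main (q η : ℝ) (hq : q ∈ Set.Ioo 0 1) (hη : η ∈ Set.Ioo 0 1) :
    ∃ E : Set ℝ, IsCompact E ∧ E ⊆ Set.Icc 0 1 ∧
      ENNReal.ofReal (1 - η) < MeasureTheory.volume E ∧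
      ∀ x s : ℝ, s ≠ 0 → ∃ n : ℕ, 1 ≤ n ∧ x + s * q ^ n ∉ E := by
  obtain ⟨hq0, hq1⟩ := hq
  obtain ⟨hη0, hη1⟩ := hη
  have h := fun i : ℕ => one_scale q hq0 hq1 (q ^ i) (by positivity) (η / 2 / 2 / 2 ^ i)
    (by positivity)
  choose V hV1 hV2 hV3 using h
  have hVm : MeasurableSet (⋃ i, V i) := MeasurableSet.iUnion hV1
  have hVv : volume (⋃ i, V i) ≤ ENNReal.ofReal (η / 2) := by
    refine (measure_iUnion_le _).trans ((ENNReal.tsum_le_tsum hV2).trans ?_)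
    rw [← ENNReal.ofReal_tsum_of_nonneg (fun i => by positivity) (summable_geometric_two' _),
      tsum_geometric_two']
  have hlt : ENNReal.ofReal (1 - η) < volume (Set.Icc (0 : ℝ) 1 \ ⋃ i, V i) := by
    refine lt_of_lt_of_le ?_ le_measure_diff
    refine lt_of_lt_of_le ?_ (tsub_le_tsub_left hVv _)
    rw [Real.volume_Icc, ← ENNReal.ofReal_sub _ (by positivity)]
    rw [ENNReal.ofReal_lt_ofReal_iff (by linarith)]
    linarith
  obtain ⟨E, hE1, hE2, hE3⟩ := (measurableSet_Icc.diff hVm).exists_lt_isCompact hlt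
  refine ⟨E, hE2, fun x hx => (hE1 hx).1, hE3, fun x s hs => ?_⟩
  by_contra hc
  push Not at hc
  have hx : x ∈ E := by
    have h1 : Filter.Tendsto (fun n : ℕ => x + s * q ^ n) Filter.atTop (nhds x) := by
      have := ((tendsto_pow_atTop_nhds_zero_of_lt_one hq0.le hq1).const_mul s).const_add x
      simpa using this
    exact hE2.isClosed.mem_of_tendsto h1 ((Filter.eventually_ge_atTop 1).mono hc)
  have hs0 : 0 < |s| := abs_pos.2 hs
  obtain ⟨m, hm⟩ := exists_pow_lt_of_lt_one (one_div_pos.2 hs0) hq1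
  rw [lt_div_iff₀ hs0] at hm
  have hs1 : 0 < |s * q ^ (m + 1)| := by rw [abs_mul]; positivity
  have hs2 : |s * q ^ (m + 1)| ≤ 1 := by
    rw [abs_mul, abs_of_pos (pow_pos hq0 _), pow_succ]
    nlinarith [pow_pos hq0 m, mul_pos hs0 (pow_pos hq0 m)]
  obtain ⟨i, hi1, hi2⟩ := exists_nat_pow_near_of_lt_one hs1 hs2 hq0 hq1
  obtain ⟨k, hk⟩ := hV3 i x (hE1 hx).1 (fun h => (hE1 hx).2 (Set.mem_iUnion.2 ⟨i, h⟩))
    (s * q ^ (m + 1)) (by rw [← pow_succ']; exact hi1.le) hi2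
  have := hE1 (hc (m + 1 + k) (by omega))
  refine this.2 (Set.mem_iUnion.2 ⟨i, ?_⟩)
  rwa [pow_add, ← mul_assoc]

end Crest.Agent.H6.ES
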