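import Crest.Agent.H6.IMCore
import Crest.Agent.H3.IMArith

set_option autoImplicit false
set_option linter.unusedSectionVars false
set_option linter.unusedVariables false
set_option linter.unusedSimpArgs false

/-! Row 326: `ExecStmt`, structural rules. -/

namespace Crest.Agent.H6.IM
open Crest.Agent.H3.Ptime Crest.Agent.H9.IM

theorem gam_pos : 0 < gam := by unfold gam; positivity
theorem gam_le : gam ≤ 1 := by
  unfold gam; rw [div_le_one (by positivity)]; exact one_le_pow₀ (by norm_num)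

theorem le_rpow_gam {y : ℝ} (hy : 1 ≤ y) : y ≤ y ^ (1 + gam) := by
  have := Real.rpow_le_rpow_of_exponent_le hy (show (1 : ℝ) ≤ 1 + gam by linarith [gam_pos])
  rwa [Real.rpow_one] at this

theorem mul_rpow_gam {c y : ℝ} (hc : 1 ≤ c) (hy : 0 ≤ y) :
    (c * y) ^ (1 + gam) ≤ c ^ 2 * y ^ (1 + gam) := by
  rw [Real.mul_rpow (by linarith) hy]
  refine mul_le_mul_of_nonneg_right ?_ (by positivity)
  have := Real.rpow_le_rpow_of_exponent_le hc (show 1 + gam ≤ ((2 : ℕ) : ℝ) by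
    push_cast; linarith [gam_le])
  rwa [Real.rpow_natCast] at this

theorem lin_le_pow (c Λ k : ℕ) (h : 2 ≤ Λ) : c * (Λ ^ k + Λ + 1) ≤ Λ ^ (k + c + 3) := by
  have h1 : c ≤ Λ ^ c := (Nat.lt_pow_self (by omega)).le
  have h2 : 1 ≤ Λ ^ k := Nat.one_le_pow _ _ (by omega)
  have h3 : Λ ^ k + Λ + 1 ≤ Λ ^ k * Λ ^ 3 := by
    have : Λ ^ 3 = Λ * (Λ * Λ) := by ring
    have h4 : 4 ≤ Λ * Λ := by nlinarith
    have h5 : Λ + 2 ≤ Λ ^ 3 := by nlinarith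
    nlinarith
  calc c * (Λ ^ k + Λ + 1) ≤ Λ ^ c * (Λ ^ k * Λ ^ 3) := Nat.mul_le_mul h1 h3
    _ = _ := by ring

variable {α β : Type} [Enc α] [Enc β]

/-- polynomial time with size bounds in terms of a bound `Λ ≥ 2` on the input size -/
theorem ofPT' {f : α → β} (h : PT f) : ∃ k, 1 ≤ k ∧ CC f (fun a T => ∃ Λ, sz a ≤ Λ ∧ Λ ^ k ≤ T) ∧
    ∀ a Λ, sz a ≤ Λ → 2 ≤ Λ → sz (f a) ≤ Λ ^ k := by
  obtain ⟨k, hk⟩ := CC.ofPT h
  obtain ⟨c, hc⟩ := hk.szb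
  refine ⟨k + c + 3, by omega, hk.mono' 2 (fun a T ⟨Λ, h1, h2⟩ => ⟨sz a ^ k, le_rfl, ?_⟩),
    fun a Λ h1 h2 => ?_⟩
  · have h3 := sz_pos a
    have : sz a ^ k ≤ Λ ^ (k + c + 3) :=
      (Nat.pow_le_pow_left h1 k).trans (Nat.pow_le_pow_right (by omega) (by omega))
    omega
  · refine (hc a _ le_rfl).trans (le_trans (Nat.mul_le_mul_left _ ?_) (lin_le_pow c Λ k h2))
    have := Nat.pow_le_pow_left h1 k
    omega

theorem ofPB' {g : α → ℕ} (h : PB g) : ∃ k, ∀ a Λ, sz a ≤ Λ → 2 ≤ Λ → g a ≤ Λ ^ k := by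
  obtain ⟨P, hP⟩ := h
  refine ⟨P.natDegree + P.eval 1 + 3, fun a Λ h1 h2 => (hP a).trans ((eval_mono P h1).trans
    (le_trans ?_ (lin_le_pow _ Λ _ h2)))⟩
  calc P.eval Λ = ∑ i ∈ Finset.range (P.natDegree + 1), P.coeff i * Λ ^ i :=
        Polynomial.eval_eq_sum_range _
    _ ≤ ∑ i ∈ Finset.range (P.natDegree + 1), P.coeff i * Λ ^ P.natDegree :=
        Finset.sum_le_sum (fun i hi => Nat.mul_le_mul_left _
          (Nat.pow_le_pow_right (by omega) (by simpa [Nat.lt_succ_iff] using hi)))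
    _ = P.eval 1 * Λ ^ P.natDegree := by
        rw [← Finset.sum_mul, Polynomial.eval_eq_sum_range]; simp
    _ ≤ _ := Nat.mul_le_mul_left _ (by omega)

theorem MM_le (u : ℕ) : MM u ≤ 2 ^ (2 * u + 1) := by
  unfold MM; have := Nat.one_le_two_pow (n := 2 * u); rw [pow_succ]; omega

theorem Res.bd {u V : ℕ} {A : Arr} (h : Res u V A) : Bd (2 * V) (2 * u + 1) A :=
  fun c hc => ⟨(h c hc).1, fun x hx => ((h c hc).2 x hx).trans_le (MM_le u)⟩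

theorem sz_lt_pow {x w : ℕ} (h : x < 2 ^ w) : sz x ≤ 4 * w + 4 :=
  (sz_nat_le x).trans (by have := Nat.size_le.2 h; omega)

theorem Bd.sz_cell {V w : ℕ} {A : Arr} (h : Bd V w A) : ∀ c ∈ A, sz c ≤ V * (4 * w + 5) + 1 :=
  fun c hc => by
    have := sz_le_mul c (4 * w + 4) (fun x hx => sz_lt_pow ((h c hc).2 x hx))
    rwa [(h c hc).1] at this

theorem Bd.sz_le {V w : ℕ} {A : Arr} (h : Bd V w A) :
    sz A ≤ A.length * (V * (4 * w + 5) + 2) + 1 := sz_le_mul A _ (Bd.sz_cell h)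

variable {Q Q' : Type} [Enc Q] [Enc Q']

/-- the cost predicate of `XC` -/
def XS (P : Q → ℕ → Prop) (Γ : Q → ℕ) (X : Q → ℝ) (Y : Q → ℕ) (k : ℕ)
    (x : (Q × List Unit × List Unit) × Arr) (T : ℕ) : Prop :=
  ∃ V Λ : ℕ, P x.1.1 x.2.length ∧ Res x.1.2.2.length V x.2 ∧
    x.1.2.1.length + Γ x.1.1 + 1 ≤ x.1.2.2.length ∧
    sz x.1 ≤ Λ ∧ x.2.length ≤ 2 ^ Λ ∧ 2 ≤ Λ ∧ 0 ≤ X x.1.1 ∧
    (x.2.length + 1 : ℝ) * (V * (x.1.2.2.length + 1 : ℝ) ^ (1 + gam) * (X x.1.1 + 1) +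
      (Λ : ℝ) ^ k) + ((Y x.1.1 + 1 : ℝ) * Λ) ^ k ≤ T

/-- the correctness predicate of `XC` -/
def XOk (E : (ℕ → ℂ) → ℕ → ℂ) (Γ p u V : ℕ) (A B : Arr) : Prop :=
  B.length = A.length ∧ Res u V B ∧
    ∀ (R κ : ℝ) (a : ℕ → ℕ → ℂ), 1 ≤ R → 0 ≤ κ → κ + Γ ≤ 2 ^ p →
      R * 2 ^ (Γ + p + 3) ≤ 2 ^ (2 * u) → (∀ e < V, ∀ i < A.length, ‖a e i‖ ≤ R) →
      Close p u V A a (κ * R / 2 ^ p) →
      Close p u V B (fun e => E (a e)) ((κ + Γ) * (R * 2 ^ Γ) / 2 ^ p) ∧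
        ∀ e < V, ∀ i < A.length, ‖E (a e) i‖ ≤ R * 2 ^ Γ

theorem XC_iff (E : Q → (ℕ → ℂ) → ℕ → ℂ) (P : Q → ℕ → Prop) (Γ : Q → ℕ) (X : Q → ℝ) (Y : Q → ℕ) :
    XC E P Γ X Y ↔ ∃ (f : Q × List Unit × List Unit → Arr → Arr) (k : ℕ),
      CC (fun x : (Q × List Unit × List Unit) × Arr => f x.1 x.2) (XS P Γ X Y k) ∧
      ∀ q p u A V, P q A.length → Res u.length V A → p.length + Γ q + 1 ≤ u.length →
        XOk (E q) (Γ q) p.length u.length V A (f (q, p, u) A) := Iff.rfl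

theorem XOk.mono {E E' : (ℕ → ℂ) → ℕ → ℂ} {Γ Γ' p u V : ℕ} {A B : Arr} (h : XOk E Γ p u V A B)
    (hE : ∀ a, ∀ i < A.length, E a i = E' a i) (hΓ : Γ ≤ Γ') : XOk E' Γ' p u V A B := by
  obtain ⟨h1, h2, h3⟩ := h
  refine ⟨h1, h2, fun R κ a g1 g2 g3 g4 g5 g6 => ?_⟩
  have hΓ' : (Γ : ℝ) ≤ Γ' := by exact_mod_cast hΓ
  have e1 : (2 : ℝ) ^ Γ ≤ 2 ^ Γ' := pow_le_pow_right₀ (by norm_num) hΓ
  obtain ⟨k1, k2⟩ := h3 R κ a g1 g2 (by linarith)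
    (le_trans (by gcongr; norm_num) g4) g5 g6
  refine ⟨fun i hi e he => ?_, fun e he i hi => ?_⟩
  · beta_reduce
    rw [← hE _ _ (h1 ▸ hi)]
    exact (k1 i hi e he).trans (by gcongr)
  · rw [← hE _ _ hi]
    exact (k2 e he i hi).trans (by gcongr)

theorem XOk.comp {E E' : (ℕ → ℂ) → ℕ → ℂ} {Γ Γ' p u V : ℕ} {A B C : Arr} (h : XOk E Γ p u V A B)
    (h' : XOk E' Γ' p u V B C) : XOk (fun a => E' (E a)) (Γ + Γ') p u V A C := by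
  obtain ⟨h1, h2, h3⟩ := h
  obtain ⟨h4, h5, h6⟩ := h'
  refine ⟨h4.trans h1, h5, fun R κ a g1 g2 g3 g4 g5 g6 => ?_⟩
  push_cast at g3
  have e0 : (0 : ℝ) ≤ Γ := by positivity
  have e1 : (0 : ℝ) ≤ Γ' := by positivity
  obtain ⟨k1, k2⟩ := h3 R κ a g1 g2 (by linarith)
    (le_trans (by gcongr <;> [norm_num; omega]) g4) g5 g6
  obtain ⟨k3, k4⟩ := h6 (R * 2 ^ Γ) (κ + Γ) (fun e => E (a e))
    (one_le_mul_of_one_le_of_one_le g1 (one_le_pow₀ (by norm_num))) (by linarith) (by linarith)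
    (le_of_eq_of_le (by ring) g4) (fun e he i hi => k2 e he i (h1 ▸ hi)) k1
  refine ⟨fun i hi e he => (k3 i hi e he).trans (le_of_eq ?_), fun e he i hi =>
    (k4 e he i (h1 ▸ hi)).trans (le_of_eq ?_)⟩
  · push_cast; ring
  · ring

theorem XOk.refl {p u V : ℕ} {A : Arr} (h : Res u V A) : XOk (fun a => a) 0 p u V A A :=
  ⟨rfl, h, fun R κ a g1 g2 g3 g4 g5 g6 => ⟨by simpa using g6, by simpa using g5⟩⟩

theorem XS.mono_k {P : Q → ℕ → Prop} {Γ : Q → ℕ} {X : Q → ℝ} {Y : Q → ℕ} {k k' : ℕ} (hk : k ≤ k')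
    {x : (Q × List Unit × List Unit) × Arr} {T : ℕ} (h : XS P Γ X Y k' x T) : XS P Γ X Y k x T := by
  obtain ⟨V, Λ, h1, h2, h3, h4, h5, h6, h7, h8⟩ := h
  refine ⟨V, Λ, h1, h2, h3, h4, h5, h6, h7, le_trans ?_ h8⟩
  have : (1 : ℝ) ≤ Λ := by exact_mod_cast (by omega : 1 ≤ Λ)
  have : (1 : ℝ) ≤ (Y x.1.1 + 1 : ℝ) * Λ :=
    one_le_mul_of_one_le_of_one_le (by linarith [(Y x.1.1).cast_nonneg (α := ℝ)]) this
  gcongr

theorem XS.pow_le {P : Q → ℕ → Prop} {Γ : Q → ℕ} {X : Q → ℝ} {Y : Q → ℕ} {k : ℕ}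
    {x : (Q × List Unit × List Unit) × Arr} {T : ℕ} (h : XS P Γ X Y k x T) :
    ∃ Λ, sz x.1 ≤ Λ ∧ 2 ≤ Λ ∧ Λ ^ k ≤ T := by
  obtain ⟨V, Λ, h1, h2, h3, h4, h5, h6, h7, h8⟩ := h
  refine ⟨Λ, h4, h6, ?_⟩
  have : ((Λ ^ k : ℕ) : ℝ) ≤ T := by
    refine le_trans ?_ h8
    have a1 : (0 : ℝ) ≤ V * (x.1.2.2.length + 1 : ℝ) ^ (1 + gam) * (X x.1.1 + 1) := by positivity
    have a2 : (0 : ℝ) ≤ ((Y x.1.1 + 1 : ℝ) * Λ) ^ k := by positivity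
    have a3 : (0 : ℝ) ≤ x.2.length := by positivity
    have a4 : (0 : ℝ) ≤ (Λ : ℝ) ^ k := by positivity
    push_cast; nlinarith
  exact_mod_cast this

theorem xc_mono {E : Q → (ℕ → ℂ) → ℕ → ℂ} {P : Q → ℕ → Prop}
    {Γ Y : Q → ℕ} {X : Q → ℝ} (H : XC E P Γ X Y) (h : Q' → Q) (E' : Q' → (ℕ → ℂ) → ℕ → ℂ)
    (P' : Q' → ℕ → Prop) (Γ' Y' : Q' → ℕ) (X' : Q' → ℝ) (c : ℝ) (hh : PT h)
    (hP : ∀ q N, P' q N → P (h q) N ∧ (∀ a, ∀ i < N, E (h q) a i = E' q a i) ∧ Γ (h q) ≤ Γ' q ∧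
      Y (h q) ≤ Y' q ∧ 0 ≤ X (h q) ∧ X (h q) ≤ c * (X' q + 1)) : XC E' P' Γ' X' Y' := by
  rw [XC_iff] at H ⊢
  obtain ⟨f, k, hf, hc⟩ := H
  obtain ⟨k1, hk1, g1, g2⟩ := ofPT' (f := fun y : Q' × List Unit × List Unit => (h y.1, y.2))
    (by fun_prop)
  refine ⟨fun y A => f (h y.1, y.2) A, k1 * (k + 1), ?_, fun q p u A V a1 a2 a3 => ?_⟩
  · have c1 : CC (fun x : (Q' × List Unit × List Unit) × Arr => (h x.1.1, x.1.2))
        (XS P' Γ' X' Y' (k1 * (k + 1))) :=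
      g1.comp2 (f := fun x : (Q' × List Unit × List Unit) × Arr => x.1) (by fun_prop)
        (fun x T hx => by
          obtain ⟨Λ, b1, b2, b3⟩ := (hx.mono_k (k := k1) (by nlinarith)).pow_le
          exact ⟨Λ, b1, b3⟩)
    refine hf.comp3 (c1.pair (CC.snd CC.id')) (⌈c⌉₊ + 1) (fun x T hx => ⟨(⌈c⌉₊ + 1) * T, ?_,
      Nat.mul_le_mul_left _ (by omega)⟩)
    obtain ⟨V, Λ, h1, h2, h3, h4, h5, h6, h7, h8⟩ := hx
    obtain ⟨b1, b2, b3, b4, b5, b6⟩ := hP _ _ h1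
    have hΛ : Λ ≤ Λ ^ k1 := Nat.le_self_pow (by omega) _
    refine ⟨V, Λ ^ k1, b1, h2, by simp only; omega, g2 _ _ h4 h6,
      h5.trans (Nat.pow_le_pow_right (by norm_num) hΛ), by omega, b5, ?_⟩
    simp only
    have e1 : (1 : ℝ) ≤ Λ := by exact_mod_cast (by omega : 1 ≤ Λ)
    have e2 : X (h x.1.1) + 1 ≤ (⌈c⌉₊ + 1) * (X' x.1.1 + 1) := by
      have := Nat.le_ceil c
      nlinarith
    have e3 : ((Λ ^ k1 : ℕ) : ℝ) ^ k ≤ (Λ : ℝ) ^ (k1 * (k + 1)) := by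
      push_cast; rw [← pow_mul]; exact pow_le_pow_right₀ e1 (by nlinarith)
    have e4 : ((Y (h x.1.1) + 1 : ℝ) * ((Λ ^ k1 : ℕ) : ℝ)) ^ k ≤
        ((Y' x.1.1 + 1 : ℝ) * Λ) ^ (k1 * (k + 1)) := by
      have e5 : (Y (h x.1.1) : ℝ) ≤ Y' x.1.1 := by exact_mod_cast b4
      have e6 : (1 : ℝ) ≤ Y' x.1.1 + 1 := by linarith [(Y' x.1.1).cast_nonneg (α := ℝ)]
      rw [mul_pow, mul_pow]
      refine mul_le_mul ?_ e3 (by positivity) (by positivity)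
      exact (pow_le_pow_left₀ (by positivity) (by linarith) k).trans
        (pow_le_pow_right₀ e6 (by nlinarith))
    have e7 : (1 : ℝ) ≤ (⌈c⌉₊ + 1 : ℝ) := by linarith [(⌈c⌉₊).cast_nonneg (α := ℝ)]
    push_cast
    refine le_trans ?_ (mul_le_mul_of_nonneg_left h8 (by linarith))
    rw [mul_add (⌈c⌉₊ + 1 : ℝ)]
    push_cast at e3 e4
    refine add_le_add ?_ (e4.trans (le_mul_of_one_le_left (by positivity) e7))
    rw [mul_left_comm]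
    refine mul_le_mul_of_nonneg_left ?_ (by positivity)
    rw [mul_add (⌈c⌉₊ + 1 : ℝ), mul_left_comm]
    exact add_le_add (by gcongr) (e3.trans (le_mul_of_one_le_left (by positivity) e7))
  · obtain ⟨b1, b2, b3, b4, b5, b6⟩ := hP _ _ a1
    exact (hc (h q) p u A V b1 a2 (by omega)).mono b2 b3

theorem xc_comp {E E' : Q → (ℕ → ℂ) → ℕ → ℂ} {P : Q → ℕ → Prop}
    {Γ Γ' Y : Q → ℕ} {X : Q → ℝ} (H' : XC E' P Γ' X Y) (H : XC E P Γ X Y) :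
    XC (fun q a => E' q (E q a)) P (fun q => Γ q + Γ' q) X Y := by
  rw [XC_iff] at H H' ⊢
  obtain ⟨f, k, hf, hc⟩ := H
  obtain ⟨f', k', hf', hc'⟩ := H'
  refine ⟨fun y A => f' y (f y A), max k k', ?_, fun q p u A V a1 a2 a3 => ?_⟩
  · have c1 : CC (fun x : (Q × List Unit × List Unit) × Arr => f x.1 x.2)
        (XS P (fun q => Γ q + Γ' q) X Y (max k k')) := hf.mono (fun x T hx => by
      obtain ⟨V, Λ, h1, h2, h3, h4⟩ := hx.mono_k (le_max_left k k')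
      exact ⟨V, Λ, h1, h2, by simp only at h3; omega, h4⟩)
    refine hf'.comp2 ((CC.fst CC.id').pair c1) (fun x T hx => ?_)
    obtain ⟨V, Λ, h1, h2, h3, h4⟩ := hx.mono_k (le_max_right k k')
    simp only at h3
    obtain ⟨b1, b2, -⟩ := hc x.1.1 x.1.2.1 x.1.2.2 x.2 V h1 h2 (by omega)
    refine ⟨V, Λ, ?_, b2, by simp only; omega, ?_⟩
    · simpa [b1] using h1
    · simpa [b1] using h4
  · have b := hc q p u A V a1 a2 (by omega)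
    exact b.comp (hc' q p u _ V (by rw [b.1]; exact a1) b.2.1 (by omega))

end Crest.Agent.H6.IM
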