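import Crest.Agent.H6.IMEx1
import Crest.Agent.H3.IMArr2

set_option autoImplicit false
set_option linter.unusedSectionVars false
set_option linter.unusedVariables false
set_option linter.unusedSimpArgs false

/-! Row 326: `ExecStmt`, loops and the Hadamard layer. -/

namespace Crest.Agent.H6.IM
open Crest.Agent.H3.Ptime Crest.Agent.H9.IM

variable {Q Q' : Type} [Enc Q] [Enc Q']

theorem loop_arith {N v U W μ x L1 L2 L L3 Λ T t : ℝ} (hN : 0 ≤ N) (hv : 0 ≤ v) (hU : 0 ≤ U)
    (hμ : 0 ≤ μ) (hx : 0 ≤ x) (hW : U + 1 ≤ W) (h1 : μ * L1 ≤ L) (h2 : μ * Λ ≤ L) (h3 : μ ≤ L)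
    (h4 : μ * L2 ≤ L3) (h5 : 0 ≤ L3) (ht : t ≤ (N + 1) * (v * W * (x + 1) + L1) + L2 + 1)
    (hT : (N + 1) * (v * W * (μ * (x + 1) + 1) + L) + L3 ≤ T) :
    μ * (t + (Λ + (N * (2 * v * (4 * (2 * U + 1) + 5) + 2) + 1) + 1)) ≤ 30 * T := by
  have hW0 : 0 ≤ W := by linarith
  have hL : 0 ≤ L := le_trans hμ h3
  have a0 : 0 ≤ (N + 1) * (v * W) := by positivity
  have a1 : 0 ≤ (N + 1) * (v * W * (μ * (x + 1))) := by positivity
  have a2 : L ≤ (N + 1) * L := by nlinarith
  have a3 : (N + 1) * (μ * L1) ≤ (N + 1) * L := by gcongr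
  have a4 : μ * t ≤ (N + 1) * (v * W * (μ * (x + 1))) + (N + 1) * (μ * L1) + μ * L2 + μ :=
    (mul_le_mul_of_nonneg_left ht hμ).trans (le_of_eq (by ring))
  have a5 : μ * (N * (2 * v * (4 * (2 * U + 1) + 5))) ≤
      18 * ((N + 1) * (v * W * (μ * (x + 1)))) := by
    have : N * (v * (8 * U + 9) * μ) ≤ (N + 1) * (v * (9 * W) * (μ * (x + 1))) := by
      gcongr
      · linarith
      · linarith
      · nlinarith
    linarith
  have a6 : μ * (N + 1) ≤ (N + 1) * L := by rw [mul_comm]; gcongr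
  have a7 : (N + 1) * (v * W * (μ * (x + 1) + 1) + L) =
    (N + 1) * (v * W * (μ * (x + 1))) + (N + 1) * (v * W) + (N + 1) * L := by ring
  nlinarith

theorem xc_loop {E : Q × ℕ → (ℕ → ℂ) → ℕ → ℂ} {P : Q → ℕ → Prop} {Γ Y : Q → ℕ}
    {X : Q → ℝ} (m : Q → ℕ) (hm : PT m) (hm' : PB m)
    (H : XC E (fun x N => P x.1 N ∧ x.2 < m x.1) (fun x => Γ x.1) (fun x => X x.1)
      (fun x => Y x.1)) :
    XC (fun q a => (List.range (m q)).foldl (fun a j => E (q, j) a) a) (fun q N => P q N ∧ 0 ≤ X q)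
      (fun q => m q * Γ q) (fun q => m q * (X q + 1)) Y := by
  rw [XC_iff] at H ⊢
  obtain ⟨f, k, hf, hc⟩ := H
  obtain ⟨k1, hk1⟩ := ofPB' hm'
  obtain ⟨k0, hk0, g1, -⟩ := ofPT' (f := fun y : Q × List Unit × List Unit => List.range (m y.1))
    (PT.range (by fun_prop) (hm'.comp (by fun_prop)))
  refine ⟨fun y A => (List.range (m y.1)).foldl (fun A j => f ((y.1, j), y.2) A) A,
    k0 + k1 + (k1 + 8) * k + 1, ?_, fun q p u A V a1 a2 a3 => ?_⟩
  · have c0 : CC (fun x : (Q × List Unit × List Unit) × Arr => List.range (m x.1.1))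
        (XS (fun q N => P q N ∧ 0 ≤ X q) (fun q => m q * Γ q) (fun q => m q * (X q + 1)) Y
          (k0 + k1 + (k1 + 8) * k + 1)) :=
      g1.comp2 (f := fun x : (Q × List Unit × List Unit) × Arr => x.1) (by fun_prop)
        (fun x T hx => by
          obtain ⟨Λ, b1, b2, b3⟩ := (hx.mono_k (k := k0) (by omega)).pow_le
          exact ⟨Λ, b1, b3⟩)
    have c1 := hf.comp2 (f := fun z : ((Q × List Unit × List Unit) × Arr) × ℕ =>
      (((z.1.1.1, z.2), z.1.1.2), z.1.2)) (S := fun z T => XS (fun x N => P x.1 N ∧ x.2 < m x.1)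
        (fun x => Γ x.1) (fun x => X x.1) (fun x => Y x.1) k (((z.1.1.1, z.2), z.1.1.2), z.1.2) T)
      (by fun_prop) (fun _ _ h => h)
    have c2 := CC.foldl (f := fun (s : (Q × List Unit × List Unit) × Arr) (j : ℕ) =>
      (s.1, f ((s.1.1, j), s.1.2) s.2)) ((CC.fst (CC.fst CC.id')).pair c1)
    refine (c2.comp3 (CC.id'.pair c0) 30 (fun x T hx => ?_)).snd.of_eq (fun x => ?_)
    · obtain ⟨V, Λ, ⟨h1, h1'⟩, h2, h3, h4, h5, h6, h7, h8⟩ := hx
      obtain ⟨⟨q, p, u⟩, A⟩ := x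
      simp only at h1 h1' h2 h3 h4 h5 h7 h8 ⊢
      have hq : sz q ≤ Λ := by rw [sz_pair] at h4; omega
      have hmΛ := hk1 q Λ hq h6
      have hΛ' : 5 * (Λ ^ k1 + Λ + 1) ≤ Λ ^ (k1 + 8) := lin_le_pow 5 Λ k1 h6
      have hΛ1 : Λ ≤ Λ ^ (k1 + 8) := Nat.le_self_pow (by omega) _
      set t : ℝ := (A.length + 1 : ℝ) * (V * (u.length + 1 : ℝ) ^ (1 + gam) * (X q + 1) +
        ((Λ ^ (k1 + 8) : ℕ) : ℝ) ^ k) + ((Y q + 1 : ℝ) * ((Λ ^ (k1 + 8) : ℕ) : ℝ)) ^ k with ht
      refine ⟨_, ⟨fun s l => s.1 = (q, p, u) ∧ s.2.length = A.length ∧ Res u.length V s.2 ∧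
        ∀ j ∈ l, j < m q,
        fun _ => ⌈t⌉₊ + (Λ + (A.length * (2 * V * (4 * (2 * u.length + 1) + 5) + 2) + 1) + 1),
        ⟨rfl, rfl, h2, fun j hj => List.mem_range.1 hj⟩, ?_, le_rfl⟩, ?_⟩
      · rintro ⟨y, B⟩ j l ⟨rfl, b2, b3, b4⟩
        simp only at b2 b3 ⊢
        have hj := b4 j List.mem_cons_self
        have hΓ : Γ q ≤ m q * Γ q := Nat.le_mul_of_pos_left _ (by omega)
        obtain ⟨d1, d2, -⟩ := hc (q, j) p u B V ⟨b2 ▸ h1, hj⟩ b3 (by simp only; omega)
        refine ⟨⟨trivial, d1.trans b2, d2, fun i hi => b4 i (List.mem_cons_of_mem _ hi)⟩, ⌈t⌉₊,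
          ⟨V, Λ ^ (k1 + 8), ⟨b2 ▸ h1, hj⟩, b3, by simp only; omega, ?_, ?_, by omega, h1', ?_⟩, ?_⟩
        · have := sz_nat_le j
          have : j.size ≤ j := Nat.size_le.2 Nat.lt_two_pow_self
          have h4' := h4
          simp only [sz_pair] at h4' ⊢
          omega
        · simp only [b2]
          exact h5.trans (Nat.pow_le_pow_right (by norm_num) hΛ1)
        · simp only [b2]
          exact Nat.le_ceil t
        · have := Bd.sz_le (Res.bd b3)
          rw [b2] at this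
          rw [sz_pair]
          omega
      · simp only [List.map_const', List.length_range, List.sum_replicate, smul_eq_mul]
        refine le_trans ?_ (show 30 * T ≤ _ by omega)
        have e1 : (1 : ℝ) ≤ Λ := by exact_mod_cast (by omega : 1 ≤ Λ)
        have e2 : (m q : ℝ) ≤ (Λ : ℝ) ^ k1 := by exact_mod_cast hmΛ
        have e3 : (u.length + 1 : ℝ) ≤ (u.length + 1 : ℝ) ^ (1 + gam) :=
          le_rpow_gam (by linarith [(u.length).cast_nonneg (α := ℝ)])
        have ht0 : 0 ≤ t := by positivity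
        have e4 : (⌈t⌉₊ : ℝ) ≤ t + 1 := (Nat.ceil_lt_add_one ht0).le
        have e5 : (1 : ℝ) ≤ Y q + 1 := by linarith [(Y q).cast_nonneg (α := ℝ)]
        set k' := k0 + k1 + (k1 + 8) * k + 1 with hk'
        have f1 : (m q : ℝ) * ((Λ ^ (k1 + 8) : ℕ) : ℝ) ^ k ≤ (Λ : ℝ) ^ k' := by
          push_cast
          rw [← pow_mul]
          refine (mul_le_mul_of_nonneg_right e2 (by positivity)).trans ?_
          rw [← pow_add]; exact pow_le_pow_right₀ e1 (by omega)
        have f2 : (m q : ℝ) * Λ ≤ (Λ : ℝ) ^ k' := by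
          refine (mul_le_mul_of_nonneg_right e2 (by positivity)).trans ?_
          rw [← pow_succ]; exact pow_le_pow_right₀ e1 (by omega)
        have f3 : (m q : ℝ) ≤ (Λ : ℝ) ^ k' := e2.trans (pow_le_pow_right₀ e1 (by omega))
        have f4 : (m q : ℝ) * ((Y q + 1 : ℝ) * ((Λ ^ (k1 + 8) : ℕ) : ℝ)) ^ k ≤
            ((Y q + 1 : ℝ) * Λ) ^ k' := by
          rw [mul_pow, mul_pow, mul_left_comm]
          exact mul_le_mul (pow_le_pow_right₀ e5 (by nlinarith)) f1 (by positivity) (by positivity)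
        have goal : ((m q * (⌈t⌉₊ + (Λ + (A.length * (2 * V * (4 * (2 * u.length + 1) + 5) + 2)
            + 1) + 1)) : ℕ) : ℝ) ≤ ((30 * T : ℕ) : ℝ) := by
          push_cast
          push_cast at f1 f4 ht
          exact loop_arith (by positivity) (by positivity) (by positivity) (by positivity) h1' e3
            f1 f2 f3 f4 (by positivity) (e4.trans (by rw [ht])) h8
        exact_mod_cast goal
    · exact congrArg Prod.snd (foldl_ctx (Q := Q × List Unit × List Unit)
        (fun z A => f ((z.1.1, z.2), z.1.2) A) x.1 _ x.2)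
  · have key : ∀ j ≤ m q, XOk (fun a => (List.range j).foldl (fun a j => E (q, j) a) a) (j * Γ q)
        p.length u.length V A ((List.range j).foldl (fun A j => f ((q, j), p, u) A) A) := by
      intro j
      induction j with
      | zero => intro _; simpa using XOk.refl a2
      | succ j ih =>
        intro hj
        have b := ih (by omega)
        have hΓ : Γ q ≤ m q * Γ q := Nat.le_mul_of_pos_left _ (by omega)
        have b' := hc (q, j) p u _ V ⟨by rw [b.1]; exact a1.1, by simp only; omega⟩ b.2.1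
          (by simp only at a3 ⊢; omega)
        have := b.comp b'
        simp only [List.range_succ, List.foldl_append, List.foldl_cons, List.foldl_nil, add_mul,
          one_mul]
        exact this
    exact key _ le_rfl

/-! ### the Hadamard layer -/

theorem had_map {S S' : Type} [CommRing S] [CommRing S'] (φ : S →+ S') (m : ℕ) (a : ℕ → S) :
    (fun i => φ (had m a i)) = had m (fun i => φ (a i)) := by
  funext i; unfold had; split_ifs <;> simp

theorem hadAll_succ {S : Type} [CommRing S] (lo D K : ℕ) (a : ℕ → S) :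
    hadAll lo D (K + 1) a = hadAll lo D K (had (lo * D ^ K) a) := by
  simp [hadAll, List.range_succ]

theorem hadAll_map {S S' : Type} [CommRing S] [CommRing S'] (φ : S →+ S') (lo D K : ℕ) (a : ℕ → S) :
    (fun i => φ (hadAll lo D K a i)) = hadAll lo D K (fun i => φ (a i)) := by
  induction K generalizing a with
  | zero => rfl
  | succ K ih => rw [hadAll_succ, hadAll_succ, ih, had_map]

theorem had_add {S : Type} [CommRing S] (m : ℕ) (a b : ℕ → S) :
    had m (fun i => a i + b i) = fun i => had m a i + had m b i := by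
  funext i; unfold had; split_ifs <;> ring

theorem hadAll_add {S : Type} [CommRing S] (lo D K : ℕ) (a b : ℕ → S) :
    hadAll lo D K (fun i => a i + b i) = fun i => hadAll lo D K a i + hadAll lo D K b i := by
  induction K generalizing a b with
  | zero => rfl
  | succ K ih => rw [hadAll_succ, hadAll_succ, hadAll_succ, had_add, ih]

theorem add_lt_of_even {m N i : ℕ} (hm : 0 < m) (h : 2 * m ∣ N) (hi : i < N) (he : i / m % 2 = 0) :
    i + m < N := by
  obtain ⟨t, rfl⟩ := h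
  have h1 : i / m < 2 * t := by
    rw [Nat.div_lt_iff_lt_mul hm]; linarith
  have h2 : (i + m) / m < 2 * t := by rw [Nat.add_div_right _ hm]; omega
  rw [Nat.div_lt_iff_lt_mul hm] at h2; linarith

theorem had_norm {m N : ℕ} (hm : 0 < m) (h : 2 * m ∣ N) (a : ℕ → ℂ) (R : ℝ)
    (ha : ∀ i < N, ‖a i‖ ≤ R) : ∀ i < N, ‖had m a i‖ ≤ R * 2 := by
  intro i hi
  unfold had
  split_ifs with he
  · have := ha _ (add_lt_of_even hm h hi he)
    linarith [norm_add_le (a i) (a (i + m)), ha i hi]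
  · linarith [norm_sub_le (a (i - m)) (a i), ha i hi, ha (i - m) (by omega)]

theorem hadAll_norm {lo D N : ℕ} (K : ℕ) (h : ∀ j < K, 0 < lo * D ^ j ∧ 2 * (lo * D ^ j) ∣ N)
    (a : ℕ → ℂ) (R : ℝ) (ha : ∀ i < N, ‖a i‖ ≤ R) : ∀ i < N, ‖hadAll lo D K a i‖ ≤ R * 2 ^ K := by
  induction K generalizing a R with
  | zero => simpa [hadAll] using ha
  | succ K ih =>
    intro i hi
    rw [hadAll_succ]
    have := ih (fun j hj => h j (by omega)) _ _
      (had_norm (h K (by omega)).1 (h K (by omega)).2 a R ha) i hi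
    exact this.trans (le_of_eq (by ring))

theorem HP.dvd {lo D K N : ℕ} (h : HP lo D K N) :
    ∀ j < K, 0 < lo * D ^ j ∧ 2 * (lo * D ^ j) ∣ N := by
  obtain ⟨b, B, rfl, h1, rfl, h2, h3, h4, h5⟩ := h
  intro j hj
  refine ⟨by positivity, dvd_trans ?_ h3⟩
  rw [mul_comm 2]
  exact Nat.mul_dvd_mul_right (Nat.mul_dvd_mul_left _ (pow_dvd_pow _ (by omega))) _

theorem sgn_cast (u x : ℕ) : ((sgn u x : ℤ) : ZMod (MM u)) = (x : ZMod (MM u)) := by
  unfold sgn; split_ifs <;> simp

theorem sgn_abs {u x : ℕ} (hx : x < MM u) : 2 * |sgn u x| ≤ MM u := by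
  unfold sgn; split_ifs with h
  · rw [abs_of_nonneg (by positivity)]; omega
  · rw [abs_of_nonpos (by omega)]; omega

theorem sgn_eq {u x : ℕ} {z : ℤ} (hx : x < MM u) (hz : 2 * |z| < MM u)
    (h : (x : ZMod (MM u)) = (z : ZMod (MM u))) : sgn u x = z := by
  have h1 : ((sgn u x : ℤ) : ZMod (MM u)) = (z : ZMod (MM u)) := by rw [sgn_cast, h]
  rw [ZMod.intCast_eq_intCast_iff_dvd_sub] at h1
  have h2 := sgn_abs hx
  have h3 : |z - sgn u x| < MM u := by
    have := abs_sub z (sgn u x); omega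
  have := Int.eq_zero_of_abs_lt_dvd h1 h3
  omega

theorem toC_re_im (p : ℕ) (z : ℤ × ℤ) :
    |(z.1 : ℝ)| ≤ ‖toC p z‖ * 2 ^ p ∧ |(z.2 : ℝ)| ≤ ‖toC p z‖ * 2 ^ p := by
  have e : ‖toC p z‖ * 2 ^ p = ‖(z.1 : ℂ) + z.2 * Complex.I‖ := by
    unfold toC; rw [norm_div]; simp
  rw [e]
  constructor
  · simpa using Complex.abs_re_le_norm ((z.1 : ℂ) + z.2 * Complex.I)
  · simpa using Complex.abs_im_le_norm ((z.1 : ℂ) + z.2 * Complex.I)

theorem small_of_norm {p u : ℕ} {z : ℤ × ℤ} (h : ‖toC p z‖ * 2 ^ p * 2 ≤ 2 ^ (2 * u)) :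
    2 * |z.1| < MM u ∧ 2 * |z.2| < MM u := by
  obtain ⟨h1, h2⟩ := toC_re_im p z
  have e : ∀ w : ℤ, |(w : ℝ)| ≤ ‖toC p z‖ * 2 ^ p → 2 * |w| < MM u := by
    intro w hw
    have : ((2 * |w| : ℤ) : ℝ) ≤ ((2 ^ (2 * u) : ℤ) : ℝ) := by push_cast; linarith
    have : 2 * |w| ≤ 2 ^ (2 * u) := by exact_mod_cast this
    unfold MM; push_cast; omega
  exact ⟨e _ h1, e _ h2⟩

theorem getD_mem_or {α : Type} (l : List α) (i : ℕ) (d : α) (h : i < l.length) :
    l.getD i d ∈ l := by
  rw [List.getD_eq_getElem _ _ h]; exact List.getElem_mem _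

theorem norm_cval_le {p u V : ℕ} {A : Arr} {a : ℕ → ℕ → ℂ} {R κ : ℝ} (hR : 1 ≤ R)
    (hκ : κ ≤ 2 ^ p) (ha : ∀ e < V, ∀ i < A.length, ‖a e i‖ ≤ R)
    (hc : Close p u V A a (κ * R / 2 ^ p)) {e i : ℕ} (he : e < V) (hi : i < A.length) :
    ‖cval p u (A.getD i []) e‖ ≤ 2 * R := by
  have h1 := hc i hi e he
  have h2 := ha e he i hi
  have h3 : κ * R / 2 ^ p ≤ R := by
    rw [div_le_iff₀ (by positivity)]; nlinarith
  have := norm_le_norm_add_norm_sub' (cval p u (A.getD i []) e) (a e i)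
  linarith

theorem xc_had (hH : HadStmt) :
    XC (fun (q : ℕ × ℕ × List Unit) a => hadAll q.1 q.2.1 q.2.2.length a)
    (fun q N => HP q.1 q.2.1 q.2.2.length N) (fun q => q.2.2.length + 2)
    (fun q => (q.2.2.length + 1 : ℝ) ^ th * (Nat.log 2 q.2.1 + 1)) (fun _ => 0) := by
  obtain ⟨f, ⟨k, hf, -⟩, hc⟩ := hH
  rw [XC_iff]
  refine ⟨fun y A => f (y.2.2, y.1) A, k, ?_, fun q p u A V a1 a2 a3 => ?_⟩
  · refine hf.comp3 (f := fun x : ((ℕ × ℕ × List Unit) × List Unit × List Unit) × Arr =>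
      ((x.1.2.2, x.1.1), x.2)) (by fun_prop) 8 (fun x T hx => ⟨8 * T, ?_, by omega⟩)
    obtain ⟨V, Λ, h1, h2, h3, h4, h5, h6, h7, h8⟩ := hx
    obtain ⟨⟨q, p, u⟩, A⟩ := x
    simp only at h1 h2 h3 h4 h5 h7 h8 ⊢
    have hu := sz_units u
    simp only [sz_pair] at h4
    refine ⟨2 * V, 2 * u.length + 1, Λ, ⟨rfl, by omega, fun c hc => (h2 c hc).2, h1⟩, Res.bd h2,
      by rw [sz_pair]; omega, by omega, h5, h6, h7, ?_⟩
    have e1 := mul_rpow_gam (c := 2) (y := u.length + 1) (by norm_num) (by positivity)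
    have e2 : (((2 * u.length + 1 : ℕ) : ℝ) + 1) = 2 * (u.length + 1) := by push_cast; ring
    rw [e2]
    push_cast at h8 ⊢
    refine le_trans ?_ (mul_le_mul_of_nonneg_left (le_trans (le_add_of_nonneg_right
      (by positivity)) h8) (by norm_num))
    rw [mul_left_comm]
    refine mul_le_mul_of_nonneg_left ?_ (by positivity)
    have e3 : (0 : ℝ) ≤ (Λ : ℝ) ^ k := by positivity
    have e4 : 2 * (V : ℝ) * (2 * (u.length + 1 : ℝ)) ^ (1 + gam) ≤
        8 * (V * (u.length + 1 : ℝ) ^ (1 + gam)) := by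
      have : (0 : ℝ) ≤ V := by positivity
      nlinarith
    have e5 := mul_le_mul_of_nonneg_right e4 (show (0 : ℝ) ≤
      (q.2.2.length + 1 : ℝ) ^ th * (Nat.log 2 q.2.1 + 1) + 1 by linarith)
    nlinarith
  · obtain ⟨b1, b2, b3⟩ := hc (u, q) A (2 * V) (by simp only; omega) a2 a1
    simp only at b1 b2 b3
    refine ⟨b1, b2, fun R κ a g1 g2 g3 g4 g5 g6 => ?_⟩
    have hd := HP.dvd a1
    set K := q.2.2.length with hK
    have hK2 : (2 : ℝ) ^ K ≤ 2 ^ (K + 2) := pow_le_pow_right₀ (by norm_num) (by omega)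
    refine ⟨fun i hi e he => ?_, fun e he i hi =>
      (hadAll_norm K hd _ R (g5 e he) i hi).trans (by gcongr)⟩
    rw [b1] at hi
    have hκ : κ ≤ 2 ^ p.length := le_trans (le_add_of_nonneg_right (by positivity)) g3
    let X : ℕ → ℕ → ℤ := fun e' j => sgn u.length ((A.getD j []).getD e' 0)
    have hz : toC p.length (hadAll q.1 q.2.1 K (X (2 * e)) i, hadAll q.1 q.2.1 K (X (2 * e + 1)) i)
        = hadAll q.1 q.2.1 K (fun j => cval p.length u.length (A.getD j []) e) i := by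
      have m1 := congrFun (hadAll_map ((AddMonoidHom.mulRight ((2 : ℂ) ^ p.length)⁻¹).comp
        (Int.castAddHom ℂ)) q.1 q.2.1 K (X (2 * e))) i
      have m2 := congrFun (hadAll_map ((AddMonoidHom.mulRight
        (Complex.I * ((2 : ℂ) ^ p.length)⁻¹)).comp (Int.castAddHom ℂ)) q.1 q.2.1 K (X (2 * e + 1))) i
      simp only [AddMonoidHom.comp_apply, Int.coe_castAddHom, AddMonoidHom.coe_mulRight] at m1 m2
      have m3 : (fun j => cval p.length u.length (A.getD j []) e) = fun j =>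
          (X (2 * e) j : ℂ) * ((2 : ℂ) ^ p.length)⁻¹ +
          (X (2 * e + 1) j : ℂ) * (Complex.I * ((2 : ℂ) ^ p.length)⁻¹) := by
        funext j; simp only [cval, toC, X]; ring
      rw [m3, hadAll_add]
      beta_reduce
      rw [← m1, ← m2]; simp only [toC]; ring
    have hn := hadAll_norm K hd (fun j => cval p.length u.length (A.getD j []) e) (2 * R)
      (fun j hj => norm_cval_le g1 hκ g5 g6 he hj) i hi
    rw [← hz] at hn
    obtain ⟨s1, s2⟩ := small_of_norm (u := u.length) (le_trans (by gcongr) (le_trans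
      (show 2 * R * 2 ^ K * 2 ^ p.length * 2 ≤ R * 2 ^ (K + 2 + p.length + 3) by
        have : (0 : ℝ) ≤ R * 2 ^ K * 2 ^ p.length := by positivity
        rw [pow_add, pow_add, pow_add]; nlinarith) g4))
    have hmem := b2 _ (getD_mem_or _ i [] (b1 ▸ hi))
    have hs : ∀ e' < 2 * V, 2 * |hadAll q.1 q.2.1 K (X e') i| < MM u.length →
        sgn u.length (((f (u, q) A).getD i []).getD e' 0) = hadAll q.1 q.2.1 K (X e') i := by
      intro e' he' h
      refine sgn_eq (hmem.2 _ (getD_mem_or _ _ _ (by rw [hmem.1]; exact he'))) h ?_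
      rw [b3 i hi e']
      have := congrFun (hadAll_map (Int.castAddHom (ZMod (MM u.length))) q.1 q.2.1 K (X e')) i
      simp only [Int.coe_castAddHom, X, sgn_cast] at this
      exact this.symm
    have e1 : cval p.length u.length ((f (u, q) A).getD i []) e =
        hadAll q.1 q.2.1 K (fun j => cval p.length u.length (A.getD j []) e) i := by
      rw [← hz, cval, hs _ (by omega) s1, hs _ (by omega) s2]
    beta_reduce
    rw [e1]
    have e2 : hadAll q.1 q.2.1 K (fun j => cval p.length u.length (A.getD j []) e) i -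
        hadAll q.1 q.2.1 K (a e) i =
        hadAll q.1 q.2.1 K (fun j => cval p.length u.length (A.getD j []) e - a e j) i := by
      have := congrFun (hadAll_add q.1 q.2.1 K
        (fun j => cval p.length u.length (A.getD j []) e - a e j) (a e)) i
      simp only [sub_add_cancel] at this
      rw [this]; ring
    rw [e2]
    refine (hadAll_norm K hd _ _ (fun j hj => g6 j hj e he) i hi).trans ?_
    rw [div_mul_eq_mul_div]
    refine div_le_div_of_nonneg_right ?_ (by positivity)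
    rw [mul_assoc]
    exact mul_le_mul (le_add_of_nonneg_right (by positivity)) (by gcongr) (by positivity)
      (by positivity)

end Crest.Agent.H6.IM
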