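import Crest.Agent.H6.IMEx2

set_option autoImplicit false
set_option linter.unusedSectionVars false
set_option linter.unusedVariables false
set_option linter.unusedSimpArgs false

/-! Row 326: `ExecStmt`, one cell of a two-term linear pass. -/

namespace Crest.Agent.H6.IM
open Crest.Agent.H3.Ptime Crest.Agent.H9.IM

def encM (M : ℕ) (z : ℤ) : ℕ := if z < 0 then (z + M).toNat else min z.toNat (M - 1)
def sgnM (M x : ℕ) : ℤ := if x + x < M then x else (x : ℤ) - M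

theorem sgnM_eq (u x : ℕ) : sgnM (MM u) x = sgn u x := by unfold sgnM sgn; rw [two_mul]

theorem encM_lt {M : ℕ} (hM : 0 < M) (z : ℤ) : encM M z < M := by
  unfold encM; split_ifs <;> omega

theorem sgn_encM {u : ℕ} {z : ℤ} (h : 2 * |z| < MM u) : sgn u (encM (MM u) z) = z := by
  unfold encM sgn
  rcases abs_cases z with h1 | h1 <;> split_ifs <;> omega

abbrev Cf := (ℤ × ℤ) × (ℤ × ℤ)

def reP (c : Cf) (x y x' y' : ℤ) : ℤ := c.1.1 * x - c.1.2 * y + (c.2.1 * x' - c.2.2 * y')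
def imP (c : Cf) (x y x' y' : ℤ) : ℤ := c.1.1 * y + c.1.2 * x + (c.2.1 * y' + c.2.2 * x')

def ent (z : ℕ × List Unit × Cf) (l : List (ℕ × ℕ)) : List ℕ :=
  [encM z.1 (reP z.2.2 (sgnM z.1 (l.headD (0, 0)).1) (sgnM z.1 (l.tail.headD (0, 0)).1)
      (sgnM z.1 (l.headD (0, 0)).2) (sgnM z.1 (l.tail.headD (0, 0)).2) / 2 ^ z.2.1.length),
   encM z.1 (imP z.2.2 (sgnM z.1 (l.headD (0, 0)).1) (sgnM z.1 (l.tail.headD (0, 0)).1)
      (sgnM z.1 (l.headD (0, 0)).2) (sgnM z.1 (l.tail.headD (0, 0)).2) / 2 ^ z.2.1.length)]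

def cellF (y : ℕ × List Unit) (z : Cf × List ℕ × List ℕ) : List ℕ :=
  (chunks 2 (z.2.1.zip z.2.2)).flatMap (ent (y.1, y.2, z.1))

variable {α β γ : Type} [Enc α] [Enc β] [Enc γ]

/-- quasi-linear side condition -/
def SQ (a : α) (T : ℕ) : Prop := (sz a : ℝ) ^ (1 + gam) ≤ T

theorem SQ.comp {f : β → γ} (hf : CC f SQ) {g : α → β} (hg : Lin g) : CC (fun a => f (g a)) SQ := by
  obtain ⟨c, hc⟩ := hg.szb
  refine hf.comp3 (hg.cc _) ((2 * c + 1) ^ 2) (fun a T h => ⟨(2 * c + 1) ^ 2 * T, ?_,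
    Nat.mul_le_mul_left _ (by omega)⟩)
  have h1 := hc a 0 trivial
  have h2 := sz_pos a
  have h3 : (sz (g a) : ℝ) ≤ (2 * c + 1) * sz a := by
    have : sz (g a) ≤ (2 * c + 1) * sz a := by nlinarith
    exact_mod_cast this
  unfold SQ at h ⊢
  refine (Real.rpow_le_rpow (by positivity) h3 (by linarith [gam_pos])).trans
    ((mul_rpow_gam (by linarith [c.cast_nonneg (α := ℝ)]) (by positivity)).trans ?_)
  push_cast
  gcongr

theorem cc_ent (hN : NumStmt) :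
    CC (fun p : (ℕ × List Unit × Cf) × List (ℕ × ℕ) => ent p.1 p.2) SQ := by
  have mul : ∀ {f g : (ℕ × List Unit × Cf) × List (ℕ × ℕ) → ℤ}, Lin f → Lin g →
      CC (fun a => f a * g a) SQ := fun hf hg => SQ.comp (hN.imul gam gam_pos) (hf.pair hg)
  have sg : Lin (fun x : ℕ × ℕ => sgnM x.1 x.2) := by unfold sgnM; fun_prop
  have en : Lin (fun x : ℕ × ℤ => encM x.1 x.2) := by unfold encM; fun_prop
  have x1 : Lin (fun p : (ℕ × List Unit × Cf) × List (ℕ × ℕ) =>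
      sgnM p.1.1 (p.2.headD (0, 0)).1) :=
    CC.comp (f := fun p : (ℕ × List Unit × Cf) × List (ℕ × ℕ) => (p.1.1, (p.2.headD (0, 0)).1))
      sg (by fun_prop)
  have x2 : Lin (fun p : (ℕ × List Unit × Cf) × List (ℕ × ℕ) =>
      sgnM p.1.1 (p.2.headD (0, 0)).2) :=
    CC.comp (f := fun p : (ℕ × List Unit × Cf) × List (ℕ × ℕ) => (p.1.1, (p.2.headD (0, 0)).2))
      sg (by fun_prop)
  have y1 : Lin (fun p : (ℕ × List Unit × Cf) × List (ℕ × ℕ) =>
      sgnM p.1.1 (p.2.tail.headD (0, 0)).1) :=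
    CC.comp (f := fun p : (ℕ × List Unit × Cf) × List (ℕ × ℕ) =>
      (p.1.1, (p.2.tail.headD (0, 0)).1)) sg (by fun_prop)
  have y2 : Lin (fun p : (ℕ × List Unit × Cf) × List (ℕ × ℕ) =>
      sgnM p.1.1 (p.2.tail.headD (0, 0)).2) :=
    CC.comp (f := fun p : (ℕ × List Unit × Cf) × List (ℕ × ℕ) =>
      (p.1.1, (p.2.tail.headD (0, 0)).2)) sg (by fun_prop)
  have a1 : Lin (fun p : (ℕ × List Unit × Cf) × List (ℕ × ℕ) => p.1.2.2.1.1) := by fun_prop
  have a2 : Lin (fun p : (ℕ × List Unit × Cf) × List (ℕ × ℕ) => p.1.2.2.1.2) := by fun_prop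
  have b1 : Lin (fun p : (ℕ × List Unit × Cf) × List (ℕ × ℕ) => p.1.2.2.2.1) := by fun_prop
  have b2 : Lin (fun p : (ℕ × List Unit × Cf) × List (ℕ × ℕ) => p.1.2.2.2.2) := by fun_prop
  have hp : CC (fun p : (ℕ × List Unit × Cf) × List (ℕ × ℕ) => p.1.2.1) SQ := by fun_prop
  have hM : CC (fun p : (ℕ × List Unit × Cf) × List (ℕ × ℕ) => p.1.1) SQ := by fun_prop
  have re := ((mul a1 x1).isub (mul a2 y1)).iadd ((mul b1 x2).isub (mul b2 y2))
  have im := ((mul a1 y1).iadd (mul a2 x1)).iadd ((mul b1 y2).iadd (mul b2 x2))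
  exact (CC.comp en (hM.pair (CC.comp hN.ishr (re.pair hp)))).cons
    ((CC.comp en (hM.pair (CC.comp hN.ishr (im.pair hp)))).cons (CC.const _))

theorem cc_cellF (hN : NumStmt) :
    CC (fun z : (ℕ × List Unit) × Cf × List ℕ × List ℕ => cellF z.1 z.2) (fun z T =>
      ∃ V w τ : ℕ, z.2.2.1.length ≤ 2 * V ∧ sz (z.1.1, z.1.2, z.2.1) ≤ w ∧
        (∀ x ∈ z.2.2.1, sz x ≤ w) ∧ (∀ x ∈ z.2.2.2, sz x ≤ w) ∧
        ((6 * w + 10 : ℕ) : ℝ) ^ (1 + gam) ≤ τ ∧ V * (τ + w) ≤ T) := by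
  have h1 : Lin (fun z : (ℕ × List Unit) × Cf × List ℕ × List ℕ =>
      chunks 2 (z.2.2.1.zip z.2.2.2)) :=
    CC.comp (f := fun z : (ℕ × List Unit) × Cf × List ℕ × List ℕ =>
      ([(), ()], z.2.2.1.zip z.2.2.2)) Lin.chunks (by fun_prop)
  refine (CC.flatMapC (cc_ent hN)).comp2 (f := fun z : (ℕ × List Unit) × Cf × List ℕ × List ℕ =>
    ((z.1.1, z.1.2, z.2.1), chunks 2 (z.2.2.1.zip z.2.2.2)))
    (CC.pair (by fun_prop) (h1.cc _)) ?_
  rintro ⟨⟨M, p⟩, c, a, b⟩ T ⟨V, w, τ, h2, h3, h4, h5, h6, h7⟩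
  simp only at h2 h3 h4 h5 ⊢
  refine ⟨fun _ => τ, fun l hl => le_trans (Real.rpow_le_rpow (by positivity) ?_
    (by linarith [gam_pos])) h6, ?_⟩
  · obtain ⟨j, -, rfl⟩ := List.mem_map.1 hl
    have := sz_le_mul (((a.zip b).drop (j * 2)).take 2) (2 * w + 1) (fun x hx => by
      have hx' := List.of_mem_zip (List.mem_of_mem_drop (List.mem_of_mem_take hx))
      have := h4 _ hx'.1
      have := h5 _ hx'.2
      obtain ⟨x1, x2⟩ := x
      rw [sz_pair]; simp only at *; omega)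
    have h8 : (((a.zip b).drop (j * 2)).take 2).length ≤ 2 := by simp
    have h9 := Nat.mul_le_mul_right (2 * w + 1 + 1) h8
    rw [sz_pair]
    exact_mod_cast (by omega)
  · have : (chunks 2 (a.zip b)).length ≤ V := by simp [chunks]; omega
    simp only [List.map_const', List.sum_replicate, smul_eq_mul]
    have h8 := Nat.mul_le_mul_right τ this
    have h9 := Nat.mul_le_mul this h3
    rw [mul_add] at h7
    omega

theorem flat2 (F G : ℕ → ℕ) (V : ℕ) :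
    ((List.range V).flatMap (fun e => [F e, G e])).length = 2 * V ∧ ∀ e < V,
      ((List.range V).flatMap (fun e => [F e, G e])).getD (2 * e) 0 = F e ∧
      ((List.range V).flatMap (fun e => [F e, G e])).getD (2 * e + 1) 0 = G e := by
  induction V with
  | zero => simp
  | succ V ih =>
    obtain ⟨h1, h2⟩ := ih
    rw [List.range_succ, List.flatMap_append]
    refine ⟨by rw [List.length_append, h1]; simp; ring, fun e he => ?_⟩
    rcases Nat.lt_succ_iff_lt_or_eq.1 he with h | rfl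
    · rw [List.getD_append _ _ _ _ (by omega), List.getD_append _ _ _ _ (by omega)]
      exact h2 e h
    · rw [List.getD_append_right _ _ _ _ (by omega), List.getD_append_right _ _ _ _ (by omega), h1]
      simp

theorem cellF_eq (M : ℕ) (p : List Unit) (c : Cf) (a b : List ℕ) (V : ℕ) (ha : a.length = 2 * V)
    (hb : b.length = 2 * V) : cellF (M, p) (c, a, b) = (List.range V).flatMap (fun e =>
      [encM M (reP c (sgnM M (a.getD (2 * e) 0)) (sgnM M (a.getD (2 * e + 1) 0))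
        (sgnM M (b.getD (2 * e) 0)) (sgnM M (b.getD (2 * e + 1) 0)) / 2 ^ p.length),
       encM M (imP c (sgnM M (a.getD (2 * e) 0)) (sgnM M (a.getD (2 * e + 1) 0))
        (sgnM M (b.getD (2 * e) 0)) (sgnM M (b.getD (2 * e + 1) 0)) / 2 ^ p.length)]) := by
  unfold cellF chunks
  have e0 : (a.zip b).length / 2 = V := by simp [ha, hb]
  simp only [e0, List.flatMap_map]
  refine List.flatMap_congr (fun e he => ?_)
  have he' := List.mem_range.1 he
  have h1 : e * 2 < (a.zip b).length := by simp [ha, hb]; omega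
  have h2 : e * 2 + 1 < (a.zip b).length := by simp [ha, hb]; omega
  rw [List.drop_eq_getElem_cons h1, List.drop_eq_getElem_cons h2]
  simp only [ent, List.take_succ_cons, List.headD_cons, List.tail_cons, List.getElem_zip]
  rw [List.getD_eq_getElem _ _ (by omega : 2 * e < a.length),
    List.getD_eq_getElem _ _ (by omega : 2 * e + 1 < a.length),
    List.getD_eq_getElem _ _ (by omega : 2 * e < b.length),
    List.getD_eq_getElem _ _ (by omega : 2 * e + 1 < b.length)]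
  simp only [mul_comm e 2]

theorem toC_floor (p : ℕ) (x y : ℤ) :
    ‖toC p (x / 2 ^ p, y / 2 ^ p) - ((x : ℂ) + y * Complex.I) / 2 ^ p / 2 ^ p‖ ≤ 2 / 2 ^ p := by
  have h : ∀ x : ℤ, ∃ r : ℝ, |r| ≤ 1 ∧ ((x / 2 ^ p : ℤ) : ℂ) = (x : ℂ) / 2 ^ p - r := by
    intro x
    have h1 := Int.emod_nonneg x (show (2 : ℤ) ^ p ≠ 0 by positivity)
    have h2 := Int.emod_lt_of_pos x (show (0 : ℤ) < 2 ^ p by positivity)
    have h3 := Int.mul_ediv_add_emod x (2 ^ p)
    refine ⟨((x % 2 ^ p : ℤ) : ℝ) / 2 ^ p, ?_, ?_⟩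
    · rw [abs_of_nonneg (by positivity), div_le_one (by positivity)]
      exact_mod_cast h2.le
    · have h4 : (x : ℂ) = 2 ^ p * ((x / 2 ^ p : ℤ) : ℂ) + ((x % 2 ^ p : ℤ) : ℂ) := by
        exact_mod_cast h3.symm
      have h5 : (2 : ℂ) ^ p ≠ 0 := pow_ne_zero _ two_ne_zero
      generalize ((x / 2 ^ p : ℤ) : ℂ) = A at *
      rw [Complex.ofReal_div, Complex.ofReal_intCast]
      generalize ((x % 2 ^ p : ℤ) : ℂ) = B at *
      rw [h4]
      push_cast
      field_simp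
      ring
  obtain ⟨r, h1, h2⟩ := h x
  obtain ⟨s, h3, h4⟩ := h y
  have e : toC p (x / 2 ^ p, y / 2 ^ p) - ((x : ℂ) + y * Complex.I) / 2 ^ p / 2 ^ p =
      -((r : ℂ) + s * Complex.I) / 2 ^ p := by
    simp only [toC, h2, h4]; ring
  rw [e, norm_div, norm_neg]
  have : ‖(r : ℂ) + s * Complex.I‖ ≤ 2 := by
    refine (norm_add_le _ _).trans ?_
    simp only [Complex.norm_real, norm_mul, Complex.norm_I, mul_one, Real.norm_eq_abs]
    linarith
  simp only [norm_pow, Complex.norm_ofNat]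
  gcongr

theorem toC_prod (p : ℕ) (c : Cf) (x y x' y' : ℤ) :
    ((reP c x y x' y' : ℂ) + (imP c x y x' y' : ℤ) * Complex.I) / 2 ^ p / 2 ^ p =
      toC p c.1 * toC p (x, y) + toC p c.2 * toC p (x', y') := by
  simp only [reP, imP, toC]
  push_cast
  field_simp
  linear_combination (-(c.1.2 : ℂ) * y - c.2.2 * y') * Complex.I_mul_I

theorem mul_err {a a' b b' : ℂ} {G R κ P : ℝ} (hP : 0 < P) (h1 : ‖a' - a‖ ≤ G / P) (h2 : ‖a‖ ≤ G)
    (h3 : ‖b' - b‖ ≤ κ * R / P) (h4 : ‖b'‖ ≤ 2 * R) :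
    ‖a' * b' - a * b‖ ≤ G * R * (κ + 2) / P := by
  have e : a' * b' - a * b = (a' - a) * b' + a * (b' - b) := by ring
  have hG : 0 ≤ G := le_trans (norm_nonneg _) h2
  rw [e]
  refine (norm_add_le _ _).trans ?_
  rw [norm_mul, norm_mul]
  refine (add_le_add (mul_le_mul h1 h4 (norm_nonneg _) (by positivity))
    (mul_le_mul h2 h3 (norm_nonneg _) hG)).trans (le_of_eq ?_)
  field_simp; ring

/-- the error of one entry -/
theorem ent_err {p u g : ℕ} {c : Cf} {x y x' y' : ℤ} {α β a b : ℂ} {R κ : ℝ} (g1 : 1 ≤ R)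
    (g2 : 0 ≤ κ) (g3 : κ + ((g + 2 : ℕ) : ℝ) ≤ 2 ^ p)
    (g4 : R * 2 ^ (g + 2 + p + 3) ≤ 2 ^ (2 * u)) (ha : ‖a‖ ≤ R) (hb : ‖b‖ ≤ R)
    (hα : ‖α‖ ≤ 2 ^ g) (hβ : ‖β‖ ≤ 2 ^ g) (hα' : ‖toC p c.1 - α‖ ≤ 2 ^ g / 2 ^ p)
    (hβ' : ‖toC p c.2 - β‖ ≤ 2 ^ g / 2 ^ p) (ha' : ‖toC p (x, y) - a‖ ≤ κ * R / 2 ^ p)
    (hb' : ‖toC p (x', y') - b‖ ≤ κ * R / 2 ^ p) :
    ‖toC p (sgn u (encM (MM u) (reP c x y x' y' / 2 ^ p)),
        sgn u (encM (MM u) (imP c x y x' y' / 2 ^ p))) - (α * a + β * b)‖ ≤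
      (κ + ((g + 2 : ℕ) : ℝ)) * (R * 2 ^ (g + 2)) / 2 ^ p ∧ ‖α * a + β * b‖ ≤ R * 2 ^ (g + 2) := by
  have hP : (0 : ℝ) < 2 ^ p := by positivity
  have hG : (1 : ℝ) ≤ 2 ^ g := one_le_pow₀ (by norm_num)
  have hg0 : (0 : ℝ) ≤ g := by positivity
  push_cast at g3 ⊢
  have h3 : κ * R / 2 ^ p ≤ R := by rw [div_le_iff₀ hP]; nlinarith
  have n1 : ‖toC p (x, y)‖ ≤ 2 * R := by
    linarith [norm_le_norm_add_norm_sub' (toC p (x, y)) a]
  have n2 : ‖toC p (x', y')‖ ≤ 2 * R := by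
    linarith [norm_le_norm_add_norm_sub' (toC p (x', y')) b]
  have e1 := mul_err hP hα' hα ha' n1
  have e2 := mul_err hP hβ' hβ hb' n2
  have e3 := toC_floor p (reP c x y x' y') (imP c x y x' y')
  rw [toC_prod] at e3
  have e4 : ‖α * a + β * b‖ ≤ R * 2 ^ g * 2 := by
    refine (norm_add_le _ _).trans ?_
    rw [norm_mul, norm_mul]
    have := mul_le_mul hα ha (norm_nonneg _) (by positivity)
    have := mul_le_mul hβ hb (norm_nonneg _) (by positivity)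
    linarith
  have hRG : 1 ≤ R * 2 ^ g := one_le_mul_of_one_le_of_one_le g1 hG
  have e5 : ‖toC p (reP c x y x' y' / 2 ^ p, imP c x y x' y' / 2 ^ p) - (α * a + β * b)‖ ≤
      (κ + (g + 2)) * (R * 2 ^ (g + 2)) / 2 ^ p := by
    have e : toC p (reP c x y x' y' / 2 ^ p, imP c x y x' y' / 2 ^ p) - (α * a + β * b) =
        (toC p (reP c x y x' y' / 2 ^ p, imP c x y x' y' / 2 ^ p) -
          (toC p c.1 * toC p (x, y) + toC p c.2 * toC p (x', y'))) +
        ((toC p c.1 * toC p (x, y) - α * a) + (toC p c.2 * toC p (x', y') - β * b)) := by ring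
    rw [e]
    refine (norm_add_le _ _).trans ((add_le_add e3 ((norm_add_le _ _).trans
      (add_le_add e1 e2))).trans ?_)
    rw [← add_div, ← add_div]
    refine div_le_div_of_nonneg_right ?_ hP.le
    rw [pow_add]
    nlinarith [mul_nonneg g2 (le_trans zero_le_one hRG), mul_nonneg hg0 (le_trans zero_le_one hRG)]
  have e6 : ‖toC p (reP c x y x' y' / 2 ^ p, imP c x y x' y' / 2 ^ p)‖ ≤ R * 2 ^ g * 6 := by
    have : (κ + (g + 2)) * (R * 2 ^ (g + 2)) / 2 ^ p ≤ R * 2 ^ g * 4 := by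
      rw [div_le_iff₀ hP, pow_add]; nlinarith
    linarith [norm_le_norm_add_norm_sub'
      (toC p (reP c x y x' y' / 2 ^ p, imP c x y x' y' / 2 ^ p)) (α * a + β * b)]
  obtain ⟨s1, s2⟩ := small_of_norm (u := u) (le_trans (by gcongr) (le_trans
    (show R * 2 ^ g * 6 * 2 ^ p * 2 ≤ R * 2 ^ (g + 2 + p + 3) by
      have : (0 : ℝ) ≤ R * 2 ^ g * 2 ^ p := by positivity
      rw [pow_add, pow_add, pow_add]; nlinarith) g4))
  rw [sgn_encM s1, sgn_encM s2]
  exact ⟨e5, e4.trans (by rw [pow_add]; nlinarith)⟩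

end Crest.Agent.H6.IM
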