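import Crest.Agent.H6.IMEx3
import Crest.Agent.H3.IMFld

set_option autoImplicit false
set_option linter.unusedSectionVars false
set_option linter.unusedVariables false
set_option linter.unusedSimpArgs false

/-! Row 326: `ExecStmt`, two-term linear passes. -/

namespace Crest.Agent.H6.IM
open Crest.Agent.H3.Ptime Crest.Agent.H9.IM

variable {Q : Type} [Enc Q] {α : Type} [Enc α]

theorem cc_range : CC (fun l : List α => List.range l.length)
    (fun l T => ∃ Λ, l.length ≤ 2 ^ Λ ∧ l.length * (4 * Λ + 8) ≤ T) := by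
  have h := CC.mapAcc (f := fun (s : ℕ) (_ : α) => (s + 1, [s])) (S := fun _ _ => True)
    (by fun_prop)
  have e : ∀ (l : List α) (s : ℕ), (mapAcc (fun (s : ℕ) (_ : α) => (s + 1, [s])) s l).2 =
      List.range' s l.length := by
    intro l
    induction l with
    | nil => intro s; rfl
    | cons x l ih => intro s; simp [mapAcc, ih, List.range'_succ]
  refine (h.comp2 (f := fun l : List α => (0, l)) (by fun_prop) ?_).snd.of_eq
    (fun l => by rw [e, List.range_eq_range'])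
  rintro l T ⟨Λ, h1, h2⟩
  refine (AccRun.of_inv (fun s l' => s + l'.length ≤ 2 ^ Λ) (fun _ => 4 * Λ + 8) ?_ l 0
    (by simpa using h1)).mono (by simpa using h2)
  intro s x l hs
  simp only [List.length_cons] at hs ⊢
  exact ⟨by omega, 0, trivial, by simpa using sz_le_pow (show s ≤ 2 ^ Λ by omega)⟩

theorem xor_pow_eq (b i : ℕ) :
    i ^^^ 2 ^ b = if i / 2 ^ b % 2 = 0 then i + 2 ^ b else i - 2 ^ b := by
  induction b generalizing i with
  | zero =>
    simp only [pow_zero, Nat.div_one]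
    split_ifs with h
    · exact Nat.xor_one_of_even (Nat.even_iff.2 h)
    · exact Nat.xor_one_of_odd (Nat.odd_iff.2 (by omega))
  | succ b ih =>
    have h1 : (i ^^^ 2 ^ (b + 1)) / 2 = i / 2 ^^^ 2 ^ b := by
      rw [Nat.xor_div_two, pow_succ, Nat.mul_div_cancel _ (by norm_num)]
    have h2 : (i ^^^ 2 ^ (b + 1)) % 2 = i % 2 := by
      have := Nat.xor_mod_two_pow (a := i) (b := 2 ^ (b + 1)) (n := 1)
      simp only [pow_one] at this
      rw [this, pow_succ, Nat.mul_mod_left, Nat.xor_zero]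
    have h3 : i / 2 / 2 ^ b = i / 2 ^ (b + 1) := by rw [Nat.div_div_eq_div_mul, pow_succ']
    rw [ih, h3] at h1
    have h4 : i / 2 ^ (b + 1) % 2 ≠ 0 → 2 ^ (b + 1) ≤ i := fun h => by
      by_contra hc
      rw [Nat.div_eq_of_lt (by omega)] at h
      simp at h
    rw [pow_succ] at *
    split_ifs at * with h <;> omega

theorem XS.nat {P : Q → ℕ → Prop} {Γ Y : Q → ℕ} {k : ℕ}
    {x : (Q × List Unit × List Unit) × Arr} {T : ℕ} (h : XS P Γ (fun _ => 0) Y k x T) :
    ∃ V Λ W : ℕ, P x.1.1 x.2.length ∧ Res x.1.2.2.length V x.2 ∧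
      x.1.2.1.length + Γ x.1.1 + 1 ≤ x.1.2.2.length ∧ sz x.1 ≤ Λ ∧ x.2.length ≤ 2 ^ Λ ∧ 2 ≤ Λ ∧
      (x.1.2.2.length + 1 : ℝ) ^ (1 + gam) ≤ W ∧ x.1.2.2.length + 1 ≤ W ∧
      (x.2.length + 1) * (V * W) ≤ 2 * T ∧ (x.2.length + 1) * Λ ^ k ≤ T ∧
      ((Y x.1.1 + 1) * Λ) ^ k ≤ T := by
  obtain ⟨V, Λ, h1, h2, h3, h4, h5, h6, h7, h8⟩ := h
  have e1 : (x.1.2.2.length + 1 : ℝ) ≤ (x.1.2.2.length + 1 : ℝ) ^ (1 + gam) :=
    le_rpow_gam (by linarith [(x.1.2.2.length).cast_nonneg (α := ℝ)])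
  have e0 : (0 : ℝ) ≤ x.1.2.2.length := by positivity
  generalize (x.1.2.2.length + 1 : ℝ) ^ (1 + gam) = w at *
  have e2 := Nat.le_ceil w
  have e3 := (Nat.ceil_lt_add_one (show 0 ≤ w by linarith)).le
  have w0 : 0 ≤ w := by linarith
  have a1 : (0 : ℝ) ≤ (x.2.length + 1 : ℝ) * (V * w) := by positivity
  have a2 : (0 : ℝ) ≤ (x.2.length + 1 : ℝ) * (Λ : ℝ) ^ k := by positivity
  have a3 : (0 : ℝ) ≤ ((Y x.1.1 + 1 : ℝ) * Λ) ^ k := by positivity
  simp only [zero_add, mul_one, mul_add (x.2.length + 1 : ℝ)] at h8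
  refine ⟨V, Λ, ⌈w⌉₊, h1, h2, h3, h4, h5, h6, e2, by exact_mod_cast e1.trans e2, ?_, ?_, ?_⟩
  · have : (x.2.length + 1 : ℝ) * (V * ⌈w⌉₊) ≤ (x.2.length + 1 : ℝ) * (V * (2 * w)) := by
      gcongr; linarith
    have : (x.2.length + 1 : ℝ) * (V * ⌈w⌉₊) ≤ 2 * T := by linarith
    exact_mod_cast this
  · have : (x.2.length + 1 : ℝ) * (Λ : ℝ) ^ k ≤ T := by linarith
    exact_mod_cast this
  · have : ((Y x.1.1 + 1 : ℝ) * Λ) ^ k ≤ T := by linarith
    exact_mod_cast this

theorem sz_toC {p g u : ℕ} {z : ℤ × ℤ} (h : ‖toC p z‖ ≤ 2 ^ (g + 1)) (hu : p + g + 2 ≤ u) :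
    sz z ≤ 18 * u + 19 := by
  obtain ⟨h1, h2⟩ := toC_re_im p z
  have e : ∀ w : ℤ, |(w : ℝ)| ≤ ‖toC p z‖ * 2 ^ p → sz w ≤ 9 * u + 9 := by
    intro w hw
    have h3 : ((w.natAbs : ℕ) : ℝ) ≤ ((2 ^ (g + 1 + p) : ℕ) : ℝ) := by
      rw [Nat.cast_natAbs]; push_cast
      rw [pow_add]; exact hw.trans (by gcongr)
    have h4 : w.natAbs ≤ 2 ^ (g + 1 + p) := by exact_mod_cast h3
    have h5 : w.natAbs.size ≤ u := Nat.size_le.2
      (h4.trans_lt (Nat.pow_lt_pow_right (by norm_num) (by omega)))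
    have := sz_int_le w
    omega
  obtain ⟨a, b⟩ := z
  have := e _ h1
  have := e _ h2
  rw [sz_pair]; simp only at *; omega

theorem tab_eq {β : Type} (G : ℕ → β) (lo L t : ℕ) (hlo : 0 < lo) (hL : 0 < L) :
    (List.replicate t false).flatMap (fun _ => ((List.range L).map G).flatMap
      (fun x => (List.replicate lo ()).map (fun _ => x))) =
    (List.range (lo * L * t)).map (fun i => G (fld lo L i)) := by
  have e1 : ((List.range L).map G).flatMap (fun x => (List.replicate lo ()).map (fun _ => x)) =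
      (List.range (lo * L)).map (fun i => G (i / lo)) := by
    rw [range_mul_map, List.flatMap_map, List.flatMap]
    congr 1
    refine List.map_congr_left (fun j _ => ?_)
    refine List.ext_getElem (by simp) (fun r h1 h2 => ?_)
    simp at h1
    simp [Nat.mul_add_div hlo, Nat.div_eq_of_lt h1]
  rw [e1, range_mul_map (lo * L) t, List.flatMap]
  congr 1
  refine List.ext_getElem (by simp) (fun j h1 h2 => ?_)
  simp only [List.getElem_map]
  refine List.map_congr_left (fun r hr => ?_)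
  have hr' := List.mem_range.1 hr
  unfold fld
  rw [mul_assoc, Nat.mul_add_div hlo, Nat.mul_add_mod,
    Nat.mod_eq_of_lt ((Nat.div_lt_iff_lt_mul hlo).2 (by rwa [mul_comm L]))]

/-- the stretched table -/
theorem cc_tab (lo L : Q → ℕ) (te : Q × List Unit × List Unit × ℕ → ℤ × ℤ) (hlo : PT lo) (hL : PT L)
    (hte : PT te) : ∃ k0, ∀ (P : Q → ℕ → Prop) (Γ : Q → ℕ) (k : ℕ), k0 ≤ k →
    (∀ q N, P q N → 0 < lo q ∧ 0 < L q ∧ lo q * L q ∣ N ∧ 0 < N) →
    (∀ q N (p : List Unit) u, P q N → p.length + Γ q + 1 ≤ u → ∀ y < L q,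
      sz (te (q, p, List.replicate (L q) (), y)) ≤ 18 * u + 19) →
    CC (fun x : (Q × List Unit × List Unit) × Arr => (List.range x.2.length).map
      (fun i => te (x.1.1, x.1.2.1, List.replicate (L x.1.1) (), fld (lo x.1.1) (L x.1.1) i)))
      (XS P Γ (fun _ => 0) L k) := by
  obtain ⟨k1, hk1, c1, -⟩ := ofPT' (f := fun y : Q × List Unit × List Unit => (lo y.1, L y.1))
    (by fun_prop)
  obtain ⟨k2, hk2, c2, -⟩ := ofPT' (f := fun y : Q × List Unit × List Unit =>
    (List.range y.2.2.length).map (fun j => te (y.1, y.2.1, y.2.2, j)))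
    (PT.map (PT.rangeL (by fun_prop)) (hte.comp (by fun_prop)))
  refine ⟨k1 + 2 * k2, fun P Γ k hk hP hsz => ?_⟩
  have d1 : CC (fun x : (Q × List Unit × List Unit) × Arr => (lo x.1.1, L x.1.1))
      (XS P Γ (fun _ => 0) L k) :=
    c1.comp2 (f := fun x : (Q × List Unit × List Unit) × Arr => x.1) (by fun_prop)
      (fun x T hx => by
        obtain ⟨Λ, b1, b2, b3⟩ := (hx.mono_k (k := k1) (by omega)).pow_le
        exact ⟨Λ, b1, b3⟩)
  have un : ∀ r : Q → ℕ, CC (fun x : (Q × List Unit × List Unit) × Arr => r x.1.1)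
      (XS P Γ (fun _ => 0) L k) → (∀ q N, P q N → r q ≤ N) →
      CC (fun x : (Q × List Unit × List Unit) × Arr => List.replicate (r x.1.1) ())
      (XS P Γ (fun _ => 0) L k) := by
    intro r hr hle
    refine CC.unary.comp3 hr 9 (fun x T hx => ⟨_, le_rfl, ?_⟩)
    obtain ⟨V, Λ, W, h1, h2, h3, h4, h5, h6, h7, h8, h9, h10, h11⟩ :=
      (hx.mono_k (k := 1) (by omega)).nat
    have e1 := hle _ _ h1
    have e2 := sz_le_pow (e1.trans h5)
    have e3 : r x.1.1 * (sz (r x.1.1) + 1) ≤ (x.2.length + 1) * (9 * Λ) :=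
      Nat.mul_le_mul (by omega) (by omega)
    rw [pow_one] at h10
    nlinarith
  have d2 := un lo d1.fst (fun q N h => by
    obtain ⟨a1, a2, a3, a4⟩ := hP q N h
    exact le_trans (Nat.le_mul_of_pos_right _ a2) (Nat.le_of_dvd a4 a3))
  have d3 := un L d1.snd (fun q N h => by
    obtain ⟨a1, a2, a3, a4⟩ := hP q N h
    exact le_trans (Nat.le_mul_of_pos_left _ a1) (Nat.le_of_dvd a4 a3))
  have d4 : CC (fun x : (Q × List Unit × List Unit) × Arr => (List.range (L x.1.1)).map
      (fun j => te (x.1.1, x.1.2.1, List.replicate (L x.1.1) (), j))) (XS P Γ (fun _ => 0) L k) := by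
    refine (c2.comp2 (f := fun x : (Q × List Unit × List Unit) × Arr =>
      (x.1.1, x.1.2.1, List.replicate (L x.1.1) ()))
      (CC.pair (by fun_prop) (CC.pair (by fun_prop) d3)) (fun x T hx => ?_)).of_eq
      (fun x => by simp)
    obtain ⟨V, Λ, W, h1, h2, h3, h4, h5, h6, h7, h8, h9, h10, h11⟩ :=
      (hx.mono_k (k := 2 * k2) (by omega)).nat
    refine ⟨((L x.1.1 + 1) * Λ) ^ 2, ?_, by rwa [← pow_mul]⟩
    obtain ⟨⟨q, p, u⟩, A⟩ := x
    simp only [sz_pair, sz_replicate_unit] at h4 ⊢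
    have : 2 * ((L q + 1) * Λ) ≤ ((L q + 1) * Λ) ^ 2 := by
      rw [sq]; exact Nat.mul_le_mul_right _ (by nlinarith)
    nlinarith
  have r1 : CC (fun p : List Unit × (ℤ × ℤ) => p.1.map (fun _ => p.2))
      (fun p T => p.1.length * sz p.2 ≤ T) :=
    (CC.mapCU (f := fun (c : ℤ × ℤ) (_ : Unit) => c) (S := fun _ _ => True) (by fun_prop)).comp2
      (f := fun p : List Unit × (ℤ × ℤ) => (p.2, p.1)) (by fun_prop)
      (fun p T h => ⟨0, fun _ _ => trivial, by simpa using h⟩)
  have key : ∀ (x : (Q × List Unit × List Unit) × Arr) T, XS P Γ (fun _ => 0) L k x T →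
      ∃ t w, 0 < lo x.1.1 ∧ 0 < L x.1.1 ∧ x.2.length = lo x.1.1 * L x.1.1 * t ∧ 0 < t ∧
        (∀ y < L x.1.1, sz (te (x.1.1, x.1.2.1, List.replicate (L x.1.1) (), y)) ≤ w) ∧
        x.2.length * (w + 3) ≤ 22 * T := by
    intro x T hx
    obtain ⟨V, Λ, W, h1, h2, h3, h4, h5, h6, h7, h8, h9, h10, h11⟩ :=
      (hx.mono_k (k := 1) (by omega)).nat
    obtain ⟨a1, a2, ⟨t, a3⟩, a4⟩ := hP _ _ h1
    refine ⟨t, _, a1, a2, a3, Nat.pos_of_ne_zero (by rintro rfl; omega), hsz _ _ _ _ h1 h3, ?_⟩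
    obtain ⟨⟨q, p, u⟩, A⟩ := x
    have := sz_units u
    simp only [sz_pair, pow_one] at h4 h10 ⊢
    have : A.length * (18 * u.length + 19 + 3) ≤ (A.length + 1) * (22 * Λ) :=
      Nat.mul_le_mul (by omega) (by omega)
    nlinarith
  have d5 := (CC.flatMapC (f := fun (c : List Unit) (x : ℤ × ℤ) => c.map (fun _ => x)) r1).comp3
    (d2.pair d4) 22 (fun x T hx => by
      obtain ⟨t, w, a1, a2, a3, a4, a5, a6⟩ := key x T hx
      refine ⟨22 * T, ⟨fun _ => lo x.1.1 * w, fun z hz => ?_, ?_⟩, by omega⟩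
      · obtain ⟨j, hj, rfl⟩ := List.mem_map.1 hz
        simpa using Nat.mul_le_mul_left _ (a5 j (List.mem_range.1 hj))
      · simp only [List.map_const', List.length_map, List.length_range, List.sum_replicate,
          smul_eq_mul, sz_replicate_unit]
        have : lo x.1.1 * L x.1.1 * (w + 3) ≤ x.2.length * (w + 3) :=
          Nat.mul_le_mul_right _ (by rw [a3]; exact Nat.le_mul_of_pos_right _ a4)
        nlinarith)
  have d6 := CC.comp Lin.divL ((CC.comp Lin.divL ((CC.snd CC.id').pair d2)).pair d3)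
  have d7 := (CC.flatMapC (f := fun (c : List (ℤ × ℤ)) (_ : Bool) => c) (S := fun _ _ => True)
    (by fun_prop)).comp3 (d5.pair d6) 22 (fun x T hx => by
      obtain ⟨t, w, a1, a2, a3, a4, a5, a6⟩ := key x T hx
      refine ⟨22 * T, ⟨fun _ => 0, fun _ _ => trivial, ?_⟩, by omega⟩
      simp only [List.map_const', List.length_replicate, List.sum_replicate, smul_eq_mul, mul_zero,
        zero_add]
      have e1 : x.2.length / lo x.1.1 / L x.1.1 = t := by
        rw [Nat.div_div_eq_div_mul, a3, Nat.mul_div_cancel_left _ (by positivity)]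
      have e2 := tab_eq (fun j => te (x.1.1, x.1.2.1, List.replicate (L x.1.1) (), j))
        (lo x.1.1) (L x.1.1) 1 a1 a2
      simp only [List.replicate_one, List.flatMap_cons, List.flatMap_nil, List.append_nil,
        List.map_const', List.length_replicate] at e2
      rw [e1, e2]
      have e3 := sz_le_mul ((List.range (lo x.1.1 * L x.1.1 * 1)).map (fun i => te (x.1.1, x.1.2.1,
        List.replicate (L x.1.1) (), fld (lo x.1.1) (L x.1.1) i))) w (fun z hz => by
          obtain ⟨j, hj, rfl⟩ := List.mem_map.1 hz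
          exact a5 _ (fld_lt a2))
      refine (Nat.mul_le_mul_left _ e3).trans (le_trans ?_ a6)
      rw [a3]
      simp only [List.length_map, List.length_range, mul_one]
      have : 1 ≤ lo x.1.1 * L x.1.1 := Nat.mul_pos a1 a2
      nlinarith)
  refine d7.congr (fun x T hx => ?_)
  obtain ⟨t, w, a1, a2, a3, a4, a5, a6⟩ := key x T hx
  have e1 : x.2.length / lo x.1.1 / L x.1.1 = t := by
    rw [Nat.div_div_eq_div_mul, a3, Nat.mul_div_cancel_left _ (by positivity)]
  simp only [List.length_replicate]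
  rw [e1, a3]
  exact tab_eq _ _ _ _ a1 a2

theorem sz_cf {p g u : ℕ} {c : Cf} {α β : ℂ} (hα : ‖α‖ ≤ 2 ^ g) (hβ : ‖β‖ ≤ 2 ^ g)
    (h1 : ‖toC p c.1 - α‖ ≤ 2 ^ g / 2 ^ p) (h2 : ‖toC p c.2 - β‖ ≤ 2 ^ g / 2 ^ p)
    (hu : p + g + 2 ≤ u) : sz c ≤ 36 * u + 39 := by
  have h3 : (2 : ℝ) ^ g / 2 ^ p ≤ 2 ^ g :=
    div_le_self (by positivity) (one_le_pow₀ (by norm_num))
  have e1 := sz_toC (p := p) (g := g) (z := c.1)
    (by rw [pow_succ]; linarith [norm_le_norm_add_norm_sub' (toC p c.1) α]) hu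
  have e2 := sz_toC (p := p) (g := g) (z := c.2)
    (by rw [pow_succ]; linarith [norm_le_norm_add_norm_sub' (toC p c.2) β]) hu
  obtain ⟨a, b⟩ := c
  rw [sz_pair]; simp only at *; omega

theorem xor_lt {b N i : ℕ} (h : 2 * 2 ^ b ∣ N) (hi : i < N) : i ^^^ 2 ^ b < N := by
  rw [xor_pow_eq]
  split_ifs with he
  · exact add_lt_of_even (by positivity) h hi he
  · exact lt_of_le_of_lt (Nat.sub_le _ _) hi

theorem xc_lin2 (hN : NumStmt) (m lo L g : Q → ℕ) (te : Q × List Unit × List Unit × ℕ → ℤ × ℤ)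
    (cf : Q × List Unit × ℕ × (ℤ × ℤ) → (ℤ × ℤ) × (ℤ × ℤ)) (α β : Q → ℕ → ℂ)
    (hm : PT m) (hlo : PT lo) (hL : PT L) (hte : PT te) (hcf : PT cf) :
    XC (fun q a i => α q i * a i + β q i * a (i ^^^ m q))
      (fun q N => (∃ b, m q = 2 ^ b) ∧ 2 * m q ∣ N ∧ 0 < lo q ∧ 0 < L q ∧ lo q * L q ∣ N ∧ 0 < N ∧
        (∀ (p : List Unit), ∀ y < L q, ‖toC p.length (te (q, p, List.replicate (L q) (), y))‖ ≤
          2 ^ (g q + 1)) ∧
        ∀ i < N, ‖α q i‖ ≤ 2 ^ g q ∧ ‖β q i‖ ≤ 2 ^ g q ∧ ∀ p : List Unit,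
          ‖toC p.length (cf (q, p, i, te (q, p, List.replicate (L q) (), fld (lo q) (L q) i))).1 -
            α q i‖ ≤ 2 ^ g q / 2 ^ p.length ∧
          ‖toC p.length (cf (q, p, i, te (q, p, List.replicate (L q) (), fld (lo q) (L q) i))).2 -
            β q i‖ ≤ 2 ^ g q / 2 ^ p.length)
      (fun q => g q + 2) (fun _ => 0) L := by
  set P : Q → ℕ → Prop := fun q N => (∃ b, m q = 2 ^ b) ∧ 2 * m q ∣ N ∧ 0 < lo q ∧ 0 < L q ∧
    lo q * L q ∣ N ∧ 0 < N ∧
        (∀ (p : List Unit), ∀ y < L q, ‖toC p.length (te (q, p, List.replicate (L q) (), y))‖ ≤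
          2 ^ (g q + 1)) ∧
        ∀ i < N, ‖α q i‖ ≤ 2 ^ g q ∧ ‖β q i‖ ≤ 2 ^ g q ∧ ∀ p : List Unit,
          ‖toC p.length (cf (q, p, i, te (q, p, List.replicate (L q) (), fld (lo q) (L q) i))).1 -
            α q i‖ ≤ 2 ^ g q / 2 ^ p.length ∧
          ‖toC p.length (cf (q, p, i, te (q, p, List.replicate (L q) (), fld (lo q) (L q) i))).2 -
            β q i‖ ≤ 2 ^ g q / 2 ^ p.length with hPdef
  rw [XC_iff]
  obtain ⟨k1, c1⟩ := cc_tab lo L te hlo hL hte
  obtain ⟨k2, hk2, c2, -⟩ := ofPT' (f := fun y : (Q × List Unit) × ℕ × (ℤ × ℤ) =>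
    cf (y.1.1, y.1.2, y.2)) (hcf.comp (by fun_prop))
  obtain ⟨k3, c3, -⟩ := AC_iff.1 (AC.pull coreStmt (Q := Q) (fun _ N => N)
    (fun q i => if i / m q % 2 = 0 then i + m q else i - m q) (fun q i => i / m q % 2) 2
    (by fun_prop) (by fun_prop) (by fun_prop))
  refine ⟨fun y A => (List.range A.length).map (fun i => cellF (MM y.2.2.length, y.2.1)
    (cf (y.1, y.2.1, i, te (y.1, y.2.1, List.replicate (L y.1) (), fld (lo y.1) (L y.1) i)),
      A.getD i [], A.getD (i ^^^ m y.1) [])), k1 + 6 * k2 + k3, ?_, fun q p u A V a1 a2 a3 => ?_⟩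
  · set S := XS P (fun q => g q + 2) (fun _ => 0) L (k1 + 6 * k2 + k3) with hS
    have hsz : ∀ q N (p : List Unit) u, P q N → p.length + (g q + 2) + 1 ≤ u → ∀ y < L q,
        sz (te (q, p, List.replicate (L q) (), y)) ≤ 18 * u + 19 :=
      fun q N p u h hu y hy => sz_toC (h.2.2.2.2.2.2.1 p y hy) (by omega)
    have d1 := c1 P (fun q => g q + 2) (k1 + 6 * k2 + k3) (by omega)
      (fun q N h => ⟨h.2.2.1, h.2.2.2.1, h.2.2.2.2.1, h.2.2.2.2.2.1⟩) hsz
    have d2 : CC (fun x : (Q × List Unit × List Unit) × Arr => List.range x.2.length) S := by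
      refine cc_range.comp3 (f := fun x : (Q × List Unit × List Unit) × Arr => x.2) (by fun_prop) 8
        (fun x T hx => ?_)
      obtain ⟨V, Λ, W, h1, h2, h3, h4, h5, h6, h7, h8, h9, h10, h11⟩ :=
        (hx.mono_k (k := 1) (by omega)).nat
      refine ⟨8 * T, ⟨Λ, h5, ?_⟩, by omega⟩
      rw [pow_one] at h10
      nlinarith
    have d3 : CC (fun x : (Q × List Unit × List Unit) × Arr => (List.range x.2.length).map
        (fun i => cf (x.1.1, x.1.2.1, i, te (x.1.1, x.1.2.1, List.replicate (L x.1.1) (),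
          fld (lo x.1.1) (L x.1.1) i)))) S := by
      refine ((CC.mapCU (f := fun (c : Q × List Unit) (z : ℕ × (ℤ × ℤ)) => cf (c.1, c.2, z))
        c2).comp3 (CC.pair (f := fun x : (Q × List Unit × List Unit) × Arr => (x.1.1, x.1.2.1))
        (by fun_prop) (d2.zip d1)) 2 (fun x T hx => ?_)).of_eq (fun x => ?_)
      · obtain ⟨V, Λ, W, h1, h2, h3, h4, h5, h6, h7, h8, h9, h10, h11⟩ :=
          (hx.mono_k (k := 6 * k2) (by omega)).nat
        obtain ⟨⟨q, p, u⟩, A⟩ := x
        have hu := sz_units u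
        simp only [sz_pair] at h1 h2 h3 h4 h5 h10
        have e0 : Λ ≤ Λ ^ (6 * k2) := Nat.le_self_pow (by omega) _
        refine ⟨2 * T, ⟨Λ ^ (6 * k2), fun z hz => ⟨Λ ^ 6, ?_, by rw [← pow_mul]⟩, ?_⟩, by omega⟩
        · obtain ⟨z1, z2⟩ := z
          obtain ⟨e1, e2⟩ := List.of_mem_zip hz
          obtain ⟨j, hj, rfl⟩ := List.mem_map.1 e2
          have e3 := hsz q _ p _ h1 h3 _ (fld_lt (lo := lo q) (i := j) h1.2.2.2.1)
          have e4 := sz_le_pow (show z1 ≤ 2 ^ Λ from (List.mem_range.1 e1).le.trans h5)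
          have e5 : 32 * Λ ≤ Λ ^ 6 := by
            have : 2 ^ 5 ≤ Λ ^ 5 := Nat.pow_le_pow_left h6 5
            rw [pow_succ]; nlinarith
          simp only [sz_pair] at e3 ⊢
          omega
        · simp only [List.length_zip, List.length_range, List.length_map, min_self, sz_pair]
          have : A.length * (Λ ^ (6 * k2) + (sz q + sz p + 1)) ≤
            (A.length + 1) * (2 * Λ ^ (6 * k2)) := Nat.mul_le_mul (by omega) (by omega)
          nlinarith
      · simp only
        conv_lhs => rw [← List.map_id (List.range x.2.length), List.map_map, List.zip_map',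
          List.map_map]
        rfl
    have d4 : CC (fun x : (Q × List Unit × List Unit) × Arr => pullN x.2.length
        (fun i => if i / m x.1.1 % 2 = 0 then i + m x.1.1 else i - m x.1.1) x.2) S := by
      refine c3.comp3 (f := fun x : (Q × List Unit × List Unit) × Arr => (x.1.1, x.2))
        (by fun_prop) 17 (fun x T hx => ⟨16 * T + T, ?_, by omega⟩)
      obtain ⟨V, Λ, W, h1, h2, h3, h4, h5, h6, h7, h8, h9, h10, h11⟩ :=
        (hx.mono_k (k := k3) (by omega)).nat
      obtain ⟨⟨q, p, u⟩, A⟩ := x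
      have hu := sz_units u
      simp only [sz_pair] at h1 h2 h3 h4 h5 h7 h9 h10
      refine ⟨2 * V, 2 * u.length + 1, Λ, ⟨by simp only; omega, fun i _ => Nat.mod_lt _ two_pos,
        fun i j hij _ e => ?_⟩, Res.bd h2, by simp only; omega, by omega, h5, h6, le_rfl, ?_⟩
      · simp only at e ⊢
        rw [e]; split_ifs <;> omega
      · have e1 := mul_rpow_gam (c := 2) (y := u.length + 1) (by norm_num) (by positivity)
        have e2 : (((2 * u.length + 1 : ℕ) : ℝ) + 1) = 2 * (u.length + 1) := by push_cast; ring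
        unfold cst
        simp only
        rw [e2]
        have e3 : (A.length + 1 : ℝ) * (V * W) ≤ 2 * T := by exact_mod_cast h9
        have e4 : (A.length + 1 : ℝ) * (Λ : ℝ) ^ k3 ≤ T := by exact_mod_cast h10
        have e5 : (A.length + 1 : ℝ) * (V * (2 * (u.length + 1 : ℝ)) ^ (1 + gam)) ≤
            (A.length + 1 : ℝ) * (V * (4 * W)) := by
          gcongr; linarith
        push_cast
        nlinarith
    have d5 : CC (fun x : (Q × List Unit × List Unit) × Arr => (MM x.1.2.2.length, x.1.2.1)) S := by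
      refine CC.pair ((CC.add (CC.comp hN.shl (f := fun x : (Q × List Unit × List Unit) × Arr =>
        (1, x.1.2.2 ++ x.1.2.2)) (by fun_prop)) (CC.const 1)).of_eq (fun x => ?_)) (by fun_prop)
      simp [MM, two_mul]
    have eB : ∀ (x : (Q × List Unit × List Unit) × Arr), P x.1.1 x.2.length →
        ((List.range x.2.length).map
        (fun i => cf (x.1.1, x.1.2.1, i, te (x.1.1, x.1.2.1, List.replicate (L x.1.1) (),
          fld (lo x.1.1) (L x.1.1) i)))).zip (x.2.zip (pullN x.2.length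
        (fun i => if i / m x.1.1 % 2 = 0 then i + m x.1.1 else i - m x.1.1) x.2)) =
        (List.range x.2.length).map (fun i => (cf (x.1.1, x.1.2.1, i, te (x.1.1, x.1.2.1,
          List.replicate (L x.1.1) (), fld (lo x.1.1) (L x.1.1) i)),
          x.2.getD i [], x.2.getD (i ^^^ m x.1.1) [])) := by
      intro x h
      obtain ⟨⟨b, hb⟩, h2, -⟩ := h
      refine List.ext_getElem (by simp) (fun i h3 h4 => ?_)
      have hi : i < x.2.length := by simpa using h4
      have hi' := xor_lt (hb ▸ h2) hi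
      simp only [List.getElem_zip, List.getElem_map, List.getElem_range, pullN, hb, ← xor_pow_eq]
      rw [List.getD_eq_getElem _ _ hi, List.getD_eq_getElem _ _ hi', List.getD_eq_getElem _ _ hi']
    refine ((CC.mapCU (cc_cellF hN)).comp3 (d5.pair (d3.zip ((CC.snd CC.id').zip d4)))
      (2 * 334 ^ 2 + 200) (fun x T hx => ?_)).congr (fun x T hx => ?_)
    · obtain ⟨V, Λ, W, h1, h2, h3, h4, h5, h6, h7, h8, h9, h10, h11⟩ :=
        (hx.mono_k (k := 1) (by omega)).nat
      simp only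
      rw [eB x h1]
      obtain ⟨⟨q, p, u⟩, A⟩ := x
      have hu := sz_units u
      have hp := sz_units p
      simp only [sz_pair, pow_one] at h1 h2 h3 h4 h5 h7 h8 h9 h10 ⊢
      have hM : sz (MM u.length) ≤ 4 * (2 * u.length + 2) + 4 := sz_lt_pow
        ((MM_le _).trans_lt (Nat.pow_lt_pow_right (by norm_num) (by omega)))
      obtain ⟨⟨b, hb⟩, h12, -, -, -, -, -, h13⟩ := h1
      refine ⟨(2 * 334 ^ 2 + 200) * T, ⟨V * (334 ^ 2 * W + 54 * (u.length + 1)), fun z hz => ?_, ?_⟩,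
        Nat.mul_le_mul_left _ (by omega)⟩
      · obtain ⟨i, hi, rfl⟩ := List.mem_map.1 hz
        have hi' := List.mem_range.1 hi
        have m1 := h2 _ (getD_mem_or A i [] hi')
        have m2 := h2 _ (getD_mem_or A (i ^^^ m q) [] (hb ▸ xor_lt (hb ▸ h12) hi'))
        obtain ⟨n1, n2, n3⟩ := h13 i hi'
        have n4 := sz_cf n1 n2 (n3 p).1 (n3 p).2 (show p.length + g q + 2 ≤ u.length by omega)
        refine ⟨V, 54 * (u.length + 1), 334 ^ 2 * W, m1.1.le, by simp only [sz_pair]; omega,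
          fun y hy => (sz_lt_pow ((m1.2 y hy).trans_le (MM_le _))).trans (by omega),
          fun y hy => (sz_lt_pow ((m2.2 y hy).trans_le (MM_le _))).trans (by omega), ?_, le_rfl⟩
        have e1 := mul_rpow_gam (c := 334) (y := u.length + 1) (by norm_num) (by positivity)
        refine le_trans (Real.rpow_le_rpow (by positivity) ?_ (by linarith [gam_pos]))
          (e1.trans ?_)
        · push_cast; linarith [(u.length).cast_nonneg (α := ℝ)]
        · push_cast; linarith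
      · simp only [List.length_map, List.length_range]
        have e1 : V * (334 ^ 2 * W + 54 * (u.length + 1)) ≤ (334 ^ 2 + 54) * (V * W) := by
          have := Nat.mul_le_mul_left V h8
          nlinarith
        have e2 : A.length * (V * (334 ^ 2 * W + 54 * (u.length + 1)) +
            (sz (MM u.length) + sz p + 1)) ≤
            (A.length + 1) * ((334 ^ 2 + 54) * (V * W) + 20 * Λ) :=
          Nat.mul_le_mul (by omega) (by omega)
        nlinarith
    · obtain ⟨V, Λ, h1, -⟩ := hx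
      simp only
      rw [eB x h1, List.map_map]
      rfl
  · obtain ⟨⟨b, hb⟩, h12, -, -, -, -, -, h13⟩ := a1
    have hM : 0 < MM u.length := by unfold MM; positivity
    have hc : ∀ i < A.length, (A.getD i []).length = 2 * V ∧
        (A.getD (i ^^^ m q) []).length = 2 * V := fun i hi =>
      ⟨(a2 _ (getD_mem_or A i [] hi)).1,
        (a2 _ (getD_mem_or A (i ^^^ m q) [] (hb ▸ xor_lt (hb ▸ h12) hi))).1⟩
    refine ⟨by simp, fun c hc' => ?_, fun R κ a g1 g2 g3 g4 g5 g6 => ?_⟩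
    · obtain ⟨i, hi, rfl⟩ := List.mem_map.1 hc'
      obtain ⟨e1, e2⟩ := hc i (List.mem_range.1 hi)
      rw [cellF_eq _ _ _ _ _ V e1 e2]
      refine ⟨(flat2 _ _ V).1, fun x hx => ?_⟩
      obtain ⟨e, -, he⟩ := List.mem_flatMap.1 hx
      simp only [List.mem_cons, List.not_mem_nil, or_false] at he
      rcases he with rfl | rfl <;> exact encM_lt hM _
    · have main := fun (i : ℕ) (hi : i < A.length) (e : ℕ) (he : e < V) =>
        ent_err (u := u.length) g1 g2 g3 g4 (g5 e he i hi)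
          (g5 e he (i ^^^ m q) (hb ▸ xor_lt (hb ▸ h12) hi)) (h13 i hi).1 (h13 i hi).2.1
          ((h13 i hi).2.2 p).1 ((h13 i hi).2.2 p).2 (g6 i hi e he)
          (g6 (i ^^^ m q) (hb ▸ xor_lt (hb ▸ h12) hi) e he)
      refine ⟨fun i hi e he => ?_, fun e he i hi => (main i hi e he).2⟩
      have hi' : i < A.length := by simpa using hi
      obtain ⟨e1, e2⟩ := hc i hi'
      rw [List.getD_eq_getElem _ _ hi, List.getElem_map, List.getElem_range,
        cellF_eq _ _ _ _ _ V e1 e2, cval, ((flat2 _ _ V).2 e he).1, ((flat2 _ _ V).2 e he).2]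
      simp only [sgnM_eq]
      exact (main i hi' e he).1

/-- approximate complex linear algebra on arrays -/
theorem execStmt (hN : NumStmt) (hH : HadStmt) : ExecStmt where
  mono H h E' P' Γ' Y' X' c hh hP := xc_mono H h E' P' Γ' Y' X' c hh hP
  comp H' H := xc_comp H' H
  loop m hm hm' H := xc_loop m hm hm' H
  lin2 m lo L g te cf α β h1 h2 h3 h4 h5 := xc_lin2 hN m lo L g te cf α β h1 h2 h3 h4 h5
  had' := xc_had hH

end Crest.Agent.H6.IM
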