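import Crest.Agent.H6.IMCore

set_option autoImplicit false
set_option linter.unusedSectionVars false
set_option linter.unusedVariables false
set_option linter.unusedSimpArgs false

/-! Row 326: staged recursion. -/

namespace Crest.Agent.H3.Ptime
open Function

variable {α β γ σ δ : Type} [Enc α] [Enc β] [Enc γ] [Enc σ] [Enc δ]

/-- dispatch on a bounded unary index -/
theorem CC.dispatch (n : ℕ) : ∀ (h : ℕ → δ → γ) (S : ℕ → δ → ℕ → Prop), (∀ i < n, CC (h i) (S i)) →
    CC (fun p : List Unit × δ => h p.1.length p.2)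
      (fun p T => p.1.length < n ∧ S p.1.length p.2 T) := by
  induction n with
  | zero =>
    intro h S _
    exact ⟨.skip, 0, fun p T hp => absurd hp.1 (by omega)⟩
  | succ n ih =>
    intro h S hh
    have h0 := (hh 0 (by omega)).comp2 (f := fun p : List Unit × δ => p.2)
      (S := fun p T => S 0 p.2 T) (by fun_prop) (fun _ _ h => h)
    have h1 := (ih (fun i => h (i + 1)) (fun i => S (i + 1)) (fun i hi => hh _ (by omega))).comp2
      (f := fun p : List Unit × δ => (p.1.tail, p.2))
      (S := fun p T => p.1.tail.length < n ∧ S (p.1.tail.length + 1) p.2 T) (by fun_prop)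
      (fun _ _ h => h)
    refine (CC.branch (c := fun p : List Unit × δ => p.1.isEmpty) (by fun_prop) h0 h1 ?_ ?_).of_eq ?_
    · rintro ⟨_ | ⟨a, u⟩, d⟩ T h e
      · exact h.2
      · simp at e
    · rintro ⟨_ | ⟨a, u⟩, d⟩ T h e
      · simp at e
      · simpa using h
    · rintro ⟨_ | ⟨a, u⟩, d⟩ <;> simp

section recm
variable (n : ℕ) (base : α → Bool) (g : α → β) (init : α → σ) (fin : σ → β) (arg : ℕ → σ → α)
  (post : ℕ → σ × β → σ)

abbrev RS (α β σ : Type) := Bool × List α × List β × List (List Unit × σ)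
abbrev RX (α β σ : Type) := RS α β σ × List (List Unit × σ) × List Unit × List Unit

def rCall (a : α) : RX α β σ :=
  bif base a then ((true, [], [g a], []), [], [], []) else ((true, [], [], [([], init a)]), [], [], [])

def rRet (K : List (List Unit × σ)) (b : β) : RX α β σ :=
  lcase K ((false, [], [b], []), [], [], [])
    (fun fr _ => ((true, [], [], [(() :: fr.1, post fr.1.length (fr.2, b))]), [], [], []))

def rNext (fr : List Unit × σ) : RX α β σ :=
  bif (dropL (List.replicate n ()) fr.1).isEmpty then ((true, [], [fin fr.2], []), [], [], [])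
  else ((true, [arg fr.1.length fr.2], [], []), [fr], [], [])

def rF (x : RX α β σ) : RX α β σ :=
  lcase x.1.2.1 (lcase x.1.2.2.1 (lcase x.1.2.2.2 x (fun fr _ => rNext n fin arg fr))
    (fun b _ => rRet post x.2.1 b)) (fun a _ => rCall base g init a)

def rC (s : RS α β σ) : Bool × Bool × Bool := (!s.2.2.1.isEmpty, false, false)

variable (Sb Sg Si : α → ℕ → Prop) (Sf : σ → ℕ → Prop) (Sa : ℕ → σ → ℕ → Prop)
  (Sp : ℕ → σ × β → ℕ → Prop)

def rS (x : RX α β σ) (T : ℕ) : Prop :=
  (∀ a t, x.1.2.1 = a :: t → Sb a T ∧ (base a = true → Sg a T) ∧ (base a = false → Si a T)) ∧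
  (x.1.2.1 = [] → (∀ b t, x.1.2.2.1 = b :: t → ∀ fr u, x.2.1 = fr :: u →
      fr.1.length < n ∧ Sp fr.1.length (fr.2, b) T) ∧
    (x.1.2.2.1 = [] → ∀ fr t, x.1.2.2.2 = fr :: t →
      (fr.1.length < n → Sa fr.1.length fr.2 T) ∧ (n ≤ fr.1.length → Sf fr.2 T)))

variable {n base g init fin arg post Sb Sg Si Sf Sa Sp}

theorem dropL_rep_isEmpty (n : ℕ) (u : List Unit) :
    (dropL (List.replicate n ()) u).isEmpty = decide (n ≤ u.length) := by
  simp [dropL]
  by_cases h : n ≤ u.length
  · simp [h]
  · simp [h]; omega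

theorem cc_rF (hb : CC base Sb) (hg : CC g Sg) (hi : CC init Si) (hf : CC fin Sf)
    (ha : ∀ i < n, CC (arg i) (Sa i)) (hp : ∀ i < n, CC (post i) (Sp i)) :
    CC (rF n base g init fin arg post) (rS n base Sb Sg Si Sf Sa Sp) := by
  have c1 : CC (rCall base g init)
      (fun a T => Sb a T ∧ (base a = true → Sg a T) ∧ (base a = false → Si a T)) := by
    unfold rCall
    exact CC.branch (S1 := Sg) (S2 := Si) (hb.mono (fun _ _ h => h.1)) (by fun_prop) (by fun_prop)
      (fun _ _ h => h.2.1) (fun _ _ h => h.2.2)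
  have c2 : CC (fun p : List (List Unit × σ) × β => (rRet post p.1 p.2 : RX α β σ))
      (fun p T => ∀ fr u, p.1 = fr :: u → fr.1.length < n ∧ Sp fr.1.length (fr.2, p.2) T) := by
    unfold rRet
    have h1 := (CC.dispatch n post Sp hp).comp2
      (f := fun q : (List (List Unit × σ) × β) × (List Unit × σ) × List (List Unit × σ) =>
        (q.2.1.1, (q.2.1.2, q.1.2)))
      (S := fun q T => q.2.1.1.length < n ∧ Sp q.2.1.1.length (q.2.1.2, q.1.2) T) (by fun_prop)
      (fun _ _ h => h)
    refine CC.lcases (S1 := fun _ _ => True)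
      (S2 := fun q T => q.2.1.1.length < n ∧ Sp q.2.1.1.length (q.2.1.2, q.1.2) T)
      (by fun_prop) (by fun_prop) ?_ (fun _ _ _ _ => trivial) (fun p T fr u h e => h fr u e)
    refine CC.pair (CC.pair (CC.const _) (CC.pair (CC.const _) (CC.pair (CC.const _)
      (CC.cons (CC.pair (by fun_prop) h1) (CC.const _))))) (CC.const _)
  have c3 : CC (rNext n fin arg : List Unit × σ → RX α β σ)
      (fun fr T => (fr.1.length < n → Sa fr.1.length fr.2 T) ∧ (n ≤ fr.1.length → Sf fr.2 T)) := by
    unfold rNext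
    have h1 := CC.dispatch n arg Sa ha
    have h2 := hf.comp2 (f := fun fr : List Unit × σ => fr.2) (S := fun fr T => Sf fr.2 T)
      (by fun_prop) (fun _ _ h => h)
    refine CC.branch (S1 := fun fr T => Sf fr.2 T)
      (S2 := fun p T => p.1.length < n ∧ Sa p.1.length p.2 T) (by fun_prop)
      (CC.pair (CC.pair (CC.const _) (CC.pair (CC.const _) (CC.pair (h2.cons (CC.const _))
        (CC.const _)))) (CC.const _))
      (CC.pair (CC.pair (CC.const _) (CC.pair (h1.cons (CC.const _)) (CC.const _))) (by fun_prop))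
      (fun fr T h e => h.2 (by simpa [dropL_rep_isEmpty] using e))
      (fun fr T h e => ?_)
    have : fr.1.length < n := by simpa [dropL_rep_isEmpty] using e
    exact ⟨this, h.1 this⟩
  unfold rF
  refine CC.lcases (S1 := fun x T => (∀ b t, x.1.2.2.1 = b :: t → ∀ fr u, x.2.1 = fr :: u →
      fr.1.length < n ∧ Sp fr.1.length (fr.2, b) T) ∧
    (x.1.2.2.1 = [] → ∀ fr t, x.1.2.2.2 = fr :: t →
      (fr.1.length < n → Sa fr.1.length fr.2 T) ∧ (n ≤ fr.1.length → Sf fr.2 T)))
    (S2 := fun q T => Sb q.2.1 T ∧ (base q.2.1 = true → Sg q.2.1 T) ∧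
      (base q.2.1 = false → Si q.2.1 T)) (by fun_prop) ?_
    (c1.comp2 (by fun_prop) (fun _ _ h => h)) (fun x T h e => h.2 e)
    (fun x T a t h e => h.1 a t e)
  refine CC.lcases (S1 := fun x T => ∀ fr t, x.1.2.2.2 = fr :: t →
      (fr.1.length < n → Sa fr.1.length fr.2 T) ∧ (n ≤ fr.1.length → Sf fr.2 T))
    (S2 := fun q T => ∀ fr u, q.1.2.1 = fr :: u →
      fr.1.length < n ∧ Sp fr.1.length (fr.2, q.2.1) T) (by fun_prop) ?_
    (c2.comp2 (f := fun q : RX α β σ × β × List β => (q.1.2.1, q.2.1)) (by fun_prop)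
      (fun _ _ h => h)) (fun x T h e => h.2 e) (fun x T a t h e => h.1 a t e)
  exact CC.lcases (S1 := fun _ _ => True) (S2 := fun q T =>
      (q.2.1.1.length < n → Sa q.2.1.1.length q.2.1.2 T) ∧ (n ≤ q.2.1.1.length → Sf q.2.1.2 T))
    (by fun_prop) (by fun_prop) (c3.comp2 (by fun_prop) (fun _ _ h => h))
    (fun _ _ _ _ => trivial) (fun x T a t h e => h a t e)

end recm

end Crest.Agent.H3.Ptime

namespace Crest.Agent.H9.IM
open Crest.Agent.H3.Ptime

theorem recStmt : RecStmt := by
  intro σ α β _ _ _ n base g init fin arg post F Sb Sg Si Sf Sa Sp hb hg hi hf ha hp S μ H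
  have hF := cc_rF hb hg hi hf ha hp
  obtain ⟨d1, hd1⟩ := hg.szb
  obtain ⟨d2, hd2⟩ := hf.szb
  have hbt := sz_bool true
  let Rn := MRun (fun s : RS α β σ => s.1) rC (rF n base g init fin arg post)
    (rS n base Sb Sg Si Sf Sa Sp)
  obtain ⟨C, hC⟩ : ∃ C, C = (2 * n + 2) * (2 * n + 30) := ⟨_, rfl⟩
  have key : ∀ (m : ℕ) (a : α) (T : ℕ), μ a < m → S a T → ∀ K T' y,
      Rn ((true, [], [F a], []), K, [], []) T' y →
      Rn ((true, [a], [], []), K, [], []) (C * (T + sz a + 1) + T') y := by
    intro m
    induction m with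
    | zero => intro a T h; omega
    | succ m ih =>
      intro a T hm hS K T' y hy
      obtain ⟨h1, h2, h3⟩ := H a T hS
      have hC1 : 30 ≤ C := by rw [hC]; nlinarith
      cases hba : base a
      swap
      · obtain ⟨h4, h5⟩ := h2 hba
        refine .step _ _ T T' _ rfl ?_ ?_ ?_
        · simp [rS, minp, h1, h4, hba]
        · simpa [mstep, minp, rC, rF, rCall, hba, ← h5] using hy
        · simp [minp, rC, sz_pair, sz_cons, sz_nil]; nlinarith
      obtain ⟨h4, T0, τ, g1, g2, g3, g4, g5, g6⟩ := h3 hba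
      have stage : ∀ j i, i + j = n →
          Rn ((true, [], [], [(List.replicate i (), rst init arg post F a i)]), K, [], [])
            ((5 * j + 2) * T0 + (2 * j + 1) * (2 * n + 30) +
              C * ∑ k ∈ Finset.Ico i n, (τ k + sz (arg k (rst init arg post F a k)) + 1) + T') y := by
        intro j
        induction j with
        | zero =>
          intro i hi
          obtain rfl : i = n := by omega
          refine .step _ _ T0 T' _ rfl ?_ ?_ ?_
          · simp [rS, minp, g3]
          · simpa [mstep, minp, rC, rF, rNext, dropL_rep_isEmpty, ← h4] using hy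
          · have := g4 i le_rfl
            simp [minp, rC, sz_pair, sz_cons, sz_nil, sz_replicate_unit]; omega
        | succ j ihj =>
          intro i hi
          have hin : i < n := by omega
          obtain ⟨e1, e2, e3, e4, e5⟩ := g5 i hin
          have s1 := ihj (i + 1) (by omega)
          have s2 : Rn ((true, [], [F (arg i (rst init arg post F a i))], []),
              (List.replicate i (), rst init arg post F a i) :: K, [], []) _ y :=
            .step _ _ T0 _ _ rfl (by simp [rS, minp, rC, hin, e2])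
              (by simpa [mstep, minp, rC, rF, rRet, rst, List.replicate_succ] using s1) le_rfl
          have s3 := ih _ _ (by omega) e4 _ _ _ s2
          refine .step _ _ T0 _ _ rfl (by simp [rS, minp, rC, hin, e1])
            (by simpa [mstep, minp, rC, rF, rNext, dropL_rep_isEmpty, hin.not_ge] using s3) ?_
          have := g4 i hin.le
          rw [Finset.sum_eq_sum_Ico_succ_bot hin]
          generalize ∑ k ∈ Finset.Ico (i + 1) n,
            (τ k + sz (arg k (rst init arg post F a k)) + 1) = Z at *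
          generalize τ i + sz (arg i (rst init arg post F a i)) + 1 = Y at *
          simp [minp, rC, sz_pair, sz_cons, sz_nil, sz_replicate_unit]
          have b1 : (5 * (j + 1) + 2) * T0 = (5 * j + 2) * T0 + 5 * T0 := by ring
          have b2 : (2 * (j + 1) + 1) * (2 * n + 30) =
            (2 * j + 1) * (2 * n + 30) + 2 * (2 * n + 30) := by ring
          have b3 : C * (Y + Z) = C * Y + C * Z := by ring
          omega
      have s0 := stage n 0 (by omega)
      refine .step _ _ T0 _ _ rfl (by simp [rS, minp, g1, g2, hba])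
        (by simpa [mstep, minp, rC, rF, rCall, hba, rst] using s0) ?_
      try rw [← Finset.range_eq_Ico]
      generalize ∑ k ∈ Finset.range n, (τ k + sz (arg k (rst init arg post F a k)) + 1) = Z at *
      simp [minp, rC, sz_pair, sz_cons, sz_nil]
      have b1 : C * (T0 + Z) ≤ C * T := Nat.mul_le_mul_left _ g6
      have b2 : (5 * n + 3) * T0 ≤ C * T0 := Nat.mul_le_mul_right _ (by rw [hC]; nlinarith)
      have b3 : sz a ≤ C * sz a := Nat.le_mul_of_pos_left _ (by omega)
      have b4 : C = (2 * n + 1) * (2 * n + 30) + (2 * n + 30) := by rw [hC]; ring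
      nlinarith
  have h := CC.mloop' (cont := fun s : RS α β σ => s.1) (ctl := rC) (by fun_prop)
    (by unfold rC; fun_prop) hF
    (G := fun a : α => ((true, [a], [], []), [], [], [])) (S0 := fun _ _ => True) (by fun_prop)
    (H := fun y => Tr.car (enc y.1.2.2.1)) (CC.comp Lin.car (CC.enc' (by fun_prop)))
    (fun a => enc (F a))
  refine CC.ofEncOut (F := fun a => (enc (F a) : Tr)) (h.mono' (C + d1 + 2 * d2 + 20) ?_)
    (fun _ => rfl)
  intro a T hS
  have hfin : Rn ((true, [], [F a], []), [], [], []) (sz (F a) + 20)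
      ((false, [], [F a], []), [], [], []) :=
    .step _ _ 0 0 _ rfl (by simp [rS, minp, rC])
      (by simpa [mstep, minp, rC, rF, rRet] using MRun.stop _ _ rfl)
      (by simp [minp, rC, sz_pair, sz_cons, sz_nil]; omega)
  refine ⟨_, ⟨trivial, _, key _ a T (Nat.lt_succ_self _) hS _ _ _ hfin, rfl⟩, ?_⟩
  have : sz (F a) ≤ (d1 + 2 * d2) * (T + sz a + 1) := by
    obtain ⟨h1, h2, h3⟩ := H a T hS
    cases hba : base a
    · obtain ⟨h4, T0, τ, g1, g2, g3, g4, g5, g6⟩ := h3 hba
      have := hd2 _ _ g3
      have := g4 n le_rfl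
      rw [h4]
      have : d2 * (T0 + sz (rst init arg post F a n) + 1) ≤ d2 * (2 * (T + sz a + 1)) :=
        Nat.mul_le_mul_left _ (by omega)
      nlinarith
    · obtain ⟨h4, h5⟩ := h2 hba
      have := hd1 _ _ h4
      rw [h5]; nlinarith
  nlinarith

end Crest.Agent.H9.IM
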