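import Crest.Agent.H6.IMCore
import Crest.Agent.H3.IMArith

set_option autoImplicit false
set_option linter.unusedSectionVars false
set_option linter.unusedVariables false
set_option linter.unusedSimpArgs false

/-! Row 326: bottom-up merge sort. -/

namespace Crest.Agent.H3.Ptime
open Function

variable {α : Type} [Enc α]

def kle (p : (ℕ × α) × (ℕ × α)) : Bool := decide (p.1.1 ≤ p.2.1)

def kmerge (a b : List (ℕ × α)) : List (ℕ × α) := List.merge a b (fun x y => kle (x, y))

def rnd : List (List (ℕ × α)) → List (List (ℕ × α))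
  | [] => []
  | [a] => [a]
  | a :: b :: L => kmerge a b :: rnd L

def rndF (s : List (List (ℕ × α))) (x : List (ℕ × α)) :
    List (List (ℕ × α)) × List (List (ℕ × α)) :=
  lcase s ([x], []) (fun a _ => ([], [kmerge a x]))

theorem rnd_eq : ∀ L : List (List (ℕ × α)), (mapAcc rndF [] L).2 ++ (mapAcc rndF [] L).1 = rnd L
  | [] => rfl
  | [a] => rfl
  | a :: b :: L => by simp [mapAcc, rndF, rnd, rnd_eq L]

theorem rnd_perm : ∀ L : List (List (ℕ × α)), (rnd L).flatten.Perm L.flatten
  | [] => .refl _
  | [a] => .refl _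
  | a :: b :: L => by
    simp only [rnd, List.flatten_cons, ← List.append_assoc]
    exact (List.merge_perm_append _).append (rnd_perm L)

theorem rnd_length : ∀ L : List (List (ℕ × α)), (rnd L).length = (L.length + 1) / 2
  | [] => by simp [rnd]
  | [a] => by simp [rnd]
  | a :: b :: L => by simp [rnd, rnd_length L]; omega

theorem rnd_sorted : ∀ L : List (List (ℕ × α)), (∀ l ∈ L, l.Pairwise (fun a b => a.1 ≤ b.1)) →
    ∀ l ∈ rnd L, l.Pairwise (fun a b => a.1 ≤ b.1)
  | [] => fun h => h
  | [a] => fun h => h
  | a :: b :: L => fun h l hl => by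
    simp only [rnd, List.mem_cons] at hl
    rcases hl with rfl | hl
    · have := List.pairwise_merge (le := fun x y : ℕ × α => kle (x, y))
        (fun a b c h1 h2 => by simp [kle] at *; omega) (fun a b => by simp [kle]; omega) a b
        (by simpa [kle] using h a (by simp)) (by simpa [kle] using h b (by simp))
      simpa [kle, kmerge] using this
    · exact rnd_sorted L (fun l hl => h l (by simp [hl])) l hl

theorem cc_rnd : CC (rnd (α := α))
    (fun L T => ∃ w, (∀ a ∈ L.flatten, sz a ≤ w) ∧ L.flatten.length * w ≤ T) := by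
  have hm := CC.merge (le := kle (α := α)) (S := fun _ _ => True) (by unfold kle; fun_prop)
  let S2 : List (ℕ × α) × List (ℕ × α) → ℕ → Prop := fun x T =>
    ∃ w : ℕ, (∀ a ∈ x.1 ++ x.2, sz a ≤ w) ∧ (x.1.length + x.2.length) * w ≤ T
  have hm' : CC (fun x : List (ℕ × α) × List (ℕ × α) => kmerge x.1 x.2) S2 :=
    hm.mono (fun x T ⟨w, h1, h2⟩ => ⟨0, w, fun _ _ _ _ => trivial, h1, by simpa using h2⟩)
  have hF : CC (fun p : List (List (ℕ × α)) × List (ℕ × α) => rndF p.1 p.2)
      (fun p T => ∀ a t, p.1 = a :: t → S2 (a, p.2) T) := by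
    unfold rndF
    refine CC.lcases (S1 := fun _ _ => True) (S2 := fun q T => S2 (q.2.1, q.1.2) T)
      (by fun_prop) (by fun_prop) ?_ (fun _ _ _ _ => trivial) (fun p T a t h e => h a t e)
    exact (CC.const _).pair ((hm'.comp2 (f := fun q : (List (List (ℕ × α)) × List (ℕ × α)) ×
      List (ℕ × α) × List (List (ℕ × α)) => (q.2.1, q.1.2)) (by fun_prop)
        (fun _ _ h => h)).cons (CC.const _))
  have h := (CC.mapAcc hF).comp3 (f := fun L : List (List (ℕ × α)) => ([], L))
    (S := fun L T => ∃ w, (∀ a ∈ L.flatten, sz a ≤ w) ∧ L.flatten.length * w ≤ T) (by fun_prop) 3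
    (fun L T ⟨w, h1, h2⟩ => ⟨L.flatten.length * w + 3 * sz L, ?_, by omega⟩)
  · exact (h.snd.append h.fst).of_eq rnd_eq
  · clear h2
    have key : ∀ (n : ℕ) (L : List (List (ℕ × α))), L.length ≤ n → (∀ a ∈ L.flatten, sz a ≤ w) →
        AccRun rndF (fun p T => ∀ a t, p.1 = a :: t → S2 (a, p.2) T) [] L
          (L.flatten.length * w + 3 * sz L) := by
      intro n
      induction n using Nat.strong_induction_on with
      | _ n ih =>
        intro L hL hw
        match L, hL, hw with
        | [], _, _ => exact .nil _ _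
        | [a], _, _ =>
          exact .cons _ _ _ 0 0 _ (by simp) (.nil _ _) (by simp [sz_nil, sz_cons]; omega)
        | a :: b :: L, hL, hw =>
          have h3 := ih L.length (by simp at hL; omega) L le_rfl
            (fun x hx => hw x (by simp at hx ⊢; tauto))
          refine .cons _ _ _ 0 _ _ (by simp) (.cons _ _ _ ((a.length + b.length) * w) _ _ ?_ h3
            le_rfl) ?_
          · intro a' t e
            simp [rndF] at e
            rw [← e.1]
            exact ⟨w, fun x hx => hw x (by simp at hx ⊢; tauto), le_rfl⟩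
          · simp only [rndF, lcase_nil, sz_cons, sz_nil, List.flatten_cons, List.length_append]
            nlinarith
    exact key _ L le_rfl h1

def ksort (l : List (ℕ × α)) : List (ℕ × α) :=
  (rnd^[Nat.clog 2 l.length] (l.map (fun x => [x]))).flatten

theorem flatten_map_single {β : Type} (l : List β) : (l.map (fun x => [x])).flatten = l := by
  induction l with
  | nil => rfl
  | cons x l ih => simp [ih]

theorem rnd_iter_perm (L : List (List (ℕ × α))) (i : ℕ) : (rnd^[i] L).flatten.Perm L.flatten := by
  induction i with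
  | zero => exact .refl _
  | succ i ih => rw [iterate_succ_apply']; exact (rnd_perm _).trans ih

theorem rnd_iter_sorted (L : List (List (ℕ × α))) (h : ∀ l ∈ L, l.Pairwise (fun a b => a.1 ≤ b.1))
    (i : ℕ) : ∀ l ∈ rnd^[i] L, l.Pairwise (fun a b => a.1 ≤ b.1) := by
  induction i with
  | zero => exact h
  | succ i ih => rw [iterate_succ_apply']; exact rnd_sorted _ ih

theorem rnd_iter_length (L : List (List (ℕ × α))) (i : ℕ) (m : ℕ) :
    (rnd^[i] L).length ≤ m ↔ L.length ≤ m * 2 ^ i := by
  induction i generalizing m with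
  | zero => simp
  | succ i ih =>
    rw [iterate_succ_apply', rnd_length, pow_succ, ← mul_assoc, mul_right_comm, ← ih]; omega

theorem ksort_perm (l : List (ℕ × α)) : (ksort l).Perm l := by
  have := rnd_iter_perm (l.map (fun x => [x])) (Nat.clog 2 l.length)
  rwa [flatten_map_single] at this

theorem ksort_sorted (l : List (ℕ × α)) : (ksort l).Pairwise (fun a b => a.1 ≤ b.1) := by
  have h1 := rnd_iter_sorted (l.map (fun x => [x]))
    (by intro m hm; obtain ⟨x, _, rfl⟩ := List.mem_map.1 hm; simp) (Nat.clog 2 l.length)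
  have h2 := (rnd_iter_length (l.map (fun x => [x])) (Nat.clog 2 l.length) 1).2
    (by simpa using Nat.le_pow_clog (by norm_num) _)
  unfold ksort
  generalize rnd^[Nat.clog 2 l.length] (l.map (fun x => [x])) = L at *
  match L, h1, h2 with
  | [], _, _ => simp
  | [a], h1, _ => simpa using h1
  | a :: b :: L, _, h2 => simp at h2

theorem cc_ksort : CC (ksort (α := α)) (fun l T => ∃ w, (∀ x ∈ l, sz x ≤ w) ∧
    (Nat.log 2 l.length + 1) * l.length * (w + 1) ≤ T) := by
  have h := CC.loop (cont := fun L : List (List (ℕ × α)) => !L.tail.isEmpty)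
    (Sc := fun _ _ => True) cc_rnd (by fun_prop) (fun L => Nat.clog 2 L.length)
  have h2 := h.comp3 (f := fun l : List (ℕ × α) => l.map (fun x => [x]))
    (S := fun l T => ∃ w, (∀ x ∈ l, sz x ≤ w) ∧
    (Nat.log 2 l.length + 1) * l.length * (w + 1) ≤ T) (by fun_prop) 8 (fun l T ⟨w, h1, h2⟩ =>
      ⟨(Nat.clog 2 l.length + 1) * (l.length * w + (l.length * (w + 1) + 1 + 2 * l.length)),
        ⟨?_, ?_, fun _ => l.length * w, ?_, ?_⟩, ?_⟩)
  · exact h2.flatten.of_eq (fun l => by simp [ksort])
  · intro i hi
    have := (rnd_iter_length (l.map (fun x => [x])) i 1).not.2 (by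
      simp only [List.length_map, one_mul, not_le] at hi ⊢
      exact (Nat.lt_clog_iff_pow_lt (by norm_num)).1 hi)
    generalize rnd^[i] (l.map (fun x => [x])) = L at *
    match L, this with
    | [], h => simp at h
    | [a], h => simp at h
    | a :: b :: L, _ => simp
  · have := (rnd_iter_length (l.map (fun x => [x])) (Nat.clog 2 (l.map (fun x => [x])).length) 1).2
      (by simpa using Nat.le_pow_clog (by norm_num) _)
    generalize rnd^[Nat.clog 2 (l.map (fun x => [x])).length] (l.map (fun x => [x])) = L at *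
    match L, this with
    | [], h => simp
    | [a], h => simp
    | a :: b :: L, h => simp at h
  · intro i _
    have hp := rnd_iter_perm (l.map (fun x => [x])) i
    rw [flatten_map_single] at hp
    exact ⟨trivial, fun _ => ⟨w, fun a ha => h1 a (hp.subset ha), by rw [hp.length_eq]⟩⟩
  · rw [List.length_map]
    refine le_trans (Finset.sum_le_card_nsmul _ _
      (l.length * w + (l.length * (w + 1) + 1 + 2 * l.length)) (fun i _ => ?_)) (by simp)
    have hp := rnd_iter_perm (l.map (fun x => [x])) i
    rw [flatten_map_single] at hp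
    have h3 := (rnd_iter_length (l.map (fun x => [x])) i l.length).2
      (by simpa using Nat.le_mul_of_pos_right _ (by positivity))
    rw [sz_flatten, sz_perm hp]
    have := sz_le_mul l w h1
    simp only [List.length_map] at h3 ⊢
    omega
  · rcases Nat.eq_zero_or_pos l.length with h0 | h0
    · simp [h0]; omega
    · have h3 : Nat.clog 2 l.length ≤ Nat.log 2 l.length + 1 :=
        (Nat.clog_le_iff_le_pow (by norm_num)).2 (Nat.lt_pow_succ_log_self (by norm_num) _).le
      have h4 : l.length * w + (l.length * (w + 1) + 1 + 2 * l.length) ≤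
        4 * (l.length * (w + 1)) := by nlinarith
      calc _ ≤ (2 * (Nat.log 2 l.length + 1)) * (4 * (l.length * (w + 1))) :=
            Nat.mul_le_mul (by omega) h4
        _ = 8 * ((Nat.log 2 l.length + 1) * l.length * (w + 1)) := by ring
        _ ≤ _ := by omega

end Crest.Agent.H3.Ptime

namespace Crest.Agent.H9.IM
open Crest.Agent.H3.Ptime

theorem sortStmt : SortStmt :=
  ⟨ksort, 0, fun l => ⟨ksort_perm l, ksort_sorted l⟩,
    cc_ksort.mono (fun l T ⟨Λ, w, h1, h2⟩ => ⟨w, fun x hx => (h1 x hx).2, by simpa using h2⟩)⟩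

end Crest.Agent.H9.IM
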