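import Crest.Agent.H9.IMSwI
import Crest.Agent.H8.IMAdd

/-! Row 326, `MoveStmt`: elementary cheap index maps. -/

set_option autoImplicit false
set_option linter.unusedVariables false

namespace Crest.Agent.H6.SW
open Crest.Agent.H3.Ptime Crest.Agent.H9.IM Crest.Agent.H9.IM.SW

theorem setf_mono {lo L i j v v' : ℕ} (hlo : 0 < lo) (hv : v < L) (hv' : v' < L) (hij : i ≤ j)
    (h : i / (lo * L) = j / (lo * L) →
      (fld lo L i < fld lo L j → v < v') ∧ (fld lo L i = fld lo L j → v = v')) :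
    setf lo L i v ≤ setf lo L j v' := by
  rcases (Nat.div_le_div_right (c := lo * L) hij).lt_or_eq with h1 | h1
  · rw [← setf_div (i := i) hlo hv, ← setf_div (i := j) hlo hv'] at h1
    exact (Nat.lt_of_div_lt_div h1).le
  · obtain ⟨h2, h3⟩ := h h1
    have d1 := fld_decomp lo L i
    have d2 := fld_decomp lo L j
    rw [setf_eq, setf_eq, h1]
    rw [h1] at d1
    have m1 := Nat.mod_lt i hlo
    have m2 := Nat.mod_lt j hlo
    rcases lt_trichotomy (fld lo L i) (fld lo L j) with h4 | h4 | h4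
    · have := Nat.mul_le_mul_left lo (Nat.succ_le_of_lt (h2 h4))
      rw [Nat.mul_succ] at this; omega
    · rw [h3 h4]; rw [h4] at d1; omega
    · have := Nat.mul_le_mul_left lo (Nat.succ_le_of_lt h4)
      rw [Nat.mul_succ] at this; omega

variable {Q : Type} [Enc Q]

theorem pc_setf (hA : ArrStmt) (lo L : Q → ℕ) (g κ : Q → ℕ → ℕ) (c : ℕ) (h1 : PT lo) (h2 : PT L)
    (h3 : PT (fun x : Q × ℕ => g x.1 x.2)) (h4 : PT (fun x : Q × ℕ => κ x.1 x.2))
    (P : Q → ℕ → Prop) (hP : ∀ q N, P q N → 0 < lo q ∧ lo q * L q ∣ N ∧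
      (∀ i, g q i < L q ∧ κ q i < c) ∧ ∀ i j, i / (lo q * L q) = j / (lo q * L q) → κ q i = κ q j →
        (fld (lo q) (L q) i < fld (lo q) (L q) j → g q i < g q j) ∧
        (fld (lo q) (L q) i = fld (lo q) (L q) j → g q i = g q j)) :
    PC (fun q i => setf (lo q) (L q) i (g q i)) P (fun _ => 0) := by
  refine hA.pmono (hA.ppull (fun q i => setf (lo q) (L q) i (g q i)) κ c (by fun_prop) h4) id _ _ _ 0
    (by fun_prop) (fun q N hq => ?_)
  obtain ⟨a1, a2, a3, a4⟩ := hP q N hq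
  exact ⟨⟨fun i hi => ⟨(a3 i).2, setf_lt a1 (a3 i).1 a2 hi⟩, fun i j hij _ hc =>
    setf_mono a1 (a3 i).1 (a3 j).1 hij fun h => a4 i j h hc⟩, fun _ _ => rfl, le_rfl, by simp⟩

/-- `y ↦ (c y + f) mod L` with `f` depending on the higher part only -/
theorem pc_aff (hA : ArrStmt) (lo L : Q → ℕ) (f : Q → ℕ → ℕ) {c : ℕ} (hc : 0 < c) (h1 : PT lo)
    (h2 : PT L) (h3 : PT (fun x : Q × ℕ => f x.1 x.2)) (P : Q → ℕ → Prop)
    (hP : ∀ q N, P q N → 0 < lo q ∧ 0 < L q ∧ lo q * L q ∣ N ∧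
      ∀ i j, i / (lo q * L q) = j / (lo q * L q) → f q i = f q j) :
    PC (fun q i => setf (lo q) (L q) i ((c * fld (lo q) (L q) i + f q i % L q) % L q)) P
      (fun _ => 0) := by
  refine pc_setf hA lo L _ (fun q i => (c * fld (lo q) (L q) i + f q i % L q) / L q) (c + 1) h1 h2
    (by fun_prop) (by fun_prop) P fun q N hq => ?_
  obtain ⟨a1, a2, a3, a4⟩ := hP q N hq
  refine ⟨a1, a3, fun i => ⟨Nat.mod_lt _ a2, ?_⟩, fun i j h hk => ⟨fun h' => ?_, fun h' => ?_⟩⟩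
  · rw [Nat.div_lt_iff_lt_mul a2]
    have := Nat.mul_le_mul_left c (fld_lt (lo := lo q) (i := i) a2).le
    have := Nat.mod_lt (f q i) a2
    rw [add_mul]; omega
  · have e1 := Nat.div_add_mod (c * fld (lo q) (L q) i + f q i % L q) (L q)
    have e2 := Nat.div_add_mod (c * fld (lo q) (L q) j + f q j % L q) (L q)
    have := Nat.mul_lt_mul_of_pos_left h' hc
    rw [hk] at e1
    rw [a4 i j h] at e1 ⊢
    omega
  · rw [h', a4 i j h]

/-- the multiple of `L` making `z + t L` divisible by `c` -/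
def tt (c L z : ℕ) : ℕ := (c - z % c) * L ^ (c.totient - 1) % c

theorem tt_dvd {c L : ℕ} (hc : 0 < c) (h : L.Coprime c) (z : ℕ) : c ∣ z + tt c L z * L := by
  have h1 : L ^ c.totient ≡ 1 [MOD c] := Nat.ModEq.pow_totient h
  have h2 : L ^ (c.totient - 1) * L = L ^ c.totient := by
    rw [← pow_succ, Nat.sub_add_cancel (Nat.totient_pos.2 hc)]
  have h3 : tt c L z * L ≡ (c - z % c) * 1 [MOD c] := by
    refine ((Nat.mod_modEq _ _).mul_right L).trans ?_
    rw [mul_assoc, h2]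
    exact h1.mul_left _
  have h4 : z + tt c L z * L ≡ z % c + (c - z % c) * 1 [MOD c] :=
    (Nat.mod_modEq z c).symm.add h3
  rw [mul_one, Nat.add_sub_cancel' (Nat.mod_lt _ hc).le] at h4
  exact (Nat.modEq_zero_iff_dvd).1 (h4.trans (by simp [Nat.ModEq]))

theorem tt_lt {c L z : ℕ} (hc : 0 < c) (hz : z < L) : (z + tt c L z * L) / c < L := by
  rw [Nat.div_lt_iff_lt_mul hc]
  have h1 : tt c L z + 1 ≤ c := Nat.mod_lt _ hc
  have := Nat.mul_le_mul_right L h1
  rw [add_mul, mul_comm c] at this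
  omega

theorem pc_inv (hA : ArrStmt) (lo L : Q → ℕ) {c : ℕ} (hc : 0 < c) (h1 : PT lo) (h2 : PT L)
    (P : Q → ℕ → Prop) (hP : ∀ q N, P q N → 0 < lo q ∧ 0 < L q ∧ lo q * L q ∣ N ∧ (L q).Coprime c) :
    PC (fun q i => setf (lo q) (L q) i
      ((fld (lo q) (L q) i + tt c (L q) (fld (lo q) (L q) i) * L q) / c)) P (fun _ => 0) := by
  have ht : PT (fun x : Q × ℕ => tt c (L x.1) (fld (lo x.1) (L x.1) x.2)) := by
    unfold tt
    exact PT.mod (PT.mul (by fun_prop) (PT.pow (by fun_prop) (PT.const _) (PB.const _))) (PT.const _)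
  refine pc_setf hA lo L _ (fun q i => tt c (L q) (fld (lo q) (L q) i)) c h1 h2
    (PT.div (PT.add (by fun_prop) (PT.mul ht (by fun_prop))) (PT.const _)) ht P fun q N hq => ?_
  obtain ⟨a1, a2, a3, a4⟩ := hP q N hq
  refine ⟨a1, a3, fun i => ⟨tt_lt hc (fld_lt a2), Nat.mod_lt _ hc⟩,
    fun i j h hk => ⟨fun h' => ?_, fun h' => by rw [h']⟩⟩
  exact Nat.div_lt_div_of_lt_of_dvd (tt_dvd hc a4 _) (by rw [hk]; omega)

theorem rev_rev {lo L : ℕ} (hlo : 0 < lo) (hL : 0 < L) (i : ℕ) :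
    (i / lo * lo + (lo - 1 - i % lo)) / (lo * L) * (lo * L) +
      (lo * L - 1 - (i / lo * lo + (lo - 1 - i % lo)) % (lo * L)) =
      setf lo L i (L - 1 - fld lo L i) := by
  have m1 := Nat.mod_lt i hlo
  have m2 : fld lo L i < L := fld_lt hL
  have d1 := fld_decomp lo L i
  have d2 := Nat.mod_add_div' i lo
  have e : i / lo * lo + (lo - 1 - i % lo) =
      ((lo - 1 - i % lo) + lo * fld lo L i) + lo * L * (i / (lo * L)) := by omega
  have m3 := Nat.mul_le_mul_left lo (Nat.succ_le_of_lt m2)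
  rw [Nat.mul_succ] at m3
  have hlt : (lo - 1 - i % lo) + lo * fld lo L i < lo * L := by omega
  rw [e, Nat.add_mul_div_left _ _ (by positivity), Nat.add_mul_mod_self_left, Nat.div_eq_of_lt hlt,
    Nat.mod_eq_of_lt hlt, setf_eq, zero_add, mul_comm (i / (lo * L))]
  obtain ⟨r, hr⟩ : ∃ r, L = fld lo L i + 1 + r := ⟨L - 1 - fld lo L i, by omega⟩
  have e2 : L - 1 - fld lo L i = r := by omega
  have e3 : lo * L = lo * fld lo L i + lo + lo * r := by
    conv_lhs => rw [hr]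
    ring
  rw [e2]
  omega

theorem pc_refl (hA : ArrStmt) (lo L : Q → ℕ) (h1 : PT lo) (h2 : PT L)
    (P : Q → ℕ → Prop) (hP : ∀ q N, P q N → 0 < lo q ∧ 0 < L q ∧ lo q * L q ∣ N) :
    PC (fun q i => setf (lo q) (L q) i (L q - 1 - fld (lo q) (L q) i)) P (fun _ => 0) := by
  have p1 : PC (fun q i => i / lo q * lo q + (lo q - 1 - i % lo q)) P (fun _ => 0) :=
    hA.pmono hA.rev lo _ _ _ 0 h1 fun q N hq => ⟨⟨(hP q N hq).1,
      (dvd_mul_right _ _).trans (hP q N hq).2.2⟩, fun _ _ => rfl, le_rfl, by simp⟩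
  have p2 : PC (fun q i => i / (lo q * L q) * (lo q * L q) + (lo q * L q - 1 - i % (lo q * L q))) P
      (fun _ => 0) :=
    hA.pmono hA.rev (fun q => lo q * L q) _ _ _ 0 (h1.mul h2) fun q N hq =>
      ⟨⟨Nat.mul_pos (hP q N hq).1 (hP q N hq).2.1, (hP q N hq).2.2⟩, fun _ _ => rfl, le_rfl, by simp⟩
  exact hA.pmono (hA.pcomp p2 p1) id _ _ _ 0 (by fun_prop) fun q N hq =>
    ⟨hq, fun i _ => rev_rev (hP q N hq).1 (hP q N hq).2.1 i, le_rfl, by simp⟩

theorem swp_add {x z L : ℕ} (h : z * L ∣ x) (i : ℕ) :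
    swp x z L i + fld z L i * z + fld x L i * x = i + fld x L i * z + fld z L i * x := by
  have a1 := setf_add x L i (fld z L i)
  have a2 := setf_add z L (setf x L i (fld z L i)) (fld x L i)
  rw [fld_setf_low h] at a2
  unfold swp; omega

theorem fld_swp_hi {x z L : ℕ} (hz : 0 < z) (hx : 0 < x) (hL : 0 < L) (h : z * L ∣ x) (i : ℕ) :
    fld x L (swp x z L i) = fld z L i := by
  unfold swp
  rw [fld_setf_high hz (fld_lt hL) h, fld_setf_same hx (fld_lt hL)]

theorem fld_swp_lo {x z L : ℕ} (hz : 0 < z) (hL : 0 < L) (i : ℕ) :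
    fld z L (swp x z L i) = fld x L i := fld_setf_same hz (fld_lt hL)

theorem swp_lt {x z L N i : ℕ} (hz : 0 < z) (hx : 0 < x) (hL : 0 < L) (h : z * L ∣ x)
    (hN : x * L ∣ N) (hi : i < N) : swp x z L i < N :=
  setf_lt hz (fld_lt hL) (h.trans ((dvd_mul_right _ _).trans hN)) (setf_lt hx (fld_lt hL) hN hi)

theorem pc_small (hA : ArrStmt) (x z L : Q → ℕ) (C : ℕ) (h1 : PT x) (h2 : PT z) (h3 : PT L)
    (P : Q → ℕ → Prop) (hP : ∀ q N, P q N → 0 < z q ∧ 0 < L q ∧ L q ≤ C ∧ z q * L q ∣ x q ∧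
      x q * L q ∣ N ∧ 0 < N) : PC (fun q i => swp (x q) (z q) (L q) i) P (fun _ => 0) := by
  refine hA.pmono (hA.ppull (fun q i => swp (x q) (z q) (L q) i)
    (fun q i => fld (x q) (L q) i * C + fld (z q) (L q) i) (C * C) (by unfold swp; fun_prop)
    (by fun_prop)) id _ _ _ 0 (by fun_prop) (fun q N hq => ?_)
  obtain ⟨a1, a2, a3, a4, a5, a6⟩ := hP q N hq
  have hx : 0 < x q := Nat.pos_of_mul_pos_right (Nat.pos_of_dvd_of_pos a5 a6)
  refine ⟨⟨fun i hi => ⟨?_, swp_lt a1 hx a2 a4 a5 hi⟩, fun i j hij _ hc => ?_⟩, fun _ _ => rfl,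
    le_rfl, by simp⟩
  · have e1 : fld (x q) (L q) i + 1 ≤ C := (fld_lt a2).trans_le a3
    have e2 : fld (z q) (L q) i < C := (fld_lt a2).trans_le a3
    have := Nat.mul_le_mul_right C e1
    show fld (x q) (L q) i * C + fld (z q) (L q) i < _
    rw [add_mul] at this; omega
  · have e1 : fld (z q) (L q) i < C := (fld_lt a2).trans_le a3
    have e2 : fld (z q) (L q) j < C := (fld_lt a2).trans_le a3
    have hc' : fld (x q) (L q) i * C + fld (z q) (L q) i =
      fld (x q) (L q) j * C + fld (z q) (L q) j := hc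
    have e3 : fld (z q) (L q) i = fld (z q) (L q) j := by
      have := congrArg (· % C) hc'
      simpa [Nat.mul_add_mod', Nat.mod_eq_of_lt e1, Nat.mod_eq_of_lt e2] using this
    have e4 : fld (x q) (L q) i = fld (x q) (L q) j :=
      Nat.eq_of_mul_eq_mul_right (show 0 < C by omega) (by omega)
    have b1 := swp_add a4 i
    have b2 := swp_add a4 j
    rw [e3, e4] at b1
    show swp (x q) (z q) (L q) i ≤ swp (x q) (z q) (L q) j
    omega

theorem fld_mul (lo L1 L2 i : ℕ) : fld lo (L1 * L2) i = fld lo L1 i + L1 * fld (lo * L1) L2 i := by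
  unfold fld; rw [Nat.mod_mul, Nat.div_div_eq_div_mul]

theorem swp_split {x z L1 L2 : ℕ} (hz : 0 < z) (hx : 0 < x) (h1 : 0 < L1) (h2 : 0 < L2)
    (h : z * (L1 * L2) ∣ x) (i : ℕ) :
    swp x z (L1 * L2) i = swp (x * L1) (z * L1) L2 (swp x z L1 i) := by
  have d1 : z * L1 ∣ x := (mul_dvd_mul_left _ (dvd_mul_right _ _)).trans h
  have d2 : z * L1 * L2 ∣ x := by rwa [mul_assoc]
  have b1 := swp_add h i
  have b2 := swp_add d1 i
  have b3 := swp_add (d2.mul_right L1) (swp x z L1 i)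
  have e1 : fld (x * L1) L2 (swp x z L1 i) = fld (x * L1) L2 i := by
    unfold swp
    rw [fld_setf_high hz (fld_lt h1) (d1.mul_right _), fld_setf_high hx (fld_lt h1) dvd_rfl]
  have e2 : fld (z * L1) L2 (swp x z L1 i) = fld (z * L1) L2 i := by
    unfold swp
    rw [fld_setf_high hz (fld_lt h1) dvd_rfl, fld_setf_low d2]
  rw [e1, e2] at b3
  rw [fld_mul, fld_mul] at b1
  zify at b1 b2 b3 ⊢
  linear_combination b1 - b2 - b3

end Crest.Agent.H6.SW
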