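import Mathlib

/-! Labelled bipartite graphs depending on a colour preserving permutation: darts, walks, girth. -/

namespace Crest.Agent.H6.Kap

open Finset

/-- The fixed combinatorial data: edges with colours, white ends and black slots. -/
structure Mdl (P E W B C : Type) where
  col : E → C
  lab : C → P
  src : E → W
  tg : E → B
  hs : ∀ e e', src e = src e' → lab (col e) = lab (col e') → e = e'
  ht : ∀ e e', tg e = tg e' → lab (col e) = lab (col e') → e = e'

/-- Reversal of a dart, also inversion of a signed letter. -/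
def rv {α : Type} (d : α × Bool) : α × Bool := (d.1, !d.2)

@[simp] theorem rv_rv {α : Type} (d : α × Bool) : rv (rv d) = d := by simp [rv]
@[simp] theorem rv_fst {α : Type} (d : α × Bool) : (rv d).1 = d.1 := rfl
@[simp] theorem rv_snd {α : Type} (d : α × Bool) : (rv d).2 = !d.2 := rfl
theorem rv_ne {α : Type} (d : α × Bool) : rv d ≠ d := by
  intro h; have := congrArg Prod.snd h; simp at this
theorem rv_inj {α : Type} {d d' : α × Bool} (h : rv d = rv d') : d = d' := by
  have := congrArg rv h; simpa using this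
theorem eq_or_rv {α : Type} {d d' : α × Bool} (h : d.1 = d'.1) : d' = d ∨ d' = rv d := by
  obtain ⟨a, b⟩ := d; obtain ⟨a', b'⟩ := d'
  simp only at h; subst h
  cases b <;> cases b' <;> simp [rv]

variable {P E W B C : Type} (M : Mdl P E W B C)

namespace Mdl

/-- colour preserving permutations -/
def CP (π : Equiv.Perm E) : Prop := ∀ e, M.col (π e) = M.col e

/-- tail of a dart -/
def tl (π : Equiv.Perm E) (d : E × Bool) : W ⊕ B :=
  match d.2 with
  | true => Sum.inl (M.src d.1)
  | false => Sum.inr (M.tg (π d.1))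

/-- head of a dart -/
def hd (π : Equiv.Perm E) (d : E × Bool) : W ⊕ B := M.tl π (rv d)

/-- signed label of a dart -/
def dl (d : E × Bool) : P × Bool := (M.lab (M.col d.1), d.2)

variable {M}

@[simp] theorem tl_t (π : Equiv.Perm E) (e : E) : M.tl π (e, true) = Sum.inl (M.src e) := rfl
@[simp] theorem tl_f (π : Equiv.Perm E) (e : E) : M.tl π (e, false) = Sum.inr (M.tg (π e)) := rfl
@[simp] theorem hd_t (π : Equiv.Perm E) (e : E) : M.hd π (e, true) = Sum.inr (M.tg (π e)) := rfl
@[simp] theorem hd_f (π : Equiv.Perm E) (e : E) : M.hd π (e, false) = Sum.inl (M.src e) := rfl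
@[simp] theorem tl_rv (π : Equiv.Perm E) (d : E × Bool) : M.tl π (rv d) = M.hd π d := rfl
@[simp] theorem hd_rv (π : Equiv.Perm E) (d : E × Bool) : M.hd π (rv d) = M.tl π d := by
  simp [hd]
@[simp] theorem dl_rv (d : E × Bool) : M.dl (rv d) = rv (M.dl d) := rfl

theorem tl_ne_hd (π : Equiv.Perm E) (d : E × Bool) : M.tl π d ≠ M.hd π d := by
  obtain ⟨e, b⟩ := d; cases b <;> simp

theorem isLeft_tl (π : Equiv.Perm E) (d : E × Bool) : (M.tl π d).isLeft = d.2 := by
  obtain ⟨e, b⟩ := d; cases b <;> simp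

theorem isLeft_hd (π : Equiv.Perm E) (d : E × Bool) : (M.hd π d).isLeft = !d.2 := by
  obtain ⟨e, b⟩ := d; cases b <;> simp

/-- The graph is folded: a dart is determined by its tail and the letter. -/
theorem dart_inj {π : Equiv.Perm E} (hπ : M.CP π) {d d' : E × Bool} (h1 : M.tl π d = M.tl π d')
    (h2 : (M.dl d).1 = (M.dl d').1) : d = d' := by
  obtain ⟨e, b⟩ := d; obtain ⟨e', b'⟩ := d'
  simp only [dl] at h2
  cases b <;> cases b' <;> simp at h1
  · have := M.ht _ _ h1 (by rw [hπ, hπ, h2])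
    simp [π.injective this]
  · simp [M.hs _ _ h1 h2]

theorem dart_inj' {π : Equiv.Perm E} (hπ : M.CP π) {d d' : E × Bool} (h1 : M.hd π d = M.hd π d')
    (h2 : (M.dl d).1 = (M.dl d').1) : d = d' :=
  rv_inj (dart_inj hπ (d := rv d) (d' := rv d') h1 h2)

variable (M)

/-- walks with vertices `τ 0, …, τ n` and darts `z 0, …, z (n-1)` -/
def Wk (π : Equiv.Perm E) (τ : ℕ → W ⊕ B) (z : ℕ → E × Bool) (n : ℕ) : Prop :=
  ∀ i < n, M.tl π (z i) = τ i ∧ M.hd π (z i) = τ (i + 1)

/-- no closed reduced walk of length between 1 and `g` -/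
def Girth (π : Equiv.Perm E) (g : ℕ) : Prop :=
  ∀ τ z n, 0 < n → n ≤ g → M.Wk π τ z n → (∀ i, i + 1 < n → z (i + 1) ≠ rv (z i)) → τ n ≠ τ 0

end Mdl

/-- reduced dart sequences -/
def Red {α : Type} (z : ℕ → α × Bool) (n : ℕ) : Prop := ∀ i, i + 1 < n → z (i + 1) ≠ rv (z i)

theorem Red.shift {α : Type} {z : ℕ → α × Bool} {n : ℕ} (h : Red z n) (a k : ℕ) (hk : a + k ≤ n) :
    Red (fun i => z (a + i)) k := fun i hi => h (a + i) (by omega)

theorem Red.rev {α : Type} {z : ℕ → α × Bool} {n : ℕ} (h : Red z n) :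
    Red (fun i => rv (z (n - 1 - i))) n := by
  intro i hi h'
  have h1 := h (n - 1 - (i + 1)) (by omega)
  rw [show n - 1 - (i + 1) + 1 = n - 1 - i by omega] at h1
  apply h1
  have := rv_inj h'
  simp only at this
  rw [this, rv_rv]

/-- concatenation of sequences -/
def cat {α : Type} (n : ℕ) (f f' : ℕ → α) (i : ℕ) : α := if i < n then f i else f' (i - n)

theorem Red.cat {α : Type} {z z' : ℕ → α × Bool} {n n' : ℕ} (h : Red z n) (h' : Red z' n')
    (hj : 0 < n → 0 < n' → z' 0 ≠ rv (z (n - 1))) : Red (cat n z z') (n + n') := by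
  intro i hi
  unfold Kap.cat
  by_cases h1 : i + 1 < n
  · rw [if_pos h1, if_pos (by omega)]; exact h i h1
  · rw [if_neg h1]
    by_cases h2 : i < n
    · rw [if_pos h2, show i + 1 - n = 0 by omega, show i = n - 1 by omega]
      exact hj (by omega) (by omega)
    · rw [if_neg h2, show i + 1 - n = i - n + 1 by omega]
      exact h' _ (by omega)

namespace Mdl
variable {M} {π : Equiv.Perm E}

theorem Wk.shift {τ : ℕ → W ⊕ B} {z : ℕ → E × Bool} {n : ℕ} (h : M.Wk π τ z n) (a k : ℕ)
    (hk : a + k ≤ n) : M.Wk π (fun i => τ (a + i)) (fun i => z (a + i)) k :=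
  fun i hi => h (a + i) (by omega)

theorem Wk.rev {τ : ℕ → W ⊕ B} {z : ℕ → E × Bool} {n : ℕ} (h : M.Wk π τ z n) :
    M.Wk π (fun i => τ (n - i)) (fun i => rv (z (n - 1 - i))) n := by
  intro i hi
  have := h (n - 1 - i) (by omega)
  simp only [tl_rv, hd_rv]
  rw [this.1, this.2, show n - 1 - i + 1 = n - i by omega, show n - (i + 1) = n - 1 - i by omega]
  exact ⟨rfl, rfl⟩

theorem Wk.cat {τ τ' : ℕ → W ⊕ B} {z z' : ℕ → E × Bool} {n n' : ℕ} (h : M.Wk π τ z n)
    (h' : M.Wk π τ' z' n') (hj : τ n = τ' 0) : M.Wk π (cat n τ τ') (cat n z z') (n + n') := by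
  intro i hi
  unfold Kap.cat
  by_cases h2 : i < n
  · rw [if_pos h2, if_pos h2]
    refine ⟨(h i h2).1, ?_⟩
    rw [(h i h2).2]
    by_cases h1 : i + 1 < n
    · rw [if_pos h1]
    · rw [if_neg h1, show i + 1 - n = 0 by omega, ← hj, show i + 1 = n by omega]
  · rw [if_neg h2, if_neg h2, if_neg (by omega), show i + 1 - n = i - n + 1 by omega]
    exact h' _ (by omega)

theorem cat_zero {α : Type} (n : ℕ) (f f' : ℕ → α) (hj : f n = f' 0) : cat n f f' 0 = f 0 := by
  unfold Kap.cat
  split_ifs with h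
  · rfl
  · rw [← (by simpa using hj : f n = f' (0 - n)), show n = 0 by omega]

theorem cat_end {α : Type} (n n' : ℕ) (f f' : ℕ → α) : cat n f f' (n + n') = f' n' := by
  unfold Kap.cat
  rw [if_neg (by omega), show n + n' - n = n' by omega]

theorem Girth.mono {g g' : ℕ} (h : M.Girth π g) (hg : g' ≤ g) : M.Girth π g' :=
  fun τ z n h0 hn => h τ z n h0 (hn.trans hg)

/-- Two short reduced walks with the same ends agree. -/
theorem Girth.unique {g : ℕ} (hg : M.Girth π g) : ∀ (n n' : ℕ) (τ τ' : ℕ → W ⊕ B)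
    (z z' : ℕ → E × Bool), n + n' ≤ g → M.Wk π τ z n → M.Wk π τ' z' n' → Red z n → Red z' n' →
    τ 0 = τ' 0 → τ n = τ' n' → n = n' ∧ ∀ i < n, z i = z' i := by
  intro n
  induction n with
  | zero =>
    intro n' τ τ' z z' hn h h' r r' h0 h1
    refine ⟨?_, fun i hi => by omega⟩
    by_contra hne
    exact hg τ' z' n' (by omega) (by omega) h' r' (by rw [← h1, ← h0])
  | succ n ih =>
    intro n' τ τ' z z' hn h h' r r' h0 h1
    rcases Nat.eq_zero_or_pos n' with rfl | hn'
    · exact absurd (h1.trans h0.symm) (hg τ z (n + 1) (by omega) (by omega) h r)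
    by_cases hz : z 0 = z' 0
    · obtain ⟨m, rfl⟩ : ∃ m, n' = m + 1 := ⟨n' - 1, by omega⟩
      have := ih m (fun i => τ (1 + i)) (fun i => τ' (1 + i)) (fun i => z (1 + i))
        (fun i => z' (1 + i)) (by omega) (h.shift 1 n (by omega)) (h'.shift 1 m (by omega))
        (r.shift 1 n (by omega)) (r'.shift 1 m (by omega))
        (by simp only [add_zero]; rw [← (h 0 (by omega)).2, ← (h' 0 (by omega)).2, hz])
        (by rw [add_comm 1 n, add_comm 1 m, h1])
      refine ⟨by omega, fun i hi => ?_⟩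
      rcases Nat.eq_zero_or_pos i with rfl | hi0
      · exact hz
      · have := this.2 (i - 1) (by omega)
        simpa [show 1 + (i - 1) = i by omega] using this
    · exfalso
      have hj : (fun i => τ' (n' - i)) n' = τ 0 := by simp [h0]
      refine hg _ _ (n' + (n + 1)) (by omega) (by omega) (h'.rev.cat h hj)
        (r'.rev.cat r fun _ _ => ?_) ?_
      · simpa using hz
      · rw [cat_end, cat_zero n' (fun i => τ' (n' - i)) τ hj]; simpa using h1

/-- no multiple edges -/
theorem Girth.dart_eq {g : ℕ} (hg : M.Girth π g) (h2 : 2 ≤ g) {d d' : E × Bool}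
    (h1 : M.tl π d = M.tl π d') (h3 : M.hd π d = M.hd π d') : d = d' := by
  have := hg.unique 1 1 (fun i => if i = 0 then M.tl π d else M.hd π d)
    (fun i => if i = 0 then M.tl π d' else M.hd π d') (fun _ => d) (fun _ => d') h2
    (fun i hi => by simp [show i = 0 by omega]) (fun i hi => by simp [show i = 0 by omega])
    (fun i hi => by omega) (fun i hi => by omega) (by simpa using h1) (by simpa using h3)
  exact this.2 0 (by omega)

/-- vertices of a short reduced walk are distinct -/
theorem Girth.inj {g : ℕ} (hg : M.Girth π g) {τ : ℕ → W ⊕ B} {z : ℕ → E × Bool} {n : ℕ}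
    (hn : n ≤ g) (h : M.Wk π τ z n) (r : Red z n) {i j : ℕ} (hi : i ≤ n) (hj : j ≤ n)
    (hij : τ i = τ j) : i = j := by
  wlog hle : i ≤ j generalizing i j
  · exact (this hj hi hij.symm (by omega)).symm
  by_contra hne
  refine hg _ _ (j - i) (by omega) (by omega) (h.shift i (j - i) (by omega))
    (r.shift i (j - i) (by omega)) ?_
  simp [show i + (j - i) = j by omega, hij]

end Mdl

end Crest.Agent.H6.Kap
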