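import Mathlib

/-! Algebraic planarity of permutation maps: marks, Euler inequality, interlacing. -/

namespace Crest.Agent.H6.Kap

open Finset Module

variable {S : Type}

/-- Every cycle of the truncated dual graph is a sum of faces and vertices. -/
def Planar (φ μ : Equiv.Perm S) : Prop :=
  ∀ ξ : S → ZMod 2, (∀ x, ξ x + ξ (φ x) = ξ (μ x) + ξ (φ (μ x))) → (∀ x, μ x = x → ξ (φ x) = ξ x) →
    ∃ u : S → ZMod 2, (∀ x, u (φ x) = u x) ∧ ∀ x, ξ (φ (μ x)) + u (φ (μ x)) = ξ x + u x

theorem marks (σ : Equiv.Perm S) (X : Finset S) (hX : ∀ x ∈ X, σ x ∈ X) (r : ℕ) (hr : 0 < r) :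
    ∃ Mk ⊆ X, r * Mk.card ≤ X.card ∧
      ∀ x ∈ X, (∃ i < 2 * r, (σ ^ i) x ∈ Mk) ∨ ∃ j, 0 < j ∧ j < r ∧ (σ ^ j) x = x := by
  classical
  have hp : ∀ i, ∀ x ∈ X, (σ ^ i) x ∈ X := by
    intro i
    induction i with
    | zero => simp
    | succ i ih => intro x hx; rw [pow_succ', Equiv.Perm.mul_apply]; exact hX _ (ih x hx)
  let Sep : Finset S → Prop := fun A => ∀ a ∈ A, ∀ b ∈ A, ∀ i < r, ∀ j < r,
    (σ ^ i) a = (σ ^ j) b → a = b ∧ i = j
  obtain ⟨A, hA, hmax⟩ := exists_max_image (X.powerset.filter Sep) card ⟨∅, by simp [Sep]⟩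
  obtain ⟨h1, h2⟩ := mem_filter.1 hA
  rw [mem_powerset] at h1
  refine ⟨A, h1, ?_, fun x hx => ?_⟩
  · rw [← card_range r, ← card_product]
    refine card_le_card_of_injOn (fun p => (σ ^ p.1) p.2) (fun p hq => ?_) fun p hp q hq e => ?_
    · exact mem_coe.2 (hp _ _ (h1 (mem_product.1 (mem_coe.1 hq)).2))
    · obtain ⟨a1, a2⟩ := mem_product.1 (mem_coe.1 hp)
      obtain ⟨b1, b2⟩ := mem_product.1 (mem_coe.1 hq)
      have := h2 _ a2 _ b2 _ (mem_range.1 a1) _ (mem_range.1 b1) e
      exact Prod.ext this.2 this.1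
  · by_cases hy : (σ ^ r) x ∈ A
    · exact Or.inl ⟨r, by omega, hy⟩
    have hn : ¬ Sep (insert ((σ ^ r) x) A) := fun hs => by
      have := hmax _ (mem_filter.2 ⟨mem_powerset.2 (insert_subset (hp r x hx) h1), hs⟩)
      rw [card_insert_of_notMem hy] at this; omega
    have k1 : ∀ b ∈ A, ∀ i < r, ∀ j < r, (σ ^ i) ((σ ^ r) x) = (σ ^ j) b →
        ∃ i < 2 * r, (σ ^ i) x ∈ A := by
      intro b hb i hi j hj e
      refine ⟨i + r - j, by omega, ?_⟩
      rw [← Equiv.Perm.mul_apply, ← pow_add, show i + r = j + (i + r - j) by omega, pow_add,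
        Equiv.Perm.mul_apply] at e
      rwa [(σ ^ j).injective e]
    have k2 : ∀ i j, i < j → j < r → (σ ^ i) ((σ ^ r) x) = (σ ^ j) ((σ ^ r) x) →
        ∃ j, 0 < j ∧ j < r ∧ (σ ^ j) x = x := by
      intro i j hij hj e
      refine ⟨j - i, by omega, by omega, (σ ^ (i + r)).injective ?_⟩
      rw [← Equiv.Perm.mul_apply, ← pow_add, show i + r + (j - i) = j + r by omega, pow_add, pow_add,
        Equiv.Perm.mul_apply, Equiv.Perm.mul_apply, e]
    simp only [Sep, not_forall] at hn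
    obtain ⟨a, ha, b, hb, i, hi, j, hj, e, hne⟩ := hn
    rcases mem_insert.1 ha with rfl | ha <;> rcases mem_insert.1 hb with rfl | hb
    · right
      rcases lt_trichotomy i j with c | c | c
      · exact k2 i j c hj e
      · exact absurd ⟨rfl, c⟩ hne
      · exact k2 j i c hi e.symm
    · exact Or.inl (k1 b hb i hi j hj e)
    · exact Or.inl (k1 a ha j hj i hi e.symm)
    · exact absurd (h2 a ha b hb i hi j hj e) hne

/-- invariant functions -/
def invFn (σ : Equiv.Perm S) : Submodule (ZMod 2) (S → ZMod 2) where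
  carrier := {u | ∀ x, u (σ x) = u x}
  add_mem' ha hb x := by simp [ha x, hb x]
  zero_mem' x := rfl
  smul_mem' c u hu x := by simp [hu x]

theorem inv_pow {α : Type} {σ : Equiv.Perm S} {u : S → α} (hu : ∀ x, u (σ x) = u x) (i : ℕ) (x : S) :
    u ((σ ^ i) x) = u x := by
  induction i with
  | zero => rfl
  | succ i ih => rw [pow_succ', Equiv.Perm.mul_apply, hu, ih]

theorem finrank_invFn [Fintype S] (σ : Equiv.Perm S) (R : Finset S)
    (hR : ∀ x, ∃ i : ℕ, (σ ^ i) x ∈ R) : finrank (ZMod 2) (invFn σ) ≤ R.card := by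
  let f : invFn σ →ₗ[ZMod 2] (R → ZMod 2) :=
    (LinearMap.funLeft (ZMod 2) (ZMod 2) Subtype.val).comp (invFn σ).subtype
  have := LinearMap.finrank_le_finrank_of_injective (f := f) (by
    rw [injective_iff_map_eq_zero]
    intro u hu
    ext x
    obtain ⟨i, hi⟩ := hR x
    have := congrFun hu ⟨_, hi⟩
    simp only [f, LinearMap.comp_apply, LinearMap.funLeft_apply, Submodule.subtype_apply] at this
    rw [inv_pow u.2] at this
    simpa using this)
  simpa using this

theorem euler [Fintype S] {φ μ : Equiv.Perm S} (hp : Planar φ μ) (hμ : ∀ x, μ (μ x) = x)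
    (RF RV RE : Finset S) (hF : ∀ x, ∃ i : ℕ, (φ ^ i) x ∈ RF)
    (hV : ∀ x, ∃ i : ℕ, ((φ * μ) ^ i) x ∈ RV) (hE : ∀ x, x ∈ RE ∨ μ x ∈ RE) :
    Fintype.card S ≤ RE.card + RF.card + RV.card := by
  classical
  let L : (S → ZMod 2) →ₗ[ZMod 2] (RE → ZMod 2) :=
    { toFun := fun ξ x => ξ x.1 + ξ (φ x.1) +
        if μ x.1 = x.1 then 0 else ξ (μ x.1) + ξ (φ (μ x.1))
      map_add' := fun a b => by
        funext x; simp only [Pi.add_apply]; split_ifs <;> ring
      map_smul' := fun c a => by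
        funext x; simp only [Pi.smul_apply, smul_eq_mul, RingHom.id_apply]; split_ifs <;> ring }
  have h1 := L.finrank_range_add_finrank_ker
  have h2 : finrank (ZMod 2) (LinearMap.range L) ≤ RE.card := by
    simpa using Submodule.finrank_le (LinearMap.range L)
  have h3 : LinearMap.ker L ≤ invFn φ ⊔ invFn (φ * μ) := by
    intro ξ hξ
    have a : ∀ x ∈ RE, ξ x + ξ (φ x) + (if μ x = x then 0 else ξ (μ x) + ξ (φ (μ x))) = 0 :=
      fun x hx => congrFun hξ ⟨x, hx⟩
    have z : ∀ a b : ZMod 2, a + b = 0 → a = b := by decide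
    obtain ⟨u, hu1, hu2⟩ := hp ξ (fun x => by
      by_cases c : μ x = x
      · rw [c]
      rcases hE x with b | b
      · have := a x b
        rw [if_neg c] at this
        exact z _ _ this
      · have := a _ b
        rw [hμ, if_neg (Ne.symm c)] at this
        exact (z _ _ this).symm) (fun x c => by
      have b : x ∈ RE := by have := hE x; rw [c] at this; tauto
      have := a x b
      rw [if_pos c, add_zero] at this
      exact (z _ _ this).symm)
    refine Submodule.mem_sup.2 ⟨u, hu1, ξ + u, hu2, ?_⟩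
    funext x
    have : ∀ a b : ZMod 2, a + (b + a) = b := by decide
    exact this _ _
  have h4 := Submodule.finrank_mono h3
  have h5 := Submodule.finrank_add_le_finrank_add_finrank (invFn φ) (invFn (φ * μ))
  have h6 := finrank_invFn φ RF hF
  have h7 := finrank_invFn (φ * μ) RV hV
  simp only [finrank_fintype_fun_eq_card] at h1
  omega

theorem interlace {φ μ : Equiv.Perm S} (hp : Planar φ μ) (hμ : ∀ x, μ (μ x) = x) (o : S)
    (ho : ∀ x, μ x = x ↔ x = o) (hc : ∀ x, ∃ i : ℕ, (φ ^ i) o = x)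
    (hs : ∀ x, x ≠ o → φ (μ x) ≠ x) : φ o = o := by
  classical
  by_contra hne
  let pos : S → ℕ := fun x => Nat.find (hc x)
  have p1 : ∀ x, (φ ^ pos x) o = x := fun x => Nat.find_spec (hc x)
  have p2 : ∀ x i, (φ ^ i) o = x → pos x ≤ i := fun x i h => Nat.find_min' (hc x) h
  have p3 : ∀ x y, pos x = pos y → x = y := fun x y h => by rw [← p1 x, h, p1]
  have p4 : pos o = 0 := by have := p2 o 0 rfl; omega
  have p5 : ∀ x, pos (φ x) ≤ pos x + 1 := fun x =>
    p2 _ _ (by rw [pow_succ', Equiv.Perm.mul_apply, p1])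
  have p6 : ∀ x, φ x ≠ o → pos (φ x) = pos x + 1 := by
    intro x hx
    have a : pos (φ x) ≠ 0 := fun h => hx (p3 _ _ (h.trans p4.symm))
    have b := p1 (φ x)
    obtain ⟨k, hk⟩ : ∃ k, pos (φ x) = k + 1 := ⟨pos (φ x) - 1, by omega⟩
    rw [hk, pow_succ', Equiv.Perm.mul_apply] at b
    have := p2 _ _ (φ.injective b)
    have := p5 x
    omega
  have p7 : ∀ x, φ x = o → ∀ y, pos y ≤ pos x := by
    intro x hx y
    obtain ⟨i, rfl⟩ := hc y
    induction i with
    | zero => simp [p4]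
    | succ i ih =>
      rw [pow_succ', Equiv.Perm.mul_apply]
      by_cases c : (φ ^ i) o = x
      · rw [c, hx, p4]; omega
      · have := p5 ((φ ^ i) o)
        have : pos ((φ ^ i) o) ≠ pos x := fun h => c (p3 _ _ h)
        omega
  have hex : ∃ n, ∃ s, s ≠ o ∧ pos s < pos (μ s) ∧ pos (μ s) - pos s = n := by
    have a : μ (φ o) ≠ φ o := fun h => hne ((ho _).1 h)
    have b : μ (φ o) ≠ o := fun h => hne (by rw [← hμ (φ o), h, (ho o).2 rfl])
    rcases lt_trichotomy (pos (φ o)) (pos (μ (φ o))) with c | c | c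
    · exact ⟨_, _, hne, c, rfl⟩
    · exact absurd (p3 _ _ c).symm a
    · exact ⟨_, μ (φ o), b, by rwa [hμ], rfl⟩
  obtain ⟨s, s1, s2, s3⟩ := Nat.find_spec hex
  have hmin : ∀ x, x ≠ o → pos x < pos (μ x) → pos (μ s) - pos s ≤ pos (μ x) - pos x :=
    fun x a b => s3 ▸ Nat.find_min' hex ⟨x, a, b, rfl⟩
  have s4 : 0 < pos s := Nat.pos_of_ne_zero fun h => s1 (p3 _ _ (h.trans p4.symm))
  let ξ : S → ZMod 2 := fun x => if pos s < pos x ∧ pos x ≤ pos (μ s) then 1 else 0
  have hζ : ∀ x, ξ x + ξ (φ x) = if x = s ∨ x = μ s then 1 else 0 := by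
    intro x
    have a : x = s ↔ pos x = pos s := ⟨fun h => by rw [h], p3 _ _⟩
    have b : x = μ s ↔ pos x = pos (μ s) := ⟨fun h => by rw [h], p3 _ _⟩
    simp only [ξ, a, b]
    by_cases c : φ x = o
    · have := p7 x c (μ s)
      rw [c, p4]
      split_ifs <;> first | rfl | omega
    · rw [p6 x c]
      split_ifs <;> first | rfl | omega
  obtain ⟨u, hu1, hu2⟩ := hp ξ (fun x => by
      rw [hζ, hζ]
      congr 1
      refine propext ⟨?_, ?_⟩
      · rintro (rfl | rfl) <;> simp [hμ]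
      · rintro (h | h)
        · right; rw [← h, hμ]
        · left; exact μ.injective h) (fun x hx => by
      have := hζ x
      rw [if_neg] at this
      · revert this; generalize ξ x = a; generalize ξ (φ x) = b; revert a b; decide
      · rw [(ho x).1 hx]
        rintro (h | h)
        · exact s1 h.symm
        · rw [← h, p4] at s2; omega)
  have hu : ∀ x, u x = u o := fun x => by rw [← p1 x, inv_pow hu1]
  have a1 : φ s ≠ o := fun h => by have := p7 s h (μ s); omega
  have a2 := p6 s a1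
  have a3 : φ s ≠ μ s := fun h => hs (μ s) (fun h' => by rw [h', p4] at s2; omega) (by rw [hμ, h])
  have a4 : pos (φ s) ≠ pos (μ s) := fun h => a3 (p3 _ _ h)
  have a5 : μ (φ s) ≠ φ s := fun h => a1 ((ho _).1 h)
  have a6 : μ (φ s) ≠ o := fun h => a1 (by rw [← hμ (φ s), h, (ho o).2 rfl])
  have a7 : pos (μ (φ s)) ≠ pos (φ s) := fun h => a5 (p3 _ _ h)
  have a8 : pos (μ (φ s)) ≠ pos s := fun h => a3 (by rw [← hμ (φ s), p3 _ _ h])
  have a9 : pos (μ (φ s)) ≠ pos (μ s) := fun h => by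
    have := μ.injective (p3 _ _ h); rw [this] at a2; omega
  have b1 := hmin (φ s) a1
  have b2 := hmin (μ (φ s)) a6
  rw [hμ] at b2
  have := hu2 (φ s)
  rw [hu (φ s), hu (φ _), add_left_inj] at this
  simp only [ξ] at this
  rw [if_pos (show pos s < pos (φ s) ∧ _ by omega), if_neg] at this
  · exact absurd this (by decide)
  · by_cases c : φ (μ (φ s)) = o
    · rw [c, p4]; omega
    · rw [p6 _ c]; omega

end Crest.Agent.H6.Kap
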