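import Mathlib
import Crest.Agent.H6.KPlanar
import Crest.Agent.H6.KBase

/-! Moves preserving planarity; words of sequences. -/

namespace Crest.Agent.H6.Kap

open Equiv

variable {S : Type} [DecidableEq S] {φ μ : Perm S}

theorem swap_mul_apply (hμ : ∀ x, μ (μ x) = x) (s x : S) :
    (swap s (μ s) * μ) x = if x = s ∨ x = μ s then x else μ x := by
  rw [Perm.mul_apply]
  split_ifs with h
  · rcases h with rfl | rfl
    · simp
    · simp [hμ]
  · push Not at h
    refine swap_apply_of_ne_of_ne (fun e => h.2 ?_) fun e => h.1 (μ.injective e)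
    rw [← e, hμ]

theorem planar_del (hp : Planar φ μ) (hμ : ∀ x, μ (μ x) = x) (s : S) :
    Planar (φ * swap s (μ s)) (swap s (μ s) * μ) := by
  intro ξ h1 h2
  have a1 := h2 s (by simp)
  have a2 := h2 (μ s) (by simp [hμ])
  simp only [Perm.mul_apply, swap_apply_left, swap_apply_right, swap_apply_self] at a1 a2 h1 ⊢
  have b : ∀ x, ¬ (x = s ∨ x = μ s) → swap s (μ s) x = x ∧ swap s (μ s) (μ x) = μ x := by
    intro x hx
    have := swap_mul_apply hμ s x
    rw [if_neg hx] at this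
    push Not at hx
    exact ⟨swap_apply_of_ne_of_ne hx.1 hx.2, this⟩
  obtain ⟨u, hu1, hu2⟩ := hp ξ (fun x => by
    by_cases hx : x = s ∨ x = μ s
    · rcases hx with rfl | rfl
      · rw [a1, a2, add_comm]
      · rw [hμ, a1, a2, add_comm]
    · have := h1 x
      rwa [(b x hx).1, (b x hx).2] at this) (fun x e => by
    by_cases hx : x = s ∨ x = μ s
    · rcases hx with rfl | rfl
      · rw [a2, e]
      · rw [a1]; rw [hμ] at e; exact congrArg ξ e
    · have := h2 x (by rw [Perm.mul_apply, (b x hx).2, e])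
      rwa [Perm.mul_apply, (b x hx).1] at this)
  refine ⟨u, fun x => ?_, hu2⟩
  by_cases hx : x = s ∨ x = μ s
  · rcases hx with rfl | rfl
    · have := hu2 x
      rw [a1, add_right_inj] at this
      simpa using this
    · have := hu2 (μ s)
      rw [hμ, a2, add_right_inj] at this
      simpa using this
  · rw [(b x hx).1, hu1]

theorem planar_contract (hp : Planar φ μ) (hμ : ∀ x, μ (μ x) = x) (s : S) :
    Planar φ (swap s (μ s) * μ) := by
  intro ξ h1 h2
  have a1 := h2 s (by simp)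
  have a2 := h2 (μ s) (by simp [hμ])
  obtain ⟨u, hu1, hu2⟩ := hp ξ (fun x => by
    by_cases hx : x = s ∨ x = μ s
    · rcases hx with rfl | rfl
      · rw [a1, a2, CharTwo.add_self_eq_zero, CharTwo.add_self_eq_zero]
      · rw [hμ, a1, a2, CharTwo.add_self_eq_zero, CharTwo.add_self_eq_zero]
    · have := h1 x
      rwa [swap_mul_apply hμ, if_neg hx] at this) (fun x e => h2 x (by
    rw [swap_mul_apply hμ, e, ite_self]))
  refine ⟨u, hu1, fun x => ?_⟩
  rw [swap_mul_apply hμ]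
  split_ifs with hx
  · rw [hu1, h2 x (by rw [swap_mul_apply hμ, if_pos hx])]
  · exact hu2 x

theorem planar_fold (hp : Planar φ μ) (hμ : ∀ x, μ (μ x) = x) {s : S} (h1 : μ s ≠ s)
    (h2 : μ (φ s) ≠ φ s) (h3 : φ s ≠ s) (h4 : μ s ≠ φ s) {ν : Perm S} (n1 : ν s = φ s)
    (n2 : ν (φ s) = s) (n3 : ν (μ s) = μ (φ s)) (n4 : ν (μ (φ s)) = μ s)
    (n5 : ∀ x, x ≠ s → x ≠ φ s → x ≠ μ s → x ≠ μ (φ s) → ν x = μ x) : Planar φ ν := by
  intro ξ a1 a2
  have h5 : μ (φ s) ≠ s := fun e => h4 (by rw [← hμ (φ s), e])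
  let k := ξ s + ξ (φ s) + (ξ (μ s) + ξ (φ (μ s)))
  let ξ' : S → ZMod 2 := fun x => ξ x + if x = φ s then k else 0
  have e0 : ∀ x, x ≠ φ s → ξ' x = ξ x := fun x hx => by simp [ξ', hx]
  have e1 : ∀ x, x ≠ s → ξ' (φ x) = ξ (φ x) := fun x hx => e0 _ fun e => hx (φ.injective e)
  have e2 : ξ' (φ s) = ξ (φ s) + k := by simp [ξ']
  have c1 := a1 s
  have c2 := a1 (μ s)
  rw [n1] at c1
  rw [n3] at c2
  have d1 : ξ' s + ξ' (φ s) = ξ' (μ s) + ξ' (φ (μ s)) := by
    rw [e0 _ h3.symm, e2, e0 _ h4, e1 _ h1]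
    simp only [k]
    generalize ξ s = t1; generalize ξ (φ s) = t2; generalize ξ (μ s) + ξ (φ (μ s)) = t3
    revert t1 t2 t3; decide
  have d2 : ξ' (φ s) + ξ' (φ (φ s)) = ξ' (μ (φ s)) + ξ' (φ (μ (φ s))) := by
    rw [e2, e1 _ h3, e0 _ h2, e1 _ h5, ← c2]
    simp only [k]
    revert c1
    generalize ξ s = t1; generalize ξ (φ s) = t2; generalize ξ (μ s) + ξ (φ (μ s)) = t3
    generalize ξ (φ (φ s)) = t4
    revert t1 t2 t3 t4; decide
  obtain ⟨u, hu1, hu2⟩ := hp ξ' (fun x => by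
    by_cases b1 : x = s
    · rw [b1, d1]
    by_cases b2 : x = φ s
    · rw [b2, d2]
    by_cases b3 : x = μ s
    · rw [b3, hμ, d1]
    by_cases b4 : x = μ (φ s)
    · rw [b4, hμ, d2]
    rw [e0 _ b2, e1 _ b1, e0 _ (fun e => b4 (by rw [← e, hμ])),
      e1 _ (fun e => b3 (by rw [← e, hμ])), a1, n5 x b1 b2 b3 b4]) (fun x e => by
    have b1 : x ≠ s := fun b => h1 (b ▸ e)
    have b2 : x ≠ φ s := fun b => h2 (b ▸ e)
    rw [e0 _ b2, e1 _ b1]
    refine a2 x ((n5 x b1 b2 (fun b => ?_) fun b => ?_).trans e)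
    · rw [b, hμ] at e; exact h1 e.symm
    · rw [b, hμ] at e; exact h2 e.symm)
  refine ⟨u, hu1, fun x => ?_⟩
  have f1 := hu2 s
  have f2 := hu2 (φ s)
  have f3 := hu2 (μ s)
  have f4 := hu2 (μ (φ s))
  rw [e1 _ h1, e0 _ h3.symm] at f1
  rw [e1 _ h5, e2] at f2
  rw [hμ, e2, e0 _ h4] at f3
  rw [hμ, e1 _ h3, e0 _ h2] at f4
  simp only [hu1, k] at f1 f2 f3 f4 ⊢
  by_cases b1 : x = s
  · rw [b1, n1, hu1]
    revert c1
    generalize ξ s = t1; generalize ξ (φ s) = t2; generalize ξ (φ (φ s)) = t4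
    generalize u s = t5
    revert t1 t2 t4 t5; decide
  by_cases b2 : x = φ s
  · rw [b2, n2, hu1]
  by_cases b3 : x = μ s
  · rw [b3, n3, f2, ← f3]
  by_cases b4 : x = μ (φ s)
  · rw [b4, n4, f1, ← f4]
    revert c1
    generalize ξ s = t1; generalize ξ (φ s) = t2; generalize ξ (φ (φ s)) = t4
    generalize u s = t5
    revert t1 t2 t4 t5; decide
  have := hu2 x
  rw [e0 _ b2, e1 _ (fun e => b3 (by rw [← e, hμ])), hu1] at this
  rw [n5 x b1 b2 b3 b4, this]

/-- first return map after removing a point -/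
def rem (φ : Perm S) (a : S) : Perm {x // x ≠ a} :=
  (φ * swap a (φ.symm a)).subtypePerm fun x => by
    constructor
    · intro h e; apply h; simp [e]
    · intro h e; apply h
      exact (φ * swap a (φ.symm a)).injective (by rw [e]; simp)

theorem rem_apply (φ : Perm S) (a : S) (x : {x // x ≠ a}) :
    (rem φ a x).1 = if φ x.1 = a then φ a else φ x.1 := by
  simp only [rem, Perm.subtypePerm_apply, Perm.mul_apply]
  split_ifs with h
  · rw [show x.1 = φ.symm a from φ.eq_symm_apply.2 h]; simp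
  · rw [swap_apply_of_ne_of_ne x.2 fun e => h (by rw [e]; simp)]

theorem rem_apply_fix {μ : Perm S} {a : S} (h : μ a = a) (x : {x // x ≠ a}) :
    (rem μ a x).1 = μ x.1 := by
  rw [rem_apply, if_neg fun e => x.2 (μ.injective (e.trans h.symm))]

theorem planar_rem (hp : Planar φ μ) {a o : S} (h : μ a = a) (ho : o ≠ a) :
    Planar (rem φ a) (rem μ a) := by
  intro ξ a1 a2
  let r : S → {x // x ≠ a} := fun x => if h : x = a then (if h' : φ a = a then ⟨o, ho⟩ else ⟨_, h'⟩)
    else ⟨x, h⟩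
  have r1 : ∀ x : {x // x ≠ a}, r x.1 = x := fun x => by simp [r, x.2]
  have r2 : ∀ x : {x // x ≠ a}, r (φ x.1) = rem φ a x := by
    intro x
    refine Subtype.ext ?_
    rw [rem_apply]
    split_ifs with e
    · have : φ a ≠ a := fun e' => x.2 (φ.injective (e.trans e'.symm))
      simp [r, e, this]
    · simp [r, e]
  have r3 : r (φ a) = r a := by
    by_cases e : φ a = a
    · rw [e]
    · simp [r, e]
  have r4 : ∀ x : {x // x ≠ a}, μ x.1 = (rem μ a x).1 := fun x => (rem_apply_fix h x).symm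
  obtain ⟨u, hu1, hu2⟩ := hp (fun x => ξ (r x)) (fun x => by
    by_cases e : x = a
    · rw [e, h]
    · obtain ⟨y, rfl⟩ : ∃ y : {x // x ≠ a}, y.1 = x := ⟨⟨x, e⟩, rfl⟩
      simp only [r4, r2, r1]
      exact a1 y) (fun x hx => by
    by_cases e : x = a
    · rw [e, r3]
    · obtain ⟨y, rfl⟩ : ∃ y : {x // x ≠ a}, y.1 = x := ⟨⟨x, e⟩, rfl⟩
      simp only [r2, r1]
      exact a2 y (Subtype.ext (by rw [← r4]; exact hx)))
  have r5 : ∀ x, u (rem φ a x).1 = u x.1 := fun x => by
    rw [rem_apply]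
    split_ifs with e
    · rw [hu1, ← hu1 x.1, e]
    · rw [hu1]
  refine ⟨fun x => u x.1, r5, fun x => ?_⟩
  have := hu2 x.1
  simp only [r4, r2, r1, hu1] at this
  simp only [r5, this]

/-- value of a finite sequence of letters -/
def wv {P : Type} (f : ℕ → P × Bool) (n : ℕ) : FreeGroup P := FreeGroup.mk ((List.range n).map f)

@[simp] theorem wv_zero {P : Type} (f : ℕ → P × Bool) : wv f 0 = 1 := rfl

theorem wv_succ {P : Type} (f : ℕ → P × Bool) (n : ℕ) :
    wv f (n + 1) = wv f n * FreeGroup.mk [f n] := by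
  simp [wv, List.range_succ, FreeGroup.mul_mk]

theorem mk_rv {P : Type} (l : P × Bool) : FreeGroup.mk [rv l] = (FreeGroup.mk [l])⁻¹ := by
  simp [FreeGroup.inv_mk, FreeGroup.invRev, rv]

theorem toWord_wv {P : Type} [DecidableEq P] {f : ℕ → P × Bool} {n : ℕ} (h : Red f n) :
    (wv f n).toWord = (List.range n).map f := by
  rw [wv, FreeGroup.toWord_mk, FreeGroup.IsReduced.reduce_eq]
  rw [FreeGroup.IsReduced, List.isChain_iff_getElem]
  intro i hi
  simp only [List.length_map, List.length_range] at hi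
  simp only [List.getElem_map, List.getElem_range]
  intro e
  by_contra e'
  refine h i hi (Prod.ext e.symm ?_)
  revert e'
  simp only [rv_snd]
  cases (f i).2 <;> cases (f (i + 1)).2 <;> simp

theorem wv_inj {P : Type} {f f' : ℕ → P × Bool} {n n' : ℕ} (h : Red f n) (h' : Red f' n')
    (e : wv f n = wv f' n') : n = n' ∧ ∀ i < n, f i = f' i := by
  classical
  have := (toWord_wv h).symm.trans (e ▸ toWord_wv h')
  have a : n = n' := by simpa using congrArg List.length this
  subst a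
  exact ⟨rfl, by simpa using this⟩

theorem norm_wv {P : Type} [DecidableEq P] {f : ℕ → P × Bool} {n : ℕ} (h : Red f n) :
    (wv f n).norm = n := by
  simp [FreeGroup.norm, toWord_wv h]

end Crest.Agent.H6.Kap
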