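import Mathlib
import Crest.Agent.H6.KMoves

/-! Diagrams and the reducing moves. -/

namespace Crest.Agent.H6.Kap

open Equiv Finset Function

/-- value of an optional letter -/
def lvF {P : Type} : Option (P × Bool) → FreeGroup P
  | none => 1
  | some l => FreeGroup.mk [l]

@[simp] theorem lvF_none {P : Type} : lvF (none : Option (P × Bool)) = 1 := rfl
@[simp] theorem lvF_some {P : Type} (l : P × Bool) : lvF (some l) = FreeGroup.mk [l] := rfl

variable {P E W B C : Type} {M : Mdl P E W B C} {π : Perm E} {G A : Type} [Group G]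
  [AddCommGroup A] {f : FreeGroup P →* G} {cl : G → E × Bool → A} {md : Prop} {v0 v1 : W ⊕ B}
  {w : FreeGroup P} {c : A}

open Classical in
variable (M π f cl md v0 v1 w c) in
/-- van Kampen diagrams -/
structure Dg (S : Type) [Fintype S] where
  φ : Perm S
  μ : Perm S
  o : S
  In : S → Prop
  lb : S → Option (P × Bool)
  z : S → E × Bool
  tv : S → W ⊕ B
  pos : S → G
  pF : S → FreeGroup P
  μμ : ∀ x, μ (μ x) = x
  null : ∀ x, lb x = none ↔ μ x = x
  μo : μ o = o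
  planar : Planar φ μ
  In_φ : ∀ x, In (φ x) ↔ In x
  lb_μ : ∀ x, lb (μ x) = (lb x).map rv
  dart : ∀ x l, In x → lb x = some l →
    M.tl π (z x) = tv x ∧ M.hd π (z x) = tv (φ x) ∧ M.dl (z x) = l
  tvnull : ∀ x, In x → x ≠ o → lb x = none → tv (φ x) = tv x
  pos_φ : ∀ x, pos (φ x) = pos x * f (lvF (lb x))
  pos_μ : ∀ x, pos (μ x) = pos (φ x)
  pos_o : pos o = 1
  reach : ∀ x, ¬ In x → Relation.ReflTransGen (fun a b => φ a = b) o x
  pF_φ : ∀ x, ¬ In x → x ≠ o → pF (φ x) = pF x * lvF (lb x)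
  hmd : In o ↔ md
  hj : md → tv (φ o) = v0 ∧ tv o = v1
  hw : ¬ md → pF (φ o) = 1 ∧ pF o = w
  hc : ∑ x, (if In x ∧ lb x ≠ none then cl (pos x) (z x) else 0) = c

theorem sum_two {S A : Type} [Fintype S] [DecidableEq S] [AddCommGroup A] (F F' : S → A) {s t : S}
    (hst : s ≠ t) (h : ∀ x, x ≠ s → x ≠ t → F' x = F x) (h' : F' s + F' t = F s + F t) :
    ∑ x, F' x = ∑ x, F x := by
  have e : ∀ H : S → A, ∑ x, H x = H s + H t + ∑ x ∈ (univ.erase s).erase t, H x := fun H => by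
    rw [add_assoc, add_sum_erase _ H (mem_erase.2 ⟨hst.symm, mem_univ _⟩),
      add_sum_erase _ H (mem_univ _)]
  rw [e F, e F', h']
  congr 1
  exact sum_congr rfl fun x hx =>
    h x (mem_erase.1 (mem_erase.1 hx).2).1 (mem_erase.1 hx).1

namespace Dg

variable {S : Type} [Fintype S] (D : Dg M π f cl md v0 v1 w c S)

theorem lb_o : D.lb D.o = none := (D.null _).2 D.μo

theorem ne_o {x : S} {l : P × Bool} (h : D.lb x = some l) : x ≠ D.o := fun e => by
  rw [e, D.lb_o] at h; cases h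

theorem μ_ne {x : S} {l : P × Bool} (h : D.lb x = some l) : D.μ x ≠ x := fun e => by
  rw [(D.null x).2 e] at h; cases h

theorem lb_μ' {x : S} {l : P × Bool} (h : D.lb x = some l) : D.lb (D.μ x) = some (rv l) := by
  rw [D.lb_μ, h]; rfl

/-- removing a null side -/
theorem remove (a : S) (ha : D.lb a = none) (ho : a ≠ D.o) [DecidableEq S] :
    Nonempty (Dg M π f cl md v0 v1 w c {x // x ≠ a}) := by
  classical
  have hμ := (D.null a).1 ha
  have r4 : ∀ x : {x // x ≠ a}, (rem D.μ a x).1 = D.μ x.1 := rem_apply_fix hμ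
  have key : ∀ {β : Type} (F : S → β) (x : {x // x ≠ a}), (D.φ x.1 = a → F (D.φ a) = F a) →
      F (rem D.φ a x).1 = F (D.φ x.1) := by
    intro β F x h
    rw [rem_apply]
    split_ifs with e
    · rw [h e, e]
    · rfl
  have k1 : ∀ x : {x // x ≠ a}, D.In x.1 → D.tv (rem D.φ a x).1 = D.tv (D.φ x.1) := fun x hx =>
    key D.tv x fun e => D.tvnull a (by rw [← e, D.In_φ]; exact hx) ho ha
  have k2 : ∀ x : {x // x ≠ a}, ¬ D.In x.1 → D.pF (rem D.φ a x).1 = D.pF (D.φ x.1) := fun x hx =>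
    key D.pF x fun e => by rw [D.pF_φ a (by rw [← e, D.In_φ]; exact hx) ho, ha]; simp
  have k3 : ∀ x : {x // x ≠ a}, D.pos (rem D.φ a x).1 = D.pos (D.φ x.1) := fun x =>
    key D.pos x fun _ => by rw [D.pos_φ, ha]; simp
  refine ⟨⟨rem D.φ a, rem D.μ a, ⟨D.o, ho.symm⟩, fun x => D.In x.1, fun x => D.lb x.1,
    fun x => D.z x.1, fun x => D.tv x.1, fun x => D.pos x.1, fun x => D.pF x.1,
    fun x => Subtype.ext (by rw [r4, r4, D.μμ]), fun x => by rw [Subtype.ext_iff, r4, D.null],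
    Subtype.ext (by rw [r4, D.μo]), planar_rem D.planar hμ ho.symm, fun x => ?_,
    fun x => by rw [r4, D.lb_μ], fun x l h1 h2 => by rw [k1 x h1]; exact D.dart _ l h1 h2,
    fun x h1 h2 h3 => by rw [k1 x h1]; exact D.tvnull _ h1 (fun e => h2 (Subtype.ext e)) h3,
    fun x => by rw [k3, D.pos_φ], fun x => by rw [r4, k3, D.pos_μ], D.pos_o, fun x hx => ?_,
    fun x h1 h2 => by rw [k2 x h1]; exact D.pF_φ _ h1 fun e => h2 (Subtype.ext e), D.hmd,
    fun h => by rw [k1 _ (D.hmd.2 h)]; exact D.hj h,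
    fun h => by rw [k2 _ fun e => h (D.hmd.1 e)]; exact D.hw h, ?_⟩⟩
  · rw [key D.In x fun _ => propext (D.In_φ a), D.In_φ]
  · have : ∀ y, Relation.ReflTransGen (fun a b => D.φ a = b) D.o y →
        (∀ h : y ≠ a, Relation.ReflTransGen (fun p q => rem D.φ a p = q) ⟨D.o, ho.symm⟩ ⟨y, h⟩) ∧
        (y = a → ∀ h : D.φ a ≠ a,
          Relation.ReflTransGen (fun p q => rem D.φ a p = q) ⟨D.o, ho.symm⟩ ⟨_, h⟩) := by
      intro y hy
      induction hy with
      | refl => exact ⟨fun _ => by rfl, fun e => absurd e.symm ho⟩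
      | @tail p q _ e ih =>
        subst e
        by_cases hp : p = a
        · subst hp
          exact ⟨ih.2 rfl, fun e h => absurd e h⟩
        · exact ⟨fun h => (ih.1 hp).tail (Subtype.ext (by rw [rem_apply, if_neg h])),
            fun e h => (ih.1 hp).tail (Subtype.ext (by rw [rem_apply, if_pos e]))⟩
    exact (this x.1 (D.reach _ hx)).1 x.2
  · refine Eq.trans ?_ D.hc
    rw [← add_sum_erase _ _ (mem_univ a), if_neg (by simp [ha]), zero_add]
    exact (sum_subtype (univ.erase a) (by simp)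
      fun x => if D.In x ∧ D.lb x ≠ none then cl (D.pos x) (D.z x) else 0).symm

theorem z_rv (hπ : M.CP π) {s t : S} {l : P × Bool} (hs : D.In s) (ht : D.In t)
    (h1 : D.lb s = some l) (h2 : D.lb t = some (rv l)) (h3 : D.tv t = D.tv (D.φ s)) :
    D.z t = rv (D.z s) := by
  obtain ⟨a1, a2, a3⟩ := D.dart s l hs h1
  obtain ⟨b1, b2, b3⟩ := D.dart t _ ht h2
  exact Mdl.dart_inj hπ (by rw [b1, h3, Mdl.tl_rv, a2]) (by rw [b3, Mdl.dl_rv, a3])

theorem cl_cancel (hcl : ∀ g d, cl (g * f (FreeGroup.mk [M.dl d])) (rv d) = - cl g d)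
    {s t : S} {l : P × Bool} (hs : D.In s) (h1 : D.lb s = some l) (h2 : D.z t = rv (D.z s))
    (h3 : D.pos t = D.pos (D.φ s)) : cl (D.pos s) (D.z s) + cl (D.pos t) (D.z t) = 0 := by
  rw [h3, D.pos_φ, h1, lvF_some, ← (D.dart s l hs h1).2.2, h2, hcl, add_neg_cancel]

/-- deleting an edge that comes from the graph -/
theorem delete (hπ : M.CP π) (hcl : ∀ g d, cl (g * f (FreeGroup.mk [M.dl d])) (rv d) = - cl g d)
    {s : S} {l : P × Bool} (hs : D.In s) (hs' : D.In (D.μ s)) (h1 : D.lb s = some l)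
    (h3 : D.tv (D.μ s) = D.tv (D.φ s)) :
    ∃ D' : Dg M π f cl md v0 v1 w c S, D'.lb s = none ∧ s ≠ D'.o := by
  classical
  have h2 := D.lb_μ' h1
  have hz := D.z_rv hπ hs hs' h1 h2 h3
  have h4 : D.tv (D.φ (D.μ s)) = D.tv s := by
    rw [← (D.dart _ _ hs' h2).2.1, hz, Mdl.hd_rv, (D.dart _ _ hs h1).1]
  have eφ : ∀ x, ¬ (x = s ∨ x = D.μ s) → (D.φ * swap s (D.μ s)) x = D.φ x := fun x hx => by
    push Not at hx
    rw [Perm.mul_apply, swap_apply_of_ne_of_ne hx.1 hx.2]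
  have eμ := swap_mul_apply D.μμ s
  have eq : ∀ x, (D.μ x = s ∨ D.μ x = D.μ s) ↔ (x = s ∨ x = D.μ s) := fun x => by
    rw [D.μ.injective.eq_iff, or_comm]
    exact or_congr_right ⟨fun e => by rw [← e, D.μμ], fun e => by rw [e, D.μμ]⟩
  have ho : ¬ (D.o = s ∨ D.o = D.μ s) := fun e =>
    e.elim (fun e => D.ne_o h1 e.symm) fun e => D.ne_o h2 e.symm
  have hout : ∀ x, ¬ D.In x → ¬ (x = s ∨ x = D.μ s) := by
    rintro x hx (rfl | rfl) <;> contradiction
  refine ⟨⟨D.φ * swap s (D.μ s), swap s (D.μ s) * D.μ, D.o, D.In,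
    fun x => if x = s ∨ x = D.μ s then none else D.lb x, D.z, D.tv, D.pos, D.pF,
    fun x => ?_, fun x => ?_, by rw [eμ, if_neg ho, D.μo], planar_del D.planar D.μμ s, fun x => ?_,
    fun x => ?_, fun x l a b => ?_, fun x a b e => ?_, fun x => ?_, fun x => ?_, D.pos_o,
    fun x hx => ?_, fun x a b => ?_, D.hmd, by rw [eφ _ ho]; exact D.hj,
    by rw [eφ _ ho]; exact D.hw, ?_⟩, by simp, D.ne_o h1⟩
  · by_cases hx : x = s ∨ x = D.μ s
    · rw [eμ x, if_pos hx, eμ x, if_pos hx]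
    · rw [eμ x, if_neg hx, eμ, if_neg (by rwa [eq]), D.μμ]
  · rw [eμ]; split_ifs <;> simp [D.null]
  · by_cases hx : x = s ∨ x = D.μ s
    · rcases hx with rfl | rfl <;> simp [D.In_φ, hs, hs']
    · rw [eφ x hx, D.In_φ]
  · rw [eμ]
    by_cases hx : x = s ∨ x = D.μ s
    · simp only [if_pos hx]; rfl
    · simp only [if_neg hx, eq, D.lb_μ]
  · split_ifs at b with hx
    rw [eφ x hx]; exact D.dart x l a b
  · by_cases hx : x = s ∨ x = D.μ s
    · rcases hx with rfl | rfl <;> simp [h3, h4]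
    · rw [if_neg hx] at e
      rw [eφ x hx]; exact D.tvnull x a b e
  · by_cases hx : x = s ∨ x = D.μ s
    · rw [if_pos hx]
      rcases hx with rfl | rfl <;> simp [← D.pos_μ, D.μμ]
    · rw [if_neg hx, eφ x hx, D.pos_φ]
  · rw [eμ]
    by_cases hx : x = s ∨ x = D.μ s
    · rw [if_pos hx]
      rcases hx with rfl | rfl <;> simp [← D.pos_μ, D.μμ]
    · rw [if_neg hx, eφ x hx, D.pos_μ]
  · have := D.reach x hx
    induction this with
    | refl => rfl
    | @tail p q _ e ih =>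
      subst e
      rw [D.In_φ] at hx
      exact (ih hx).tail (eφ p (hout p hx))
  · rw [eφ x (hout x a), if_neg (hout x a)]; exact D.pF_φ x a b
  · refine Eq.trans ?_ D.hc
    refine sum_two _ _ (D.μ_ne h1).symm (fun x a b => by simp [a, b]) ?_
    simp [hs, hs', h1, h2, D.cl_cancel hcl hs h1 hz (D.pos_μ s)]

/-- zipping two consecutive inverse letters -/
theorem zip (hπ : M.CP π) (hcl : ∀ g d, cl (g * f (FreeGroup.mk [M.dl d])) (rv d) = - cl g d)
    {s : S} {l : P × Bool} (h1 : D.lb s = some l) (h2 : D.lb (D.φ s) = some (rv l)) :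
    ∃ D' : Dg M π f cl md v0 v1 w c S, D'.lb s = none ∧ s ≠ D'.o := by
  classical
  have hst : D.φ s ≠ s := fun e => by
    rw [e, h1] at h2; exact rv_ne l (Option.some.inj h2).symm
  have hex : ∃ ν : Perm S, Planar D.φ ν ∧ ν s = s ∧ ν (D.φ s) = D.φ s ∧
      (D.μ s ≠ D.φ s → ν (D.μ s) = D.μ (D.φ s) ∧ ν (D.μ (D.φ s)) = D.μ s) ∧
      ∀ x, x ≠ s → x ≠ D.φ s → x ≠ D.μ s → x ≠ D.μ (D.φ s) → ν x = D.μ x := by
    by_cases h4 : D.μ s = D.φ s
    · refine ⟨_, planar_contract D.planar D.μμ s, by simp, by rw [← h4]; simp [D.μμ],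
        fun h => absurd h4 h, fun x a b e _ => ?_⟩
      rw [swap_mul_apply D.μμ, if_neg (by tauto)]
    · have a1 := D.μ_ne h1
      have a2 := D.μ_ne h2
      have a3 : D.μ (D.φ s) ≠ s := fun e => h4 (by rw [← D.μμ (D.φ s), e])
      have a4 : D.μ (D.φ s) ≠ D.μ s := fun e => hst (D.μ.injective e)
      let ν := swap (D.φ s) (D.μ s) * D.μ * swap (D.φ s) (D.μ s)
      have n0 : ∀ x, ν (ν x) = x := fun x => by simp [ν, D.μμ]
      have n1 : ν s = D.φ s := by
        simp [ν, swap_apply_of_ne_of_ne hst.symm a1.symm]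
      have n3 : ν (D.μ s) = D.μ (D.φ s) := by
        simp [ν, swap_apply_of_ne_of_ne a2 a4]
      have n2 : ν (D.φ s) = s := by rw [← n1, n0]
      have n4 : ν (D.μ (D.φ s)) = D.μ s := by rw [← n3, n0]
      have n5 : ∀ x, x ≠ s → x ≠ D.φ s → x ≠ D.μ s → x ≠ D.μ (D.φ s) → ν x = D.μ x := by
        intro x b1 b2 b3 b4
        simp only [ν, Perm.mul_apply, swap_apply_of_ne_of_ne b2 b3]
        exact swap_apply_of_ne_of_ne (fun e => b4 (by rw [← e, D.μμ])) fun e => b1 (D.μ.injective e)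
      have := planar_contract (planar_fold D.planar D.μμ a1 a2 hst h4 n1 n2 n3 n4 n5) n0 s
      refine ⟨_, this, by simp, by simp [n1, n2], fun _ => ⟨?_, ?_⟩, fun x b1 b2 b3 b4 => ?_⟩
      · rw [swap_mul_apply n0, if_neg (by rw [n1]; tauto), n3]
      · rw [swap_mul_apply n0, if_neg (by rw [n1]; tauto), n4]
      · rw [swap_mul_apply n0, if_neg (by rw [n1]; tauto), n5 x b1 b2 b3 b4]
  obtain ⟨ν, n0, n1, n2, n3, n4⟩ := hex
  have a1 := D.μ_ne h1
  have a2 := D.μ_ne h2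
  have a5 := D.lb_μ' h1
  have a6 := D.lb_μ' h2
  rw [rv_rv] at a6
  have cases : ∀ x, x = s ∨ x = D.φ s ∨
      (x = D.μ s ∧ D.μ s ≠ D.φ s ∧ D.μ (D.φ s) ≠ s ∧ ν x = D.μ (D.φ s) ∧ ν (ν x) = x) ∨
      (x = D.μ (D.φ s) ∧ D.μ s ≠ D.φ s ∧ D.μ (D.φ s) ≠ s ∧ ν x = D.μ s ∧ ν (ν x) = x) ∨
      (x ≠ s ∧ x ≠ D.φ s ∧ D.μ x ≠ s ∧ D.μ x ≠ D.φ s ∧ ν x = D.μ x ∧ ν (ν x) = x) := by
    intro x
    by_cases b1 : x = s
    · exact Or.inl b1
    by_cases b2 : x = D.φ s
    · exact Or.inr (Or.inl b2)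
    by_cases b3 : x = D.μ s
    · have a := n3 (b3 ▸ b2)
      refine Or.inr (Or.inr (Or.inl ⟨b3, b3 ▸ b2, fun e => b2 ?_, b3 ▸ a.1, ?_⟩))
      · rw [b3, ← D.μμ (D.φ s), e]
      · rw [b3, a.1, a.2]
    by_cases b4 : x = D.μ (D.φ s)
    · have b5 : D.μ s ≠ D.φ s := fun e => b1 (by rw [b4, ← e, D.μμ])
      have a := n3 b5
      exact Or.inr (Or.inr (Or.inr (Or.inl ⟨b4, b5, b4 ▸ b1, b4 ▸ a.2, by rw [b4, a.2, a.1]⟩)))
    have b5 : D.μ x ≠ s := fun e => b3 (by rw [← e, D.μμ])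
    have b6 : D.μ x ≠ D.φ s := fun e => b4 (by rw [← e, D.μμ])
    refine Or.inr (Or.inr (Or.inr (Or.inr ⟨b1, b2, b5, b6, n4 x b1 b2 b3 b4, ?_⟩)))
    rw [n4 x b1 b2 b3 b4, n4 _ b5 b6 (fun e => b1 (D.μ.injective e))
      (fun e => b2 (D.μ.injective e)), D.μμ]
  have o1 := D.ne_o h1
  have o2 := D.ne_o h2
  have φne : ∀ x, x ≠ s → D.φ x ≠ D.φ s := fun x hx e => hx (D.φ.injective e)
  have p1 : D.pos (D.φ (D.φ s)) = D.pos s := by
    rw [D.pos_φ, D.pos_φ, h1, h2, lvF_some, lvF_some, mk_rv, map_inv,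
      mul_inv_cancel_right]
  have p2 : D.In s → D.z (D.φ s) = rv (D.z s) := fun h =>
    D.z_rv hπ h ((D.In_φ s).2 h) h1 h2 rfl
  refine ⟨⟨D.φ, ν, D.o, D.In, fun x => if x = s ∨ x = D.φ s then none else D.lb x, D.z,
    update D.tv (D.φ s) (D.tv s), update D.pos (D.φ s) (D.pos s), update D.pF (D.φ s) (D.pF s),
    fun x => ?_, fun x => ?_, ?_, n0, D.In_φ,
    fun x => ?_, fun x l a b => ?_, fun x a b e => ?_, fun x => ?_, fun x => ?_, ?_,
    D.reach, fun x a b => ?_, D.hmd, ?_, ?_, ?_⟩, by simp, o1⟩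
  · rcases cases x with rfl | rfl | h | h | h
    · rw [n1, n1]
    · rw [n2, n2]
    all_goals tauto
  · rcases cases x with rfl | rfl | ⟨rfl, b1, b2, b3, -⟩ | ⟨rfl, b1, b2, b3, -⟩ | ⟨b1, b2, -, -, b3, -⟩
    · simp [n1]
    · simp [n2]
    · simp [a1, b1, a5, b3, hst]
    · simp [a2, b2, a6, b3, hst.symm]
    · simp [b1, b2, b3, D.null]
  · rw [n4 _ o1.symm o2.symm (D.ne_o a5).symm (D.ne_o a6).symm, D.μo]
  · rcases cases x with rfl | rfl | ⟨rfl, b1, b2, b3, -⟩ | ⟨rfl, b1, b2, b3, -⟩ |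
      ⟨b1, b2, b4, b5, b3, -⟩
    · simp [n1]
    · simp [n2]
    · simp [a1, a2, b1, b2, a5, a6, b3]
    · simp [a1, a2, b1, b2, a5, a6, b3]
    · simp [b1, b2, b3, b4, b5, D.lb_μ]
  · split_ifs at b with hx
    push Not at hx
    rw [update_of_ne hx.2, update_of_ne (φne x hx.1)]
    exact D.dart x l a b
  · by_cases b1 : x = s
    · rw [b1, update_self, update_of_ne hst.symm]
    by_cases b2 : x = D.φ s
    · rw [b2, update_self, update_of_ne (φne _ hst)]
      rw [b2, D.In_φ] at a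
      rw [← (D.dart _ _ ((D.In_φ s).2 a) h2).2.1, p2 a, Mdl.hd_rv, (D.dart _ _ a h1).1]
    · rw [if_neg (by tauto)] at e
      rw [update_of_ne b2, update_of_ne (φne x b1)]
      exact D.tvnull x a b e
  · by_cases b1 : x = s
    · simp [b1, update_of_ne hst.symm]
    by_cases b2 : x = D.φ s
    · simp [b2, update_of_ne (φne _ hst), p1]
    · rw [if_neg (by tauto), update_of_ne b2, update_of_ne (φne x b1), D.pos_φ]
  · rcases cases x with rfl | rfl | ⟨rfl, b1, b2, b3, -⟩ | ⟨rfl, b1, b2, b3, -⟩ |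
      ⟨b1, b2, b4, b5, b3, -⟩
    · rw [n1, update_self, update_of_ne hst.symm]
    · rw [n2, update_self, update_of_ne (φne _ hst), p1]
    · rw [b3, update_of_ne a2, update_of_ne (φne _ a1), D.pos_μ, p1, ← D.pos_μ, D.μμ]
    · rw [b3, update_of_ne b1, update_of_ne (φne _ b2), D.pos_μ, ← D.pos_μ (D.μ _), D.μμ]
    · rw [b3, update_of_ne b5, update_of_ne (φne _ b1), D.pos_μ]
  · rw [update_of_ne o2.symm, D.pos_o]
  · by_cases b1 : x = s
    · simp [b1, update_of_ne hst.symm]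
    by_cases b2 : x = D.φ s
    · rw [b2, D.In_φ] at a
      rw [if_pos (Or.inr b2), b2, update_of_ne (φne _ hst), update_self,
        D.pF_φ _ (fun e => a ((D.In_φ s).1 e)) o2, D.pF_φ _ a o1, h1, h2, lvF_some, lvF_some, mk_rv,
        mul_inv_cancel_right, lvF_none, mul_one]
    · rw [if_neg (by tauto), update_of_ne b2, update_of_ne (φne x b1), D.pF_φ x a b]
  · rw [update_of_ne o2.symm, update_of_ne (φne _ o1.symm)]; exact D.hj
  · rw [update_of_ne o2.symm, update_of_ne (φne _ o1.symm)]; exact D.hw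
  · refine Eq.trans ?_ D.hc
    refine sum_two _ _ hst.symm (fun x a b => by simp [a, b, update_of_ne b]) ?_
    by_cases hs : D.In s
    · simp [hs, D.In_φ, h1, h2, D.cl_cancel hcl hs h1 (p2 hs) rfl]
    · simp [hs, D.In_φ]

end Dg

variable (M π f cl md v0 v1 w c) in
/-- existence of a diagram -/
def Has : Prop := ∃ (S : Type) (_ : Fintype S), Nonempty (Dg M π f cl md v0 v1 w c S)

/-- a minimal diagram is reduced -/
theorem Has.exists_min (hπ : M.CP π)
    (hcl : ∀ g d, cl (g * f (FreeGroup.mk [M.dl d])) (rv d) = - cl g d)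
    (h : Has M π f cl md v0 v1 w c) : ∃ (S : Type) (_ : Fintype S) (D : Dg M π f cl md v0 v1 w c S),
      (∀ x, D.lb x = none → x = D.o) ∧
      (∀ x l, D.lb x = some l → D.lb (D.φ x) ≠ some (rv l)) ∧
      ∀ x, D.In x → D.In (D.μ x) → x ≠ D.o → D.tv (D.μ x) ≠ D.tv (D.φ x) := by
  classical
  have hex : ∃ n, ∃ (S : Type) (_ : Fintype S), Nonempty (Dg M π f cl md v0 v1 w c S) ∧
      Fintype.card S = n := by
    obtain ⟨S, i, h⟩ := h
    exact ⟨_, S, i, h, rfl⟩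
  obtain ⟨S, i, ⟨D⟩, hn⟩ := Nat.find_spec hex
  have key : ∀ (D' : Dg M π f cl md v0 v1 w c S) x, D'.lb x = none → x = D'.o := by
    intro D' x hx
    by_contra ho
    refine Nat.find_min hex ?_ ⟨_, _, D'.remove x hx ho, rfl⟩
    rw [← hn]
    exact Fintype.card_subtype_lt (x := x) (by simp)
  refine ⟨S, i, D, key D, fun x l h1 h2 => ?_, fun x h1 h2 h3 h4 => ?_⟩
  · obtain ⟨D', a, b⟩ := D.zip hπ hcl h1 h2
    exact b (key D' x a)
  · obtain ⟨l, hl⟩ := Option.ne_none_iff_exists'.1 fun e => h3 (key D x e)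
    obtain ⟨D', a, b⟩ := D.delete hπ hcl h1 h2 hl h4
    exact b (key D' x a)

end Crest.Agent.H6.Kap
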