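import Mathlib
import Crest.Agent.H6.KDiag

/-! Constructions of diagrams. -/

namespace Crest.Agent.H6.Kap

open Equiv Finset Function

theorem parity_null {S : Type} [Fintype S] {φ μ : Perm S} (hμ : ∀ x, μ (μ x) = x) {o : S}
    (ho : μ o = o) (ξ : S → ZMod 2)
    (h1 : ∀ x, x ≠ o → ξ x + ξ (φ x) = ξ (μ x) + ξ (φ (μ x)))
    (h2 : ∀ x, x ≠ o → μ x = x → ξ (φ x) = ξ x) : ξ (φ o) = ξ o := by
  classical
  have a : ∑ x, (ξ x + ξ (φ x)) = 0 := by
    rw [sum_add_distrib, Equiv.sum_comp φ ξ, CharTwo.add_self_eq_zero]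
  have b : ∑ x ∈ univ.erase o, (ξ x + ξ (φ x)) = 0 := by
    refine sum_involution (fun x _ => μ x) (fun x hx => ?_) (fun x hx h e => h ?_)
      (fun x hx => ?_) fun x _ => hμ x
    · rw [h1 x (mem_erase.1 hx).1, CharTwo.add_self_eq_zero]
    · rw [h2 x (mem_erase.1 hx).1 e, CharTwo.add_self_eq_zero]
    · exact mem_erase.2 ⟨fun e => (mem_erase.1 hx).1 (μ.injective (e.trans ho.symm)), mem_univ _⟩
  rw [← add_sum_erase _ _ (mem_univ o), b, add_zero] at a
  exact (CharTwo.add_eq_zero.1 a).symm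

/-- joining two permutations -/
def jn {S T : Type} [DecidableEq S] [DecidableEq T] (φ : Perm S) (ψ : Perm T) (o : S) (a : T) :
    Perm (S ⊕ T) := Equiv.sumCongr φ ψ * swap (Sum.inl o) (Sum.inr a)

section jn
variable {S T : Type} [DecidableEq S] [DecidableEq T] (φ : Perm S) (ψ : Perm T) (o : S) (a : T)

theorem jn_o : jn φ ψ o a (Sum.inl o) = Sum.inr (ψ a) := by simp [jn]
theorem jn_a : jn φ ψ o a (Sum.inr a) = Sum.inl (φ o) := by simp [jn]
theorem jn_l {x : S} (h : x ≠ o) : jn φ ψ o a (Sum.inl x) = Sum.inl (φ x) := by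
  simp [jn, swap_apply_of_ne_of_ne, h]
theorem jn_r {x : T} (h : x ≠ a) : jn φ ψ o a (Sum.inr x) = Sum.inr (ψ x) := by
  simp [jn, swap_apply_of_ne_of_ne, h]

theorem planar_jn [Fintype S] {μ : Perm S} {ν : Perm T} (h1 : Planar φ μ) (h2 : Planar ψ ν)
    (hμ : ∀ x, μ (μ x) = x) (ho : μ o = o) : Planar (jn φ ψ o a) (Equiv.sumCongr μ ν) := by
  intro ξ a1 a2
  have b0 := a2 (Sum.inl o) (by simp [ho])
  rw [jn_o] at b0
  have b1 : ξ (Sum.inl (φ o)) = ξ (Sum.inl o) := by
    refine parity_null hμ ho (fun x => ξ (Sum.inl x)) (fun x hx => ?_) fun x hx e => ?_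
    · have := a1 (Sum.inl x)
      rwa [jn_l _ _ _ _ hx, sumCongr_apply, Sum.map_inl,
        jn_l _ _ _ _ fun e => hx (μ.injective (e.trans ho.symm))] at this
    · have := a2 (Sum.inl x) (by simp [e])
      rwa [jn_l _ _ _ _ hx] at this
  have c1 : ∀ x, ξ (jn φ ψ o a (Sum.inl x)) = ξ (Sum.inl (φ x)) := fun x => by
    by_cases e : x = o
    · rw [e, jn_o, b0, b1]
    · rw [jn_l _ _ _ _ e]
  have c2 : ∀ x, ξ (jn φ ψ o a (Sum.inr x)) = ξ (Sum.inr (ψ x)) := fun x => by
    by_cases e : x = a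
    · rw [e, jn_a, b0, b1]
    · rw [jn_r _ _ _ _ e]
  obtain ⟨u, u1, u2⟩ := h1 (fun x => ξ (Sum.inl x)) (fun x => by simpa [c1] using a1 (Sum.inl x))
    fun x e => by simpa [c1] using a2 (Sum.inl x) (by simp [e])
  obtain ⟨v, v1, v2⟩ := h2 (fun x => ξ (Sum.inr x)) (fun x => by simpa [c2] using a1 (Sum.inr x))
    fun x e => by simpa [c2] using a2 (Sum.inr x) (by simp [e])
  have d : ∀ x, Sum.elim u (fun y => v y + (v a + u o)) (jn φ ψ o a x) =
      Sum.elim u (fun y => v y + (v a + u o)) x := by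
    rintro (x | x)
    · by_cases e : x = o
      · simp [e, jn_o, v1, ← add_assoc, CharTwo.add_self_eq_zero]
      · simp [jn_l _ _ _ _ e, u1]
    · by_cases e : x = a
      · simp [e, jn_a, u1, ← add_assoc, CharTwo.add_self_eq_zero]
      · simp [jn_r _ _ _ _ e, v1]
  refine ⟨_, d, ?_⟩
  rintro (x | x) <;> rw [d]
  · have := u2 x
    rw [u1] at this
    simpa [c1] using this
  · have := v2 x
    rw [v1] at this
    simp [c2, ← add_assoc, this]

theorem rtg_jn_l {x y : S} (h : Relation.ReflTransGen (fun p q => φ p = q) x y) (hx : x = φ o) :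
    Relation.ReflTransGen (fun p q => jn φ ψ o a p = q) (Sum.inr a) (Sum.inl y) := by
  induction h with
  | refl => exact Relation.ReflTransGen.single (by rw [jn_a, hx])
  | @tail p q _ e ih =>
    by_cases c : p = o
    · exact Relation.ReflTransGen.single (by rw [jn_a, ← e, c])
    · exact ih.tail (by rw [jn_l _ _ _ _ c, e])

end jn

theorem rtg_shift {S : Type} [Finite S] {φ : Perm S} {x y : S}
    (h : Relation.ReflTransGen (fun p q => φ p = q) x y) :
    Relation.ReflTransGen (fun p q => φ p = q) (φ x) y := by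
  have : ∀ n : ℕ, Relation.ReflTransGen (fun p q => φ p = q) (φ x) ((φ ^ n) (φ x)) := by
    intro n
    induction n with
    | zero => rfl
    | succ n ih => exact ih.tail (by rw [pow_succ', Perm.mul_apply])
  have e := this (orderOf φ - 1)
  rw [← Perm.mul_apply, ← pow_succ, Nat.sub_add_cancel (orderOf_pos φ), pow_orderOf_eq_one] at e
  exact e.trans h

variable {P E W B C : Type} {M : Mdl P E W B C} {π : Perm E} {G A : Type} [Group G]
  [AddCommGroup A] {f : FreeGroup P →* G} {cl : G → E × Bool → A} {v0 : W ⊕ B}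

theorem Has.one (d0 : E × Bool) : Has M π f cl False v0 v0 1 0 :=
  ⟨Unit, inferInstance, ⟨⟨1, 1, (), fun _ => False, fun _ => none, fun _ => d0, fun _ => v0,
    fun _ => 1, fun _ => 1, fun _ => rfl, by simp, rfl, fun _ _ _ => ⟨0, by simp, by simp⟩, by simp,
    by simp, by simp, by simp, by simp, by simp, rfl, fun _ _ => by rfl, by simp, by simp, by simp,
    by simp, by simp⟩⟩⟩

theorem Has.mul {w w' : FreeGroup P} {c c' : A} (h : Has M π f cl False v0 v0 w c)
    (h' : Has M π f cl False v0 v0 w' c') : Has M π f cl False v0 v0 (w * w') (c + c') := by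
  classical
  obtain ⟨S, _, ⟨D⟩⟩ := h
  obtain ⟨T, _, ⟨D'⟩⟩ := h'
  have i1 : ¬ D.In D.o := D.hmd.1
  have i2 : ¬ D'.In D'.o := D'.hmd.1
  have p1 : D.pos (D.φ D.o) = 1 := by rw [← D.pos_μ, D.μo, D.pos_o]
  have p2 : D'.pos (D'.φ D'.o) = 1 := by rw [← D'.pos_μ, D'.μo, D'.pos_o]
  have q1 : ∀ x, Sum.elim D.pos D'.pos (jn D.φ D'.φ D.o D'.o (Sum.inl x)) = D.pos (D.φ x) := by
    intro x
    by_cases e : x = D.o
    · simp [e, jn_o, p1, p2]
    · simp [jn_l _ _ _ _ e]
  have q2 : ∀ x, Sum.elim D.pos D'.pos (jn D.φ D'.φ D.o D'.o (Sum.inr x)) = D'.pos (D'.φ x) := by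
    intro x
    by_cases e : x = D'.o
    · simp [e, jn_a, p1, p2]
    · simp [jn_r _ _ _ _ e]
  refine ⟨S ⊕ T, inferInstance, ⟨⟨jn D.φ D'.φ D.o D'.o, Equiv.sumCongr D.μ D'.μ, Sum.inr D'.o,
    Sum.elim D.In D'.In, Sum.elim D.lb D'.lb, Sum.elim D.z D'.z, Sum.elim D.tv D'.tv,
    Sum.elim D.pos D'.pos, Sum.elim D.pF fun x => w * D'.pF x, ?_, ?_, by simp [D'.μo],
    planar_jn _ _ _ _ D.planar D'.planar D.μμ D.μo, ?_, ?_, ?_, ?_, ?_, ?_, D'.pos_o, ?_, ?_,
    D'.hmd, False.elim, fun h => ?_, ?_⟩⟩⟩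
  · rintro (x | x) <;> simp [D.μμ, D'.μμ]
  · rintro (x | x) <;> simp [D.null, D'.null]
  · rintro (x | x)
    · by_cases e : x = D.o
      · simp [e, jn_o, D'.In_φ, i1, i2]
      · simp [jn_l _ _ _ _ e, D.In_φ]
    · by_cases e : x = D'.o
      · simp [e, jn_a, D.In_φ, i1, i2]
      · simp [jn_r _ _ _ _ e, D'.In_φ]
  · rintro (x | x) <;> simp [D.lb_μ, D'.lb_μ]
  · rintro (x | x) l a b
    · rw [jn_l _ _ _ _ (D.ne_o b)]; exact D.dart x l a b
    · rw [jn_r _ _ _ _ (D'.ne_o b)]; exact D'.dart x l a b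
  · rintro (x | x) a b e
    · have : x ≠ D.o := fun h => i1 (h ▸ a)
      rw [jn_l _ _ _ _ this]; exact D.tvnull x a this e
    · have : x ≠ D'.o := fun h => i2 (h ▸ a)
      rw [jn_r _ _ _ _ this]; exact D'.tvnull x a this e
  · rintro (x | x)
    · rw [q1]; exact D.pos_φ x
    · rw [q2]; exact D'.pos_φ x
  · rintro (x | x)
    · rw [q1]; exact D.pos_μ x
    · rw [q2]; exact D'.pos_μ x
  · have l1 : ∀ x, ¬ D.In x → Relation.ReflTransGen (fun p q => jn D.φ D'.φ D.o D'.o p = q)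
        (Sum.inr D'.o) (Sum.inl x) := fun x hx => rtg_jn_l _ _ _ _ (rtg_shift (D.reach x hx)) rfl
    rintro (x | x) hx
    · exact l1 x hx
    · have := D'.reach x hx
      clear hx
      induction this with
      | refl => rfl
      | @tail p q _ e ih =>
        by_cases c : p = D'.o
        · exact (l1 _ i1).tail (by rw [jn_o, ← e, c])
        · exact ih.tail (by rw [jn_r _ _ _ _ c, e])
  · rintro (x | x) a b
    · by_cases e : x = D.o
      · simp [e, jn_o, (D.hw id).2, (D'.hw id).1, D.lb_o]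
      · rw [jn_l _ _ _ _ e]; exact D.pF_φ x a e
    · have e : x ≠ D'.o := fun h => b (by rw [h])
      simp [jn_r _ _ _ _ e, D'.pF_φ x a e, mul_assoc]
  · simp [jn_a, (D.hw id).1, (D'.hw id).2]
  · rw [Fintype.sum_sum_type]
    exact congrArg₂ (· + ·) D.hc D'.hc

/-- the three cycle -/
def cyc3 : Perm (Fin 3) := ⟨![1, 2, 0], ![2, 0, 1], by decide, by decide⟩

theorem planar_spike : Planar cyc3 (swap 1 2) := by
  intro ξ h1 h2
  have a := h1 1
  have b := h2 0 (by decide)
  refine ⟨0, fun _ => rfl, fun x => ?_⟩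
  simp only [cyc3, swap_apply_left, coe_fn_mk, Matrix.cons_val_one, Matrix.cons_val_zero,
    Matrix.cons_val] at a b
  have c : ξ 1 = ξ 0 := b
  fin_cases x
  · exact (add_left_inj _).2 c
  · simpa [cyc3] using c.symm
  · simp [cyc3]

theorem Has.conj {w : FreeGroup P} {c : A} (h : Has M π f cl False v0 v0 w c) (l : P × Bool)
    (T : A →+ A) (hT : ∀ g d, cl (f (FreeGroup.mk [l]) * g) d = T (cl g d)) :
    Has M π f cl False v0 v0 (FreeGroup.mk [l] * w * (FreeGroup.mk [l])⁻¹) (T c) := by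
  classical
  obtain ⟨S, _, ⟨D⟩⟩ := h
  have i1 : ¬ D.In D.o := D.hmd.1
  have p1 : D.pos (D.φ D.o) = 1 := by rw [← D.pos_μ, D.μo, D.pos_o]
  have j0 : jn D.φ cyc3 D.o 1 (Sum.inr 0) = Sum.inr 1 := jn_r _ _ _ _ (by decide)
  have j1 : jn D.φ cyc3 D.o 1 (Sum.inr 1) = Sum.inl (D.φ D.o) := jn_a _ _ _ _
  have j2 : jn D.φ cyc3 D.o 1 (Sum.inr 2) = Sum.inr 0 := jn_r _ _ _ _ (by decide)
  have j3 : jn D.φ cyc3 D.o 1 (Sum.inl D.o) = Sum.inr 2 := jn_o _ _ _ _
  have s0 : swap (1 : Fin 3) 2 0 = 0 := by decide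
  have c3 : ∀ x : Fin 3, x = 0 ∨ x = 1 ∨ x = 2 := by decide
  refine ⟨S ⊕ Fin 3, inferInstance, ⟨⟨jn D.φ cyc3 D.o 1, Equiv.sumCongr D.μ (swap 1 2), Sum.inr 0,
    Sum.elim D.In fun _ => False, Sum.elim D.lb ![none, some l, some (rv l)],
    Sum.elim D.z fun _ => D.z D.o, Sum.elim D.tv fun _ => v0,
    Sum.elim (fun x => f (FreeGroup.mk [l]) * D.pos x) ![1, 1, f (FreeGroup.mk [l])],
    Sum.elim (fun x => FreeGroup.mk [l] * D.pF x)
      ![FreeGroup.mk [l] * w * (FreeGroup.mk [l])⁻¹, 1, FreeGroup.mk [l] * w], ?_, ?_, by simp [s0],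
    planar_jn _ _ _ _ D.planar planar_spike D.μμ D.μo, ?_, ?_, ?_, ?_, ?_, ?_, rfl, ?_, ?_,
    Iff.rfl, False.elim, fun h => ?_, ?_⟩⟩⟩
  · rintro (x | x) <;> simp [D.μμ]
  · rintro (x | x)
    · simp [D.null]
    · rcases c3 x with rfl | rfl | rfl <;> simp [s0]
  · rintro (x | x)
    · by_cases e : x = D.o
      · simp [e, j3, i1]
      · simp [jn_l _ _ _ _ e, D.In_φ]
    · rcases c3 x with rfl | rfl | rfl <;> simp [j0, j1, j2, D.In_φ, i1]
  · rintro (x | x)
    · simp [D.lb_μ]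
    · rcases c3 x with rfl | rfl | rfl <;> simp [s0]
  · rintro (x | x) l a b
    · rw [jn_l _ _ _ _ (D.ne_o b)]; exact D.dart x l a b
    · exact a.elim
  · rintro (x | x) a b e
    · have : x ≠ D.o := fun h => i1 (h ▸ a)
      rw [jn_l _ _ _ _ this]; exact D.tvnull x a this e
    · exact a.elim
  · rintro (x | x)
    · by_cases e : x = D.o
      · simp [e, j3, D.pos_o, D.lb_o]
      · simp [jn_l _ _ _ _ e, D.pos_φ, mul_assoc]
    · rcases c3 x with rfl | rfl | rfl
      · simp [j0]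
      · simp [j1, p1]
      · simp only [j2, Sum.elim_inr, Matrix.cons_val, lvF_some, mk_rv, map_inv, mul_inv_cancel]
  · rintro (x | x)
    · by_cases e : x = D.o
      · simp [e, j3, D.pos_o, D.μo]
      · simp [jn_l _ _ _ _ e, D.pos_μ]
    · rcases c3 x with rfl | rfl | rfl <;> simp [j0, j1, j2, s0, p1]
  · have l0 : Relation.ReflTransGen (fun p q => jn D.φ cyc3 D.o 1 p = q)
        (Sum.inr 0) (Sum.inr 1) := Relation.ReflTransGen.single j0
    have l1 : ∀ x, ¬ D.In x → Relation.ReflTransGen (fun p q => jn D.φ cyc3 D.o 1 p = q)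
        (Sum.inr 0) (Sum.inl x) := fun x hx =>
      l0.trans (rtg_jn_l _ _ _ _ (rtg_shift (D.reach x hx)) rfl)
    rintro (x | x) hx
    · exact l1 x hx
    · rcases c3 x with rfl | rfl | rfl
      · rfl
      · exact l0
      · exact (l1 _ i1).tail j3
  · rintro (x | x) a b
    · by_cases e : x = D.o
      · simp [e, j3, (D.hw id).2, D.lb_o]
      · simp [jn_l _ _ _ _ e, D.pF_φ x a e, mul_assoc]
    · rcases c3 x with rfl | rfl | rfl
      · exact absurd rfl b
      · simp [j1, (D.hw id).1]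
      · simp only [j2, Sum.elim_inr, Matrix.cons_val, lvF_some, mk_rv]
  · simp [j0]
  · rw [Fintype.sum_sum_type, ← congrArg T D.hc, map_sum]
    simp only [Sum.elim_inl, Sum.elim_inr, false_and, if_false, sum_const_zero, add_zero]
    refine sum_congr rfl fun x _ => ?_
    split_ifs <;> simp [hT]

/-- mirror of the double of a cycle -/
def dbl {X : Type} [DecidableEq X] (b : X) : Perm (X ⊕ X) :=
  Function.Involutive.toPerm (fun x => if x = Sum.inl b ∨ x = Sum.inr b then x else x.swap) (by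
    rintro (x | x) <;> by_cases e : x = b <;> simp [e])

theorem dbl_l {X : Type} [DecidableEq X] (b x : X) :
    dbl b (Sum.inl x) = if x = b then Sum.inl x else Sum.inr x := by simp [dbl]
theorem dbl_r {X : Type} [DecidableEq X] (b x : X) :
    dbl b (Sum.inr x) = if x = b then Sum.inr x else Sum.inl x := by simp [dbl]

theorem planar_dbl {X : Type} [DecidableEq X] (c : Perm X) (b : X) :
    Planar (Equiv.sumCongr c c.symm) (dbl b) := by
  intro ξ h1 h2
  have a1 := h2 (Sum.inl b) (by simp [dbl_l])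
  have a2 := h2 (Sum.inr b) (by simp [dbl_r])
  simp only [sumCongr_apply, Sum.map_inl, Sum.map_inr] at a1 a2
  refine ⟨Sum.elim (fun _ => 0) fun x => ξ (Sum.inl (c x)) + ξ (Sum.inr x), ?_, ?_⟩
  · rintro (x | x)
    · simp
    · by_cases e : x = b
      · simp [e, a1, a2]
      · have := h1 (Sum.inl x)
        simp only [dbl_l, e, if_false, sumCongr_apply, Sum.map_inl, Sum.map_inr, Sum.elim_inr,
          apply_symm_apply] at this ⊢
        revert this
        generalize ξ (Sum.inl x) = t1; generalize ξ (Sum.inl (c x)) = t2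
        generalize ξ (Sum.inr x) = t3; generalize ξ (Sum.inr (c.symm x)) = t4
        revert t1 t2 t3 t4; decide
  · have z : ∀ a b : ZMod 2, a + (b + a) = b := by decide
    rintro (x | x) <;> by_cases e : x = b <;> simp [dbl_l, dbl_r, e, a1, z]

theorem Has.polygon (hcl : ∀ g d, cl (g * f (FreeGroup.mk [M.dl d])) (rv d) = - cl g d)
    {τ : ℕ → W ⊕ B} {z : ℕ → E × Bool} {n : ℕ} (hw : M.Wk π τ z n) (hc : τ n = τ 0)
    (hf : f (wv (fun i => M.dl (z i)) n) = 1) :
    Has M π f cl False v0 v0 (wv (fun i => M.dl (z i)) n)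
      (- ∑ i ∈ range n, cl (f (wv (fun i => M.dl (z i)) i)) (z i)) := by
  classical
  let c := finRotate (n + 1)
  have c1 : ∀ x : Fin (n + 1), x ≠ Fin.last n → (c x).1 = x.1 + 1 := fun x hx => by
    simp only [c, finRotate_succ_apply]
    exact Fin.val_add_one_of_lt (lt_of_le_of_ne (Fin.le_last x) hx)
  have c2 : (c (Fin.last n)).1 = 0 := by simp [c]
  have c3 : ∀ x : Fin (n + 1), x ≠ Fin.last n → x.1 < n := fun x hx => Fin.val_lt_last hx
  refine ⟨Fin (n + 1) ⊕ Fin (n + 1), inferInstance, ⟨⟨Equiv.sumCongr c c.symm, dbl (Fin.last n),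
    Sum.inl (Fin.last n), Sum.elim (fun _ => False) fun _ => True,
    Sum.elim (fun x => if x = Fin.last n then none else some (M.dl (z x)))
      (fun x => if x = Fin.last n then none else some (rv (M.dl (z x)))),
    Sum.elim (fun x => z x) fun x => rv (z x), Sum.elim (fun _ => v0) fun x => τ (c x),
    Sum.elim (fun x => f (wv (fun i => M.dl (z i)) x)) fun x => f (wv (fun i => M.dl (z i)) (c x)),
    Sum.elim (fun x => wv (fun i => M.dl (z i)) x) fun _ => 1, ?_, ?_, by simp [dbl_l],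
    planar_dbl _ _, ?_, ?_, ?_, ?_, ?_, ?_, hf, ?_, ?_, Iff.rfl, False.elim, fun _ => ?_, ?_⟩⟩⟩
  · exact (Function.Involutive.toPerm_involutive _)
  · rintro (x | x) <;> by_cases e : x = Fin.last n <;> simp [dbl_l, dbl_r, e]
  · rintro (x | x) <;> simp
  · rintro (x | x) <;> by_cases e : x = Fin.last n <;> simp [dbl_l, dbl_r, e]
  · rintro (x | x) l a b
    · exact a.elim
    · simp only [Sum.elim_inr] at b
      split_ifs at b with e
      simp [c1 x e, hw x (c3 x e), ← Option.some.inj b]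
  · rintro (x | x) a b e
    · exact a.elim
    · simp only [Sum.elim_inr] at e
      split_ifs at e with e'
      simp [e', c2, hc]
  · rintro (x | x) <;> by_cases e : x = Fin.last n
    · simp [e, c2, hf]
    · simp [e, c1 x e, wv_succ]
    · simp [e, c2, hf]
    · simp only [e, c1 x e, wv_succ, sumCongr_apply, Sum.map_inr, Sum.elim_inr, apply_symm_apply,
        if_false, lvF_some, mk_rv, map_mul, map_inv, mul_inv_cancel_right]
  · rintro (x | x) <;> by_cases e : x = Fin.last n <;> simp [dbl_l, dbl_r, e, c2, hf]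
  · rintro (x | x) hx
    · clear hx
      induction x using Fin.induction with
      | zero => exact Relation.ReflTransGen.single (by simp [Fin.ext_iff, c2])
      | succ i ih => exact ih.tail (by simp [Fin.ext_iff, c1 _ (Fin.castSucc_ne_last i)])
    · exact (hx trivial).elim
  · rintro (x | x) a b
    · have e : x ≠ Fin.last n := fun h => b (by rw [h])
      simp [e, c1 x e, wv_succ]
    · exact (a trivial).elim
  · simp [c2]
  · rw [Fintype.sum_sum_type, sum_range, ← sum_neg_distrib]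
    simp only [Sum.elim_inl, false_and, if_false, sum_const_zero, zero_add]
    rw [Fin.sum_univ_castSucc]
    simp [c1 _ (Fin.castSucc_ne_last _), wv_succ, hcl]

end Crest.Agent.H6.Kap
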