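import Mathlib
import Crest.Agent.H6.KBase

/-! Switching: permutations of large girth exist, and a partial matching is contained in few. -/

namespace Crest.Agent.H6.Kap

open Finset

variable {P E W B C : Type} {M : Mdl P E W B C}

theorem exists_least {p : ℕ → Prop} (h : ∃ i, p i) : ∃ i, p i ∧ ∀ j < i, ¬ p j := by
  classical
  exact ⟨Nat.find h, Nat.find_spec h, fun j hj => Nat.find_min h hj⟩

namespace Mdl

variable (M) in
/-- joined by a walk of length at most `n` -/
def Rch (π : Equiv.Perm E) (n : ℕ) (u v : W ⊕ B) : Prop :=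
  ∃ τ z k, k ≤ n ∧ M.Wk π τ z k ∧ τ 0 = u ∧ τ k = v

theorem Rch.symm {π : Equiv.Perm E} {n : ℕ} {u v : W ⊕ B} (h : M.Rch π n u v) : M.Rch π n v u := by
  obtain ⟨τ, z, k, hk, hw, h0, h1⟩ := h
  exact ⟨_, _, k, hk, hw.rev, by simpa using h1, by simpa using h0⟩

variable [Fintype P] [Fintype E]

open Classical in
theorem card_tl_le {π : Equiv.Perm E} (hπ : M.CP π) (s : Finset (W ⊕ B)) :
    (univ.filter fun d : E × Bool => M.tl π d ∈ s).card ≤ s.card * Fintype.card P := by
  rw [← Finset.card_univ, ← Finset.card_product]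
  refine Finset.card_le_card_of_injOn (fun d => (M.tl π d, (M.dl d).1)) ?_ ?_
  · intro d hd; simpa using hd
  · intro d _ d' _ h
    simp only [Prod.mk.injEq] at h
    exact dart_inj hπ h.1 h.2

theorem ball_card {π : Equiv.Perm E} (hπ : M.CP π) (u : W ⊕ B) (n : ℕ) :
    ∃ s : Finset (W ⊕ B), s.card ≤ (Fintype.card P + 1) ^ n ∧ ∀ v, M.Rch π n u v → v ∈ s := by
  classical
  induction n with
  | zero =>
    refine ⟨{u}, by simp, ?_⟩
    rintro v ⟨τ, z, k, hk, hw, h0, h1⟩
    obtain rfl : k = 0 := by omega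
    simp [← h0, ← h1]
  | succ n ih =>
    obtain ⟨s, hs, hs'⟩ := ih
    refine ⟨s ∪ (univ.filter fun d : E × Bool => M.tl π d ∈ s).image (M.hd π), ?_, ?_⟩
    · refine (card_union_le _ _).trans ?_
      have := card_tl_le hπ s
      have h2 := card_image_le (s := univ.filter fun d : E × Bool => M.tl π d ∈ s) (f := M.hd π)
      calc _ ≤ s.card + s.card * Fintype.card P := by
            refine Nat.add_le_add_left (h2.trans ?_) _
            convert this
        _ = s.card * (Fintype.card P + 1) := by ring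
        _ ≤ _ := by rw [pow_succ]; exact Nat.mul_le_mul_right _ hs
    · rintro v ⟨τ, z, k, hk, hw, h0, h1⟩
      rcases Nat.eq_zero_or_pos k with rfl | hk0
      · exact mem_union_left _ (hs' v ⟨τ, z, 0, by omega, hw, h0, h1⟩)
      · refine mem_union_right _ (mem_image.2 ⟨z (k - 1), ?_, ?_⟩)
        · simp only [mem_filter, mem_univ, true_and]
          refine hs' _ ⟨τ, z, k - 1, by omega, fun i hi => hw i (by omega), h0, ?_⟩
          exact (hw _ (by omega)).1.symm
        · rw [(hw _ (by omega)).2, show k - 1 + 1 = k by omega, h1]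

variable (M) in
/-- edges near to a given edge -/
def Near (π : Equiv.Perm E) (g : ℕ) (x x' : E) : Prop :=
  ∃ b b', M.Rch π g (M.tl π (x, b)) (M.tl π (x', b'))

open Classical in
theorem near_card {π : Equiv.Perm E} (hπ : M.CP π) (g : ℕ) (x : E) :
    (univ.filter fun x' => M.Near π g x x').card ≤ 2 * (Fintype.card P + 1) ^ (g + 1) := by
  obtain ⟨s, hs, hs'⟩ := ball_card hπ (M.tl π (x, true)) g
  obtain ⟨t, ht, ht'⟩ := ball_card hπ (M.tl π (x, false)) g
  have h1 := card_tl_le hπ (s ∪ t)
  have h2 : (univ.filter fun x' => M.Near π g x x') ⊆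
      (univ.filter fun d : E × Bool => M.tl π d ∈ s ∪ t).image Prod.fst := by
    intro x' hx'
    obtain ⟨b, b', h⟩ := (mem_filter.1 hx').2
    refine mem_image.2 ⟨(x', b'), ?_, rfl⟩
    simp only [mem_filter, mem_univ, true_and, mem_union]
    cases b
    · exact Or.inr (ht' _ h)
    · exact Or.inl (hs' _ h)
  have h3 := card_union_le s t
  calc _ ≤ _ := card_le_card h2
    _ ≤ _ := card_image_le
    _ ≤ (s ∪ t).card * Fintype.card P := by convert h1
    _ ≤ (2 * (Fintype.card P + 1) ^ g) * (Fintype.card P + 1) :=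
        Nat.mul_le_mul (by omega) (by omega)
    _ = _ := by ring

omit [Fintype P] [Fintype E] in
theorem swap_avoid [DecidableEq E] {π : Equiv.Perm E} {g : ℕ} (hg : M.Girth π g) {x x' : E}
    (hfar : ¬ M.Near π g x x') {τ : ℕ → W ⊕ B} {z : ℕ → E × Bool} {n : ℕ}
    (hw : M.Wk (π * Equiv.swap x x') τ z n) (hr : Red z n) (hn : n ≤ g + 1) (hc : τ n = τ 0) :
    ∀ i < n, ¬ ((z i).1 = x ∨ (z i).1 = x') := by
  classical
  set σ := Equiv.swap x x' with hσ
  have hxx : x ≠ x' := by
    rintro rfl
    exact hfar ⟨true, true, fun _ => M.tl π (x, true), fun _ => (x, true), 0, by omega,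
      fun i hi => by omega, rfl, rfl⟩
  let inn : E × Bool → E × Bool := fun d => (if d.2 then σ d.1 else d.1, d.2)
  let out : E × Bool → E × Bool := fun d => (if d.2 then d.1 else σ d.1, d.2)
  have hin : ∀ d, M.hd (π * σ) d = M.hd π (inn d) := by
    rintro ⟨e, b⟩; cases b <;> simp [inn]
  have hout : ∀ d, M.tl (π * σ) d = M.tl π (out d) := by
    rintro ⟨e, b⟩; cases b <;> simp [out]
  have hsp : ∀ e, (e = x ∨ e = x') → (σ e = x ∨ σ e = x') ∧ σ e ≠ e := by
    rintro e (rfl | rfl)
    · simp [hσ, hxx.symm]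
    · simp [hσ, hxx]
  have hns : ∀ d : E × Bool, ¬ (d.1 = x ∨ d.1 = x') →
      M.tl (π * σ) d = M.tl π d ∧ M.hd (π * σ) d = M.hd π d := by
    intro d hd
    push Not at hd
    have : σ d.1 = d.1 := Equiv.swap_apply_of_ne_of_ne hd.1 hd.2
    rw [hin, hout]
    simp [inn, out, this]
  have hseg : ∀ a k, a + k ≤ n → (∀ i < k, ¬ ((z (a + i)).1 = x ∨ (z (a + i)).1 = x')) →
      M.Wk π (fun i => τ (a + i)) (fun i => z (a + i)) k := by
    intro a k hk h i hi
    have := hw (a + i) (by omega)
    rw [(hns _ (h i hi)).1, (hns _ (h i hi)).2] at this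
    exact this
  have hfar' : ∀ d d' : E × Bool, (d.1 = x ∨ d.1 = x') → (d'.1 = x ∨ d'.1 = x') → d.1 ≠ d'.1 →
      ¬ M.Rch π g (M.hd π d) (M.tl π d') := by
    rintro ⟨e, b⟩ ⟨e', b'⟩ h1 h2 h3 h
    simp only at h1 h2 h3
    rcases h1 with rfl | rfl <;> rcases h2 with rfl | rfl
    · exact h3 rfl
    · exact hfar ⟨!b, b', h⟩
    · exact hfar ⟨b', !b, h.symm⟩
    · exact h3 rfl
  have hinsp : ∀ d : E × Bool, (d.1 = x ∨ d.1 = x') → ((inn d).1 = x ∨ (inn d).1 = x') := by
    rintro ⟨e, b⟩ h; cases b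
    · simpa [inn] using h
    · simpa [inn] using (hsp e h).1
  have houtsp : ∀ d : E × Bool, (d.1 = x ∨ d.1 = x') → ((out d).1 = x ∨ (out d).1 = x') := by
    rintro ⟨e, b⟩ h; cases b
    · simpa [out] using (hsp e h).1
    · simpa [out] using h
  by_contra hcon
  push Not at hcon
  have hex : ∃ i, i < n ∧ ((z i).1 = x ∨ (z i).1 = x') := hcon
  obtain ⟨i, ⟨hi, hix⟩, himin'⟩ := exists_least hex
  have himin : ∀ j < i, ¬ ((z j).1 = x ∨ (z j).1 = x') := fun j hj h =>
    himin' j hj ⟨by omega, h⟩
  have hA : τ (i + 1) = M.hd π (inn (z i)) := by rw [← hin, (hw i hi).2]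
  by_cases hex2 : ∃ k, i + 1 + k < n ∧ ((z (i + 1 + k)).1 = x ∨ (z (i + 1 + k)).1 = x')
  · obtain ⟨k, ⟨hk, hkx⟩, hkmin'⟩ := exists_least hex2
    have hkmin : ∀ j < k, ¬ ((z (i + 1 + j)).1 = x ∨ (z (i + 1 + j)).1 = x') := fun j hj h =>
      hkmin' j hj ⟨by omega, h⟩
    have hs := hseg (i + 1) k (by omega) hkmin
    have hB : τ (i + 1 + k) = M.tl π (out (z (i + 1 + k))) := by rw [← hout, (hw _ hk).1]
    by_cases he : (inn (z i)).1 = (out (z (i + 1 + k))).1
    · rcases eq_or_rv he with h | h
      · have hw1 : M.Wk π (fun j => if j = 0 then M.tl π (inn (z i)) else M.hd π (inn (z i)))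
            (fun _ => inn (z i)) 1 := fun j hj => by simp [show j = 0 by omega]
        have hj : (fun j => if j = 0 then M.tl π (inn (z i)) else M.hd π (inn (z i))) 1 =
            (fun j => τ (i + 1 + j)) 0 := by simp [hA]
        refine hg _ _ (1 + k) (by omega) (by omega) (hw1.cat hs hj)
          (Red.cat (fun j hj => by omega) (hr.shift (i + 1) k (by omega)) fun _ hk0 h' => ?_) ?_
        · apply hkmin 0 hk0
          have := congrArg Prod.fst h'
          simp only [rv_fst] at this
          rw [this]; exact hinsp _ hix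
        · rw [cat_end, cat_zero 1 _ _ hj]
          simp [hB, h]
      · rcases Nat.eq_zero_or_pos k with hk0 | hk0
        · rw [hk0, add_zero] at h
          apply hr i (by omega)
          have h1 := congrArg Prod.fst h
          have h2 := congrArg Prod.snd h
          simp only [inn, out, rv_fst, rv_snd] at h1 h2
          refine Prod.ext ?_ h2
          rw [h2] at h1
          cases hb : (z i).2 <;> simp [hb] at h1 <;> simpa using h1
        · refine hg _ _ k hk0 (by omega) hs (hr.shift (i + 1) k (by omega)) ?_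
          simp [hB, h, hA]
    · refine hfar' _ _ (hinsp _ hix) (houtsp _ hkx) he ⟨_, _, k, by omega, hs, ?_, hB⟩
      simpa using hA
  · push Not at hex2
    have hs1 := hseg (i + 1) (n - (i + 1)) (by omega) fun j hj => by
      have := hex2 j (by omega); tauto
    have hs2 := hseg 0 i (by omega) fun j hj => by simpa using himin j hj
    have hj : (fun j => τ (i + 1 + j)) (n - (i + 1)) = (fun j => τ (0 + j)) 0 := by
      simp [show i + 1 + (n - (i + 1)) = n by omega, hc]
    refine hfar' _ _ (hinsp _ hix) (houtsp _ hix) ?_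
      ⟨_, _, _, by omega, hs1.cat hs2 hj, ?_, ?_⟩
    · have := (hsp _ hix).2
      cases hb : (z i).2 <;> simp [inn, out, hb, this, this.symm]
    · rw [cat_zero _ (fun j => τ (i + 1 + j)) (fun j => τ (0 + j)) hj]; simpa using hA
    · rw [cat_end]; simp [← hout, (hw i hi).1]

omit [Fintype P] [Fintype E] in
theorem swap_wk [DecidableEq E] {π : Equiv.Perm E} {g : ℕ} (hg : M.Girth π g) {x x' : E}
    (hfar : ¬ M.Near π g x x') {τ : ℕ → W ⊕ B} {z : ℕ → E × Bool} {n : ℕ}
    (hw : M.Wk (π * Equiv.swap x x') τ z n) (hr : Red z n) (hn : n ≤ g + 1) (hc : τ n = τ 0) :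
    M.Wk π τ z n := by
  intro i hi
  have h := swap_avoid hg hfar hw hr hn hc i hi
  push Not at h
  have h1 : Equiv.swap x x' (z i).1 = (z i).1 := Equiv.swap_apply_of_ne_of_ne h.1 h.2
  have := hw i hi
  revert this h1
  rcases z i with ⟨e, b⟩
  cases b <;> intro h1 <;> simp only at h1 <;> simp [h1]

omit [Fintype P] [Fintype E] in
theorem swap_girth [DecidableEq E] {π : Equiv.Perm E} {g : ℕ} (hg : M.Girth π g) {x x' : E}
    (hfar : ¬ M.Near π g x x') : M.Girth (π * Equiv.swap x x') g := by
  intro τ z n h0 hn hw hr hc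
  exact hg τ z n h0 hn (swap_wk hg hfar hw hr (by omega) hc) hr hc

omit [Fintype P] [Fintype E] in
theorem swap_cp [DecidableEq E] {π : Equiv.Perm E} (hπ : M.CP π) {x x' : E}
    (h : M.col x' = M.col x) : M.CP (π * Equiv.swap x x') := by
  intro e
  rw [Equiv.Perm.mul_apply, hπ, Equiv.swap_apply_def]
  split_ifs with h1 h2
  · rw [h1, h]
  · rw [h2, h]
  · rfl

open Classical in
variable (M) in
/-- the colour preserving permutations of girth more than `g` -/
noncomputable def Good (g : ℕ) : Finset (Equiv.Perm E) :=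
  univ.filter fun π => M.CP π ∧ M.Girth π g

omit [Fintype P] in
theorem mem_good {g : ℕ} {π : Equiv.Perm E} : π ∈ M.Good g ↔ M.CP π ∧ M.Girth π g := by
  simp [Good]

open Classical in
theorem cand_card {π : Equiv.Perm E} (hπ : M.CP π) (g m : ℕ)
    (hm : ∀ e, m ≤ (univ.filter fun e' => M.col e' = M.col e).card) (x : E) (s : Finset E) :
    m ≤ (univ.filter fun x' => M.col x' = M.col x ∧ ¬ M.Near π g x x' ∧ x' ∉ s).card +
      2 * (Fintype.card P + 1) ^ (g + 1) + s.card := by
  have h1 := near_card hπ g x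
  have h2 : (univ.filter fun e' => M.col e' = M.col x) ⊆
      (univ.filter fun x' => M.col x' = M.col x ∧ ¬ M.Near π g x x' ∧ x' ∉ s) ∪
      (univ.filter fun x' => M.Near π g x x') ∪ s := by
    intro e he
    simp only [mem_filter, mem_univ, true_and, mem_union] at he ⊢
    tauto
  have h3 := card_le_card h2
  have h4 := card_union_le ((univ.filter fun x' => M.col x' = M.col x ∧ ¬ M.Near π g x x' ∧ x' ∉ s) ∪
      (univ.filter fun x' => M.Near π g x x')) s
  have h5 := card_union_le (univ.filter fun x' => M.col x' = M.col x ∧ ¬ M.Near π g x x' ∧ x' ∉ s)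
      (univ.filter fun x' => M.Near π g x x')
  have := hm x
  omega

open Classical in
theorem good_nonempty (m : ℕ) (hm : ∀ e, m ≤ (univ.filter fun e' => M.col e' = M.col e).card) :
    ∀ g, 2 * (Fintype.card P + 1) ^ (g + 1) < m → (M.Good g).Nonempty := by
  intro g
  induction g with
  | zero =>
    intro _
    exact ⟨1, mem_good.2 ⟨fun e => rfl, fun τ z n h0 hn => by omega⟩⟩
  | succ g ih =>
    intro hg
    have hg' : 2 * (Fintype.card P + 1) ^ (g + 1) < m := by
      have : (Fintype.card P + 1) ^ (g + 1) ≤ (Fintype.card P + 1) ^ (g + 1 + 1) :=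
        Nat.pow_le_pow_right (by omega) (by omega)
      omega
    let Cy : Equiv.Perm E → Finset (Fin (g + 1) → E × Bool) := fun π => univ.filter fun y =>
      ∃ τ z, (∀ i : Fin (g + 1), z i = y i) ∧ M.Wk π τ z (g + 1) ∧ Red z (g + 1) ∧ τ (g + 1) = τ 0
    obtain ⟨π, hπ, hmin⟩ := exists_min_image (M.Good g) (fun π => (Cy π).card) (ih hg')
    obtain ⟨hcp, hgi⟩ := mem_good.1 hπ
    refine ⟨π, mem_good.2 ⟨hcp, fun τ z n h0 hn hw hr hc => ?_⟩⟩
    by_cases hn' : n ≤ g
    · exact hgi τ z n h0 hn' hw hr hc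
    obtain rfl : n = g + 1 := by omega
    have hc1 := cand_card hcp g m hm (z 0).1 ∅
    obtain ⟨x', hx'⟩ : (univ.filter fun x' => M.col x' = M.col (z 0).1 ∧
        ¬ M.Near π g (z 0).1 x' ∧ x' ∉ (∅ : Finset E)).Nonempty := by
      rw [← card_pos]; simp only [card_empty] at hc1; omega
    obtain ⟨h1, h2, -⟩ := (mem_filter.1 hx').2
    have := hmin _ (mem_good.2 ⟨swap_cp hcp h1, swap_girth hgi h2⟩)
    refine absurd this (not_le.2 (card_lt_card ⟨fun y hy => ?_, fun hsub => ?_⟩))
    · obtain ⟨τ', z', e1, e2, e3, e4⟩ := (mem_filter.1 hy).2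
      exact mem_filter.2 ⟨mem_univ _, τ', z', e1, swap_wk hgi h2 e2 e3 le_rfl e4, e3, e4⟩
    · have : (fun i : Fin (g + 1) => z i) ∈ Cy π :=
        mem_filter.2 ⟨mem_univ _, τ, z, fun _ => rfl, hw, hr, hc⟩
      obtain ⟨τ', z', e1, e2, e3, e4⟩ := (mem_filter.1 (hsub this)).2
      apply swap_avoid hgi h2 e2 e3 le_rfl e4 0 (by omega)
      left
      exact congrArg Prod.fst (e1 0)

open Classical in
theorem good_contain (g m M0 k : ℕ) (hm : ∀ e, m ≤ (univ.filter fun e' => M.col e' = M.col e).card)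
    (hM : M0 + 2 * (Fintype.card P + 1) ^ (g + 1) + k ≤ m) (F : Finset (E × E)) (hF : F.card ≤ k) :
    ((M.Good g).filter fun π => ∀ p ∈ F, π p.1 = p.2).card * M0 ^ F.card ≤ (M.Good g).card := by
  induction F using Finset.induction_on with
  | empty => simp
  | insert q F hq ih =>
    rw [card_insert_of_notMem hq] at hF ⊢
    refine le_trans ?_ (ih (by omega))
    rw [pow_succ', ← mul_assoc]
    refine Nat.mul_le_mul_right _ ?_
    set A := (M.Good g).filter fun π => ∀ p ∈ insert q F, π p.1 = p.2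
    let cand : Equiv.Perm E → Finset E := fun π => univ.filter fun x' =>
      M.col x' = M.col q.1 ∧ ¬ M.Near π g q.1 x' ∧ x' ∉ F.image Prod.fst
    calc A.card * M0 = ∑ π ∈ A, M0 := by simp
      _ ≤ ∑ π ∈ A, (cand π).card := by
          refine sum_le_sum fun π hπ => ?_
          have h1 := cand_card (mem_good.1 (mem_filter.1 hπ).1).1 g m hm q.1 (F.image Prod.fst)
          have h2 := card_image_le (s := F) (f := Prod.fst)
          simp only [cand]
          omega
      _ = (A.sigma cand).card := (card_sigma _ _).symm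
      _ ≤ _ := by
          refine card_le_card_of_injOn (fun p => p.1 * Equiv.swap q.1 p.2) ?_ ?_
          · rintro ⟨π, x'⟩ hp
            obtain ⟨h1, h2⟩ := mem_sigma.1 (mem_coe.1 hp)
            obtain ⟨h3, h4⟩ := mem_filter.1 h1
            obtain ⟨h5, h6, h7⟩ := (mem_filter.1 h2).2
            obtain ⟨h8, h9⟩ := mem_good.1 h3
            refine mem_coe.2 (mem_filter.2 ⟨mem_good.2 ⟨swap_cp h8 h5, swap_girth h9 h6⟩, ?_⟩)
            intro p hp
            have e1 := h4 p (mem_insert_of_mem hp)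
            have e2 := h4 q (mem_insert_self _ _)
            rw [Equiv.Perm.mul_apply, Equiv.swap_apply_of_ne_of_ne, e1]
            · intro h
              apply hq
              have : p = q := Prod.ext h (by rw [← e1, ← e2, h])
              rwa [← this]
            · intro h
              exact h7 (mem_image.2 ⟨p, hp, h⟩)
          · rintro ⟨π, x'⟩ hp ⟨π', x''⟩ hp' h
            have e1 := (mem_filter.1 (mem_sigma.1 (mem_coe.1 hp)).1).2 q (mem_insert_self _ _)
            have e2 := (mem_filter.1 (mem_sigma.1 (mem_coe.1 hp')).1).2 q (mem_insert_self _ _)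
            simp only at h e1 e2
            have h1 : (π * Equiv.swap q.1 x') x' = q.2 := by simp [e1]
            have h2 : (π' * Equiv.swap q.1 x'') x'' = q.2 := by simp [e2]
            rw [← h, ← h1] at h2
            obtain rfl := (π * Equiv.swap q.1 x').injective h2
            obtain rfl := mul_right_cancel h
            rfl

end Mdl

end Crest.Agent.H6.Kap
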