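import Mathlib
import Crest.Agent.H6.KSwitch

/-! Counting realisations of a finite pattern. -/

namespace Crest.Agent.H6.Kap

open Finset

variable {P E W B C : Type} {M : Mdl P E W B C}

namespace Mdl

open Classical in
variable (M) in
/-- numerical and structural properties of the model used in the count -/
structure Nice [Fintype E] (Np nw mp : ℕ) : Prop where
  colW : ∀ e1 e2 e1' e2', M.src e1 = M.src e2 → M.src e1' = M.src e2' → M.col e1 = M.col e1' →
    M.lab (M.col e2) = M.lab (M.col e2') → M.col e2 = M.col e2'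
  colB : ∀ e1 e2 e1' e2', M.tg e1 = M.tg e2 → M.tg e1' = M.tg e2' → M.col e1 = M.col e1' →
    M.lab (M.col e2) = M.lab (M.col e2') → M.col e2 = M.col e2'
  pairs : ∃ s : Finset (P × P), s.card ≤ Np ∧ ∀ e1 e2, M.tg e1 = M.tg e2 → e1 ≠ e2 →
    (M.lab (M.col e1), M.lab (M.col e2)) ∈ s
  two : ∀ c1 c2, M.lab c1 ≠ M.lab c2 → ∃ s : Finset W, s.card ≤ nw ∧
    ∀ e1 e2, M.src e1 = M.src e2 → M.col e1 = c1 → M.col e2 = c2 → M.src e1 ∈ s
  mx : ∀ c, (univ.filter fun e => M.col e = c).card ≤ mp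

variable (M) in
/-- realisations of a pattern -/
structure Real {J A A' : Type} (a : J → A) (b : J → A') (Rel : J → J → Prop) (rt : A) (root : W)
    (f : J → E × E) : Prop where
  ha : ∀ j j', a j = a j' → M.src (f j).1 = M.src (f j').1
  hb : ∀ j j', b j = b j' → M.tg (f j).2 = M.tg (f j').2
  hc : ∀ j, M.col (f j).2 = M.col (f j).1
  inj1 : ∀ j j', (f j).1 = (f j').1 → j = j'
  inj2 : ∀ j j', (f j).2 = (f j').2 → j = j'
  hr : ∀ j j', Rel j j' → M.lab (M.col (f j).1) = M.lab (M.col (f j').1)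
  hrt : ∀ j, a j = rt → M.src (f j).1 = root

variable [Fintype E] [Fintype C] {J A A' : Type} [Fintype J] {Np nw mp : ℕ}

open Classical in
theorem count_col (hN : M.Nice Np nw mp) (a : J → A) (b : J → A') (Rel : J → J → Prop) (rt : A)
    (root : W) (Exc : Finset J) (Free : Finset A')
    (hfree : ∀ β ∈ Free, ∃ j1 j2, j1 ≠ j2 ∧ b j1 = β ∧ b j2 = β ∧ ∀ j, b j = β → j = j1 ∨ j = j2)
    (hlab : ∀ l l' : J → P, (∀ j j', Rel j j' → l j = l j') → (∀ j j', Rel j j' → l' j = l' j') →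
      (∀ j ∈ Exc, l j = l' j) → (∀ j, b j ∈ Free → l j = l' j) → ∀ j, l j = l' j)
    (hcol : ∀ Q : J → Prop, (∀ j ∈ Exc, Q j) →
      (∀ j j', (a j = a j' ∨ b j = b j') → Q j → Q j') → ∀ j, Q j) :
    ((univ.filter fun f : J → E × E => M.Real a b Rel rt root f).image
      fun f j => M.col (f j).1).card ≤ Fintype.card C ^ Exc.card * Np ^ Free.card := by
  obtain ⟨s, hs, hs'⟩ := hN.pairs
  choose j1 j2 hj using hfree
  let T : Finset ((Exc → C) × (Free → P × P)) := univ ×ˢ Fintype.piFinset fun _ => s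
  have hT : T.card ≤ Fintype.card C ^ Exc.card * Np ^ Free.card := by
    simp only [T, card_product, card_univ, Fintype.card_fun, Fintype.card_coe,
      Fintype.card_piFinset, prod_const]
    exact Nat.mul_le_mul_left _ (Nat.pow_le_pow_left hs _)
  refine le_trans (card_le_card_of_injOn (fun c => (fun j => c j.1,
    fun β => (M.lab (c (j1 β.1 β.2)), M.lab (c (j2 β.1 β.2))))) ?_ ?_) hT
  · intro c hc
    obtain ⟨f, hf, rfl⟩ := mem_image.1 (mem_coe.1 hc)
    have hf := (mem_filter.1 hf).2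
    simp only [T, coe_product, Set.mem_prod, mem_coe, mem_univ, true_and, Fintype.mem_piFinset]
    intro β
    obtain ⟨h1, h2, h3, -⟩ := hj β.1 β.2
    rw [← hf.hc, ← hf.hc]
    exact hs' _ _ (hf.hb _ _ (h2.trans h3.symm)) fun h => h1 (hf.inj2 _ _ h)
  · intro c hc c' hc' h
    obtain ⟨f, hf, rfl⟩ := mem_image.1 (mem_coe.1 hc)
    obtain ⟨f', hf', rfl⟩ := mem_image.1 (mem_coe.1 hc')
    have hf := (mem_filter.1 hf).2
    have hf' := (mem_filter.1 hf').2
    simp only [Prod.mk.injEq] at h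
    have h1 : ∀ j ∈ Exc, M.col (f j).1 = M.col (f' j).1 := fun j hj => congrFun h.1 ⟨j, hj⟩
    have h2 := hlab (fun j => M.lab (M.col (f j).1)) (fun j => M.lab (M.col (f' j).1)) hf.hr hf'.hr
      (fun j hj => by rw [h1 j hj]) (fun j hjF => by
        have := congrFun h.2 ⟨b j, hjF⟩
        simp only [Prod.mk.injEq] at this
        rcases (hj _ hjF).2.2.2 j rfl with e | e
        · rw [e]; exact this.1
        · rw [e]; exact this.2)
    funext j
    refine hcol (fun j => M.col (f j).1 = M.col (f' j).1) h1 ?_ j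
    rintro j j' (e | e) hq
    · exact hN.colW _ _ _ _ (hf.ha _ _ e) (hf'.ha _ _ e) hq (h2 j')
    · rw [← hf.hc, ← hf'.hc]
      refine hN.colB _ _ _ _ (hf.hb _ _ e) (hf'.hb _ _ e) ?_ ?_
      · rw [hf.hc, hf'.hc, hq]
      · rw [hf.hc, hf'.hc]; exact h2 j'

open Classical in
theorem count_fiber (hN : M.Nice Np nw mp) (a : J → A) (b : J → A') (Rel : J → J → Prop) (rt : A)
    (root : W) (W2 : Finset A)
    (hW2 : ∀ α ∈ W2, α ≠ rt ∧ ∃ j1 j2, j1 ≠ j2 ∧ a j1 = α ∧ a j2 = α) (c : J → C) :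
    ((univ.filter fun f : J → E × E => M.Real a b Rel rt root f).filter
      fun f => (fun j => M.col (f j).1) = c).card ≤
      nw ^ W2.card * mp ^ (((univ.image a).erase rt \ W2).card + (univ.image b).card) := by
  set X := (univ.filter fun f : J → E × E => M.Real a b Rel rt root f).filter
      fun f => (fun j => M.col (f j).1) = c
  rcases X.eq_empty_or_nonempty with h0 | ⟨f0, hf0⟩
  · rw [h0]; simp
  have hX : ∀ f ∈ X, M.Real a b Rel rt root f ∧ ∀ j, M.col (f j).1 = c j := fun f hf =>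
    ⟨(mem_filter.1 (mem_filter.1 hf).1).2, fun j => congrFun (mem_filter.1 hf).2 j⟩
  have hW : ∀ α ∈ W2, ∃ j, a j = α ∧ ∃ s : Finset W, s.card ≤ nw ∧ ∀ f ∈ X, M.src (f j).1 ∈ s := by
    intro α hα
    obtain ⟨-, j1, j2, h1, h2, h3⟩ := hW2 α hα
    obtain ⟨s, hs, hs'⟩ := hN.two (c j1) (c j2) (by
      intro h
      obtain ⟨r, hc⟩ := hX f0 hf0
      rw [← hc, ← hc] at h
      exact h1 (r.inj1 _ _ (M.hs _ _ (r.ha _ _ (h2.trans h3.symm)) h)))
    exact ⟨j1, h2, s, hs, fun f hf => hs' _ _ ((hX f hf).1.ha _ _ (h2.trans h3.symm))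
      ((hX f hf).2 _) ((hX f hf).2 _)⟩
  have hA : ∀ α ∈ (univ.image a).erase rt \ W2, ∃ j, a j = α ∧ ∃ s : Finset W, s.card ≤ mp ∧
      ∀ f ∈ X, M.src (f j).1 ∈ s := by
    intro α hα
    obtain ⟨j, -, hj⟩ := mem_image.1 (mem_of_mem_erase (mem_sdiff.1 hα).1)
    refine ⟨j, hj, (univ.filter fun e => M.col e = c j).image M.src,
      card_image_le.trans (hN.mx _), fun f hf => mem_image.2 ⟨_, ?_, rfl⟩⟩
    simp [(hX f hf).2]
  have hB : ∀ β ∈ univ.image b, ∃ j, b j = β ∧ ∃ s : Finset B, s.card ≤ mp ∧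
      ∀ f ∈ X, M.tg (f j).2 ∈ s := by
    intro α hα
    obtain ⟨j, -, hj⟩ := mem_image.1 hα
    refine ⟨j, hj, (univ.filter fun e => M.col e = c j).image M.tg,
      card_image_le.trans (hN.mx _), fun f hf => mem_image.2 ⟨_, ?_, rfl⟩⟩
    simp [(hX f hf).2, (hX f hf).1.hc]
  choose jW hjW sW hsW hsW' using hW
  choose jA hjA sA hsA hsA' using hA
  choose jB hjB sB hsB hsB' using hB
  let T : Finset ((W2 → W) × (↥((univ.image a).erase rt \ W2) → W) × (↥(univ.image b) → B)) :=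
    (Fintype.piFinset fun α => sW α.1 α.2) ×ˢ (Fintype.piFinset fun α => sA α.1 α.2) ×ˢ
      (Fintype.piFinset fun α => sB α.1 α.2)
  have hT : T.card ≤
      nw ^ W2.card * mp ^ (((univ.image a).erase rt \ W2).card + (univ.image b).card) := by
    simp only [T, card_product, Fintype.card_piFinset, pow_add]
    refine Nat.mul_le_mul ?_ (Nat.mul_le_mul ?_ ?_)
    · refine (prod_le_pow_card _ _ nw fun α _ => hsW α.1 α.2).trans (by simp)
    · refine (prod_le_pow_card _ _ mp fun α _ => hsA α.1 α.2).trans (by simp)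
    · refine (prod_le_pow_card _ _ mp fun α _ => hsB α.1 α.2).trans (by simp)
  refine le_trans (card_le_card_of_injOn (fun f => (fun α => M.src (f (jW α.1 α.2)).1,
    fun α => M.src (f (jA α.1 α.2)).1, fun α => M.tg (f (jB α.1 α.2)).2)) ?_ ?_) hT
  · intro f hf
    simp only [T, coe_product, Set.mem_prod, mem_coe, Fintype.mem_piFinset]
    exact ⟨fun α => hsW' _ _ f hf, fun α => hsA' _ _ f hf, fun α => hsB' _ _ f hf⟩
  · intro f hf f' hf' h
    simp only [Prod.mk.injEq] at h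
    obtain ⟨r, hc⟩ := hX f hf
    obtain ⟨r', hc'⟩ := hX f' hf'
    funext j
    refine Prod.ext (M.hs _ _ ?_ (by rw [hc, hc'])) (M.ht _ _ ?_ (by rw [r.hc, r'.hc, hc, hc']))
    · by_cases h1 : a j = rt
      · rw [r.hrt j h1, r'.hrt j h1]
      by_cases h2 : a j ∈ W2
      · rw [← r.ha _ _ (hjW _ h2), ← r'.ha _ _ (hjW _ h2)]
        exact congrFun h.1 ⟨_, h2⟩
      · have h3 : a j ∈ (univ.image a).erase rt \ W2 := by simp [h1, h2]
        rw [← r.ha _ _ (hjA _ h3), ← r'.ha _ _ (hjA _ h3)]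
        exact congrFun h.2.1 ⟨_, h3⟩
    · have h3 : b j ∈ univ.image b := by simp
      rw [← r.hb _ _ (hjB _ h3), ← r'.hb _ _ (hjB _ h3)]
      exact congrFun h.2.2 ⟨_, h3⟩

open Classical in
/-- The number of good permutations containing a realisation of the pattern. -/
theorem count_perm [Fintype P] (hN : M.Nice Np nw mp) (g m M0 k : ℕ)
    (hm : ∀ e, m ≤ (univ.filter fun e' => M.col e' = M.col e).card)
    (hM : M0 + 2 * (Fintype.card P + 1) ^ (g + 1) + k ≤ m) (hk : Fintype.card J ≤ k)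
    (a : J → A) (b : J → A') (Rel : J → J → Prop) (rt : A)
    (root : W) (Exc : Finset J) (Free : Finset A') (W2 : Finset A)
    (hfree : ∀ β ∈ Free, ∃ j1 j2, j1 ≠ j2 ∧ b j1 = β ∧ b j2 = β ∧ ∀ j, b j = β → j = j1 ∨ j = j2)
    (hlab : ∀ l l' : J → P, (∀ j j', Rel j j' → l j = l j') → (∀ j j', Rel j j' → l' j = l' j') →
      (∀ j ∈ Exc, l j = l' j) → (∀ j, b j ∈ Free → l j = l' j) → ∀ j, l j = l' j)
    (hcol : ∀ Q : J → Prop, (∀ j ∈ Exc, Q j) →
      (∀ j j', (a j = a j' ∨ b j = b j') → Q j → Q j') → ∀ j, Q j)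
    (hW2 : ∀ α ∈ W2, α ≠ rt ∧ ∃ j1 j2, j1 ≠ j2 ∧ a j1 = α ∧ a j2 = α)
    (S : Finset (Equiv.Perm E)) (hS : ∀ π ∈ S, π ∈ M.Good g ∧
      ∃ f : J → E × E, M.Real a b Rel rt root f ∧ ∀ j, π (f j).1 = (f j).2) :
    S.card * M0 ^ Fintype.card J ≤ (Fintype.card C ^ Exc.card * Np ^ Free.card *
      (nw ^ W2.card * mp ^ (((univ.image a).erase rt \ W2).card + (univ.image b).card))) *
      (M.Good g).card := by
  set X := univ.filter fun f : J → E × E => M.Real a b Rel rt root f
  have h1 : X.card ≤ _ := (card_le_mul_card_image (f := fun f j => M.col (f j).1) X _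
    fun c _ => count_fiber hN a b Rel rt root W2 hW2 c).trans
    (Nat.mul_le_mul_left _ (count_col hN a b Rel rt root Exc Free hfree hlab hcol))
  have h2 : S ⊆ X.biUnion fun f => (M.Good g).filter fun π => ∀ p ∈ univ.image f, π p.1 = p.2 := by
    intro π hπ
    obtain ⟨h3, f, h4, h5⟩ := hS π hπ
    refine mem_biUnion.2 ⟨f, by simp [X, h4], mem_filter.2 ⟨h3, ?_⟩⟩
    simpa using h5
  calc _ ≤ (∑ f ∈ X, ((M.Good g).filter fun π => ∀ p ∈ univ.image f, π p.1 = p.2).card) *
        M0 ^ Fintype.card J := Nat.mul_le_mul_right _ ((card_le_card h2).trans card_biUnion_le)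
    _ ≤ ∑ f ∈ X, (M.Good g).card := by
        rw [sum_mul]
        refine sum_le_sum fun f hf => ?_
        have hc : (univ.image f).card = Fintype.card J := by
          rw [card_image_of_injective _ fun j j' h =>
            (mem_filter.1 hf).2.inj1 j j' (congrArg Prod.fst h), card_univ]
        have := good_contain (M := M) g m M0 k hm hM (univ.image f) (by omega)
        rw [hc] at this
        convert this
    _ ≤ _ := by
        rw [sum_const, smul_eq_mul]
        refine Nat.mul_le_mul_right _ (h1.trans (le_of_eq (by ring)))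

end Mdl

open Classical in
/-- first moment method -/
theorem first_moment {α Θ : Type} [Fintype Θ] (G : Finset α) (hG : G.Nonempty)
    (has : α → Θ → Prop) : ∃ π ∈ G, ∀ θ, has π θ →
      G.card ≤ 2 * Fintype.card Θ * (G.filter fun π' => has π' θ).card := by
  by_contra hcon
  push Not at hcon
  let Bad : Finset Θ := univ.filter fun θ =>
    2 * Fintype.card Θ * (G.filter fun π' => has π' θ).card < G.card
  have h1 : G ⊆ Bad.biUnion fun θ => G.filter fun π' => has π' θ := by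
    intro π hπ
    obtain ⟨θ, h1, h2⟩ := hcon π hπ
    exact mem_biUnion.2 ⟨θ, by simp [Bad, h2], mem_filter.2 ⟨hπ, h1⟩⟩
  have h2 := (card_le_card h1).trans card_biUnion_le
  have h3 : 2 * Fintype.card Θ * ∑ θ ∈ Bad, (G.filter fun π' => has π' θ).card ≤
      Fintype.card Θ * G.card := by
    rw [mul_sum]
    calc _ ≤ ∑ θ ∈ Bad, G.card := sum_le_sum fun θ hθ => (mem_filter.1 hθ).2.le
      _ = Bad.card * G.card := by simp
      _ ≤ _ := Nat.mul_le_mul_right _ (card_le_univ _)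
  have h4 := card_pos.2 hG
  obtain ⟨θ, -⟩ := hcon _ hG.choose_spec
  have h5 : 0 < Fintype.card Θ := Fintype.card_pos_iff.2 ⟨θ⟩
  nlinarith

end Crest.Agent.H6.Kap
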