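import Mathlib
import Crest.Agent.H6.KCount

/-! Families of short reduced walks: overlaps, multiplicities, regular vertices. -/

namespace Crest.Agent.H6.Kap

open Finset

variable {P E W B C : Type} {M : Mdl P E W B C} {π : Equiv.Perm E}

/-- description of the overlap of two walks -/
def dec : Option (Bool × ℕ × ℕ × ℕ) → ℕ → ℕ → Prop
  | none, _, _ => False
  | some (true, a, a', l), i, i' => ∃ j ≤ l, i = a + j ∧ i' = a' + j
  | some (false, a, a', l), i, i' => ∃ j ≤ l, i = a + j ∧ i' + j = a'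

/-- validity of an overlap description -/
def decOk : Option (Bool × ℕ × ℕ × ℕ) → ℕ → ℕ → Prop
  | none, _, _ => True
  | some (true, a, a', l), n, n' => a + l ≤ n ∧ a' + l ≤ n'
  | some (false, a, a', l), n, n' => a + l ≤ n ∧ l ≤ a' ∧ a' ≤ n'

namespace Mdl

theorem Girth.seg {g : ℕ} (hg : M.Girth π g) {τ τ' : ℕ → W ⊕ B} {z z' : ℕ → E × Bool} {n n' : ℕ}
    (hn : n + n' ≤ g) (h : M.Wk π τ z n) (h' : M.Wk π τ' z' n') (r : Red z n) (r' : Red z' n')
    {a b a' b' : ℕ} (hab : a ≤ b) (hb : b ≤ n) (hab' : a' ≤ b') (hb' : b' ≤ n')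
    (h1 : τ a = τ' a') (h2 : τ b = τ' b') :
    b - a = b' - a' ∧ ∀ j ≤ b - a, τ (a + j) = τ' (a' + j) := by
  have := hg.unique (b - a) (b' - a') _ _ _ _ (by omega) (h.shift a _ (by omega))
    (h'.shift a' _ (by omega)) (r.shift a _ (by omega)) (r'.shift a' _ (by omega))
    (by simpa using h1) (by simpa [hab, hab'] using h2)
  refine ⟨this.1, fun j hj => ?_⟩
  rcases Nat.eq_zero_or_pos j with rfl | hj0
  · exact h1
  · have h3 := this.2 (j - 1) (by omega)
    have h4 := (h (a + (j - 1)) (by omega)).2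
    have h5 := (h' (a' + (j - 1)) (by omega)).2
    rw [h3, h5] at h4
    rw [show a + j = a + (j - 1) + 1 by omega, show a' + j = a' + (j - 1) + 1 by omega, h4]

theorem Girth.overlap {g : ℕ} (hg : M.Girth π g) {τ τ' : ℕ → W ⊕ B} {z z' : ℕ → E × Bool}
    {n n' : ℕ} (hn : n + n' ≤ g) (h : M.Wk π τ z n) (h' : M.Wk π τ' z' n') (r : Red z n)
    (r' : Red z' n') : ∃ o, decOk o n n' ∧ ∀ i ≤ n, ∀ i' ≤ n', τ i = τ' i' ↔ dec o i i' := by
  classical
  let S := (range (n + 1)).filter fun i => ∃ i' ≤ n', τ i = τ' i'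
  rcases S.eq_empty_or_nonempty with h0 | h0
  · refine ⟨none, trivial, fun i hi i' hi' => ⟨fun e => ?_, fun e => e.elim⟩⟩
    have : i ∈ S := mem_filter.2 ⟨mem_range.2 (by omega), i', hi', e⟩
    simp [h0] at this
  obtain ⟨ha, a', ha', ea⟩ := mem_filter.1 (S.min'_mem h0)
  obtain ⟨hb, b', hb', eb⟩ := mem_filter.1 (S.max'_mem h0)
  have hab : S.min' h0 ≤ S.max' h0 := S.min'_le_max' h0
  have hS : ∀ i ≤ n, ∀ i' ≤ n', τ i = τ' i' → S.min' h0 ≤ i ∧ i ≤ S.max' h0 := fun i hi i' hi' e =>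
    have : i ∈ S := mem_filter.2 ⟨mem_range.2 (by omega), i', hi', e⟩
    ⟨S.min'_le i this, S.le_max' i this⟩
  generalize S.min' h0 = a at *
  generalize S.max' h0 = b at *
  rw [mem_range] at ha hb
  by_cases hc : a' ≤ b'
  · obtain ⟨h1, h2⟩ := hg.seg hn h h' r r' hab (by omega) hc hb' ea eb
    refine ⟨some (true, a, a', b - a), ⟨by omega, by omega⟩, fun i hi i' hi' => ⟨fun e => ?_, ?_⟩⟩
    · obtain ⟨h3, h4⟩ := hS i hi i' hi' e
      refine ⟨i - a, by omega, by omega, ?_⟩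
      refine hg.inj (by omega) h' r' hi' (by omega) ?_
      rw [← e, ← h2 _ (by omega), show a + (i - a) = i by omega]
    · rintro ⟨j, hj, rfl, rfl⟩
      exact h2 j hj
  · obtain ⟨h1, h2⟩ := hg.seg hn h h'.rev r r'.rev (a' := n' - a') (b' := n' - b') hab (by omega)
      (by omega) (by omega) (by simpa [show n' - (n' - a') = a' by omega] using ea)
      (by simpa [show n' - (n' - b') = b' by omega] using eb)
    refine ⟨some (false, a, a', b - a), ⟨by omega, by omega, by omega⟩,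
      fun i hi i' hi' => ⟨fun e => ?_, ?_⟩⟩
    · obtain ⟨h3, h4⟩ := hS i hi i' hi' e
      refine ⟨i - a, by omega, by omega, ?_⟩
      have : i' = n' - (n' - a' + (i - a)) := by
        refine hg.inj (by omega) h' r' hi' (by omega) ?_
        rw [← e, ← h2 _ (by omega), show a + (i - a) = i by omega]
      omega
    · rintro ⟨j, hj, rfl, e⟩
      rw [h2 j hj, show n' - (n' - a' + j) = i' by omega]

variable (M π) in
/-- incidence -/
def Inc (e : E) (v : W ⊕ B) : Prop := v = Sum.inl (M.src e) ∨ v = Sum.inr (M.tg (π e))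

theorem inc_iff (d : E × Bool) (v : W ⊕ B) : M.Inc π d.1 v ↔ v = M.tl π d ∨ v = M.hd π d := by
  obtain ⟨e, b⟩ := d
  cases b <;> simp [Inc, or_comm]

end Mdl

variable (M π) in
/-- A family of runs with mirror and successor information. -/
structure Loc (I : Type) (h : ℕ) where
  len : I → ℕ
  τ : I → ℕ → W ⊕ B
  z : I → ℕ → E × Bool
  mir : I → Option I
  nxt : I → Option I
  len_le : ∀ R, len R ≤ h
  len_pos : ∀ R, 0 < len R
  wk : ∀ R, M.Wk π (τ R) (z R) (len R)
  red : ∀ R, Red (z R) (len R)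
  mir_symm : ∀ R R', mir R = some R' → mir R' = some R
  mir_len : ∀ R R', mir R = some R' → len R' = len R
  mir_lab : ∀ R R', mir R = some R' → ∀ i < len R,
    M.dl (z R' (len R - 1 - i)) = rv (M.dl (z R i))
  mir_ne : ∀ R R', mir R = some R' → ∀ i ≤ len R, τ R' (len R - i) ≠ τ R i
  nxt_inj : ∀ R R' S, nxt R = some S → nxt R' = some S → R = R'
  nxt_v : ∀ R S, nxt R = some S → τ R (len R) = τ S 0
  nxt_ne : ∀ R S, nxt R = some S → z S 0 ≠ rv (z R (len R - 1))

namespace Loc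

variable {I : Type} [Fintype I] {h g : ℕ} (d : Loc M π I h)

/-- vertex positions -/
def VP : Finset (I × ℕ) := (univ ×ˢ range (h + 1)).filter fun p => p.2 ≤ d.len p.1
/-- edge positions -/
def EP : Finset (I × ℕ) := (univ ×ˢ range (h + 1)).filter fun p => p.2 < d.len p.1

@[simp] theorem mem_VP {p : I × ℕ} : p ∈ d.VP ↔ p.2 ≤ d.len p.1 := by
  have := d.len_le p.1
  simp only [VP, mem_filter, mem_product, mem_univ, mem_range, true_and]; omega

@[simp] theorem mem_EP {p : I × ℕ} : p ∈ d.EP ↔ p.2 < d.len p.1 := by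
  have := d.len_le p.1
  simp only [EP, mem_filter, mem_product, mem_univ, mem_range, true_and]; omega

theorem card_filter_EP (q : I → Prop) [DecidablePred q] :
    (d.EP.filter fun p => q p.1).card = ∑ R ∈ univ.filter q, d.len R := by
  classical
  rw [card_eq_sum_card_fiberwise (f := Prod.fst) (t := univ.filter q)]
  · refine sum_congr rfl fun R hR => ?_
    rw [← card_range (d.len R)]
    refine card_bij (fun p _ => p.2) ?_ ?_ ?_
    · intro p hp
      simp only [mem_filter, mem_EP] at hp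
      rw [← hp.2]; exact mem_range.2 hp.1.1
    · intro p hp p' hp' e
      exact Prod.ext ((mem_filter.1 hp).2.trans (mem_filter.1 hp').2.symm) e
    · intro i hi
      exact ⟨(R, i), by simpa using ⟨mem_range.1 hi, (mem_filter.1 hR).2⟩, rfl⟩
  · intro p hp
    simpa using (mem_filter.1 (mem_coe.1 hp)).2

theorem card_EP : d.EP.card = ∑ R, d.len R := by
  simpa using d.card_filter_EP fun _ => True

open Classical in
/-- multiplicity of an edge -/
noncomputable def mult (e : E) : ℕ := (d.EP.filter fun p => (d.z p.1 p.2).1 = e).card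
open Classical in
/-- multiplicity of a vertex -/
noncomputable def mv (v : W ⊕ B) : ℕ := (d.VP.filter fun p => d.τ p.1 p.2 = v).card

omit [Fintype I] in
theorem inc_iff {R : I} {i : ℕ} (hi : i < d.len R) (v : W ⊕ B) :
    M.Inc π (d.z R i).1 v ↔ v = d.τ R i ∨ v = d.τ R (i + 1) := by
  rw [Mdl.inc_iff, (d.wk R i hi).1, (d.wk R i hi).2]

omit [Fintype I] in
theorem τ_inj (hg : M.Girth π g) (hh : 2 * h ≤ g) {R : I} {i j : ℕ} (hi : i ≤ d.len R)
    (hj : j ≤ d.len R) (e : d.τ R i = d.τ R j) : i = j :=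
  hg.inj (by have := d.len_le R; omega) (d.wk R) (d.red R) hi hj e

omit [Fintype I] in
theorem ed_inj (hg : M.Girth π g) (hh : 2 * h ≤ g) {R : I} {i j : ℕ} (hi : i < d.len R)
    (hj : j < d.len R) (e : (d.z R i).1 = (d.z R j).1) : i = j := by
  have h1 := (d.inc_iff hj _).1 (e ▸ (d.inc_iff hi _).2 (Or.inl rfl))
  have h2 := (d.inc_iff hj _).1 (e ▸ (d.inc_iff hi _).2 (Or.inr rfl))
  rcases h1 with h1 | h1 <;> rcases h2 with h2 | h2 <;>
    have h3 := d.τ_inj hg hh (by omega) (by omega) h1 <;>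
    have h4 := d.τ_inj hg hh (by omega) (by omega) h2 <;> omega

open Classical in
theorem mult_eq (hg : M.Girth π g) (hh : 2 * h ≤ g) (e : E) :
    d.mult e = (univ.filter fun R => ∃ i < d.len R, (d.z R i).1 = e).card := by
  refine card_bij (fun p _ => p.1) ?_ ?_ ?_
  · intro p hp
    simp only [mem_filter, mem_EP] at hp
    simpa using ⟨p.2, hp⟩
  · rintro ⟨R, i⟩ hp ⟨R', i'⟩ hp' e
    simp only [mem_filter, mem_EP] at hp hp' e
    subst e
    rw [d.ed_inj hg hh hp.1 hp'.1 (hp.2.trans hp'.2.symm)]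
  · intro R hR
    obtain ⟨i, hi⟩ := (mem_filter.1 hR).2
    exact ⟨(R, i), by simpa using hi, rfl⟩

open Classical in
theorem mv_eq (hg : M.Girth π g) (hh : 2 * h ≤ g) (v : W ⊕ B) :
    d.mv v = (univ.filter fun R => ∃ i ≤ d.len R, d.τ R i = v).card := by
  refine card_bij (fun p _ => p.1) ?_ ?_ ?_
  · intro p hp
    simp only [mem_filter, mem_VP] at hp
    simpa using ⟨p.2, hp⟩
  · rintro ⟨R, i⟩ hp ⟨R', i'⟩ hp' e
    simp only [mem_filter, mem_VP] at hp hp' e
    subst e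
    rw [d.τ_inj hg hh hp.1 hp'.1 (hp.2.trans hp'.2.symm)]
  · intro R hR
    obtain ⟨i, hi⟩ := (mem_filter.1 hR).2
    exact ⟨(R, i), by simpa using hi, rfl⟩

theorem mult_le (hg : M.Girth π g) (hh : 2 * h ≤ g) (e : E) : d.mult e ≤ Fintype.card I := by
  rw [d.mult_eq hg hh]; exact card_le_univ _

theorem mv_le (hg : M.Girth π g) (hh : 2 * h ≤ g) (v : W ⊕ B) : d.mv v ≤ Fintype.card I := by
  rw [d.mv_eq hg hh]; exact card_le_univ _

theorem mult_pos {e : E} : 0 < d.mult e ↔ ∃ R, ∃ i < d.len R, (d.z R i).1 = e := by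
  classical
  simp [mult, card_pos, filter_nonempty_iff]

theorem mv_pos {v : W ⊕ B} : 0 < d.mv v ↔ ∃ R, ∃ i ≤ d.len R, d.τ R i = v := by
  classical
  simp [mv, card_pos, filter_nonempty_iff]

theorem mult_le_mv (hg : M.Girth π g) (hh : 2 * h ≤ g) {e : E} {v : W ⊕ B} (hi : M.Inc π e v) :
    d.mult e ≤ d.mv v := by
  classical
  rw [d.mult_eq hg hh, d.mv_eq hg hh]
  refine card_le_card fun R hR => ?_
  obtain ⟨i, h1, rfl⟩ := (mem_filter.1 hR).2
  refine mem_filter.2 ⟨mem_univ _, ?_⟩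
  rcases (d.inc_iff h1 v).1 hi with rfl | rfl
  · exact ⟨i, by omega, rfl⟩
  · exact ⟨i + 1, by omega, rfl⟩

/-- every passage through `v` is interior and uses the two edges `e1`, `e2` -/
def Reg (v : W ⊕ B) (e1 e2 : E) : Prop :=
  e1 ≠ e2 ∧ ∀ R i, i ≤ d.len R → d.τ R i = v → 0 < i ∧ i < d.len R ∧
    ((d.z R (i - 1)).1 = e1 ∧ (d.z R i).1 = e2 ∨ (d.z R (i - 1)).1 = e2 ∧ (d.z R i).1 = e1)

/-- regular vertices -/
def IsReg (v : W ⊕ B) : Prop := ∃ e1 e2, d.Reg v e1 e2

variable {d}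

omit [Fintype I] in
theorem Reg.symm {v : W ⊕ B} {e1 e2 : E} (r : d.Reg v e1 e2) : d.Reg v e2 e1 :=
  ⟨r.1.symm, fun R i h1 h2 => ⟨(r.2 R i h1 h2).1, (r.2 R i h1 h2).2.1, (r.2 R i h1 h2).2.2.symm⟩⟩

theorem Reg.edges {v : W ⊕ B} {e1 e2 e : E} (r : d.Reg v e1 e2) (h1 : 0 < d.mult e)
    (h2 : M.Inc π e v) : e = e1 ∨ e = e2 := by
  obtain ⟨R, i, hi, rfl⟩ := d.mult_pos.1 h1
  rcases (d.inc_iff hi v).1 h2 with h3 | h3
  · have := (r.2 R i hi.le h3.symm).2.2; tauto
  · have := (r.2 R (i + 1) hi h3.symm).2.2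
    simp only [add_tsub_cancel_right] at this; tauto

theorem Reg.inc {v : W ⊕ B} {e1 e2 : E} (r : d.Reg v e1 e2) (h1 : 0 < d.mv v) : M.Inc π e1 v := by
  obtain ⟨R, i, hi, rfl⟩ := d.mv_pos.1 h1
  obtain ⟨h2, h3, h4 | h4⟩ := r.2 R i hi rfl
  · rw [← h4.1, d.inc_iff (by omega)]; right; rw [show i - 1 + 1 = i by omega]
  · rw [← h4.2, d.inc_iff h3]; left; rfl

theorem Reg.mult_eq (hg : M.Girth π g) (hh : 2 * h ≤ g) {v : W ⊕ B} {e1 e2 : E}
    (r : d.Reg v e1 e2) (h1 : 0 < d.mv v) : d.mult e1 = d.mv v := by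
  classical
  refine le_antisymm (d.mult_le_mv hg hh (r.inc h1)) ?_
  rw [d.mult_eq hg hh, d.mv_eq hg hh]
  refine card_le_card fun R hR => ?_
  obtain ⟨i, hi, e⟩ := (mem_filter.1 hR).2
  refine mem_filter.2 ⟨mem_univ _, ?_⟩
  obtain ⟨h2, h3, h4 | h4⟩ := r.2 R i hi e
  · exact ⟨i - 1, by omega, h4.1⟩
  · exact ⟨i, h3, h4.2⟩

theorem IsReg.mult_eq (hg : M.Girth π g) (hh : 2 * h ≤ g) {v : W ⊕ B} {e : E}
    (r : d.IsReg v) (h1 : 0 < d.mult e) (h2 : M.Inc π e v) : d.mult e = d.mv v := by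
  obtain ⟨e1, e2, r⟩ := r
  have h3 := d.mult_le_mv hg hh h2
  rcases r.edges h1 h2 with rfl | rfl
  · exact r.mult_eq hg hh (by omega)
  · exact r.symm.mult_eq hg hh (by omega)

variable (d)

open Classical in
/-- special positions -/
noncomputable def Sp : Finset (I × ℕ) := d.VP.filter fun p => ¬ d.IsReg (d.τ p.1 p.2)

theorem mem_Sp {p : I × ℕ} : p ∈ d.Sp ↔ p.2 ≤ d.len p.1 ∧ ¬ d.IsReg (d.τ p.1 p.2) := by
  simp [Sp]

theorem card_Sp (hg : M.Girth π g) (hh : 2 * h ≤ g) (h1 : 1 ≤ h) :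
    d.Sp.card ≤ Fintype.card I * (2 * Fintype.card I + 2) := by
  classical
  have ho : ∀ R R', ∃ o, decOk o (d.len R) (d.len R') ∧ ∀ i ≤ d.len R, ∀ i' ≤ d.len R',
      d.τ R i = d.τ R' i' ↔ dec o i i' := fun R R' =>
    hg.overlap (by have := d.len_le R; have := d.len_le R'; omega) (d.wk R) (d.wk R') (d.red R)
      (d.red R')
  choose o ho1 ho2 using ho
  let e1 : Option (Bool × ℕ × ℕ × ℕ) → ℕ := fun x => (x.map fun y => y.2.1).getD 0
  let e2 : Option (Bool × ℕ × ℕ × ℕ) → ℕ := fun x => (x.map fun y => y.2.1 + y.2.2.2).getD 0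
  let T : I → Finset ℕ := fun R => insert 0 (insert (d.len R)
    (univ.image (fun R' => e1 (o R R')) ∪ univ.image (fun R' => e2 (o R R'))))
  have hT : ∀ R, (T R).card ≤ 2 * Fintype.card I + 2 := by
    intro R
    have a1 := card_insert_le 0 (insert (d.len R)
      (univ.image (fun R' => e1 (o R R')) ∪ univ.image (fun R' => e2 (o R R'))))
    have a2 := card_insert_le (d.len R)
      (univ.image (fun R' => e1 (o R R')) ∪ univ.image (fun R' => e2 (o R R')))
    have a3 := card_union_le (univ.image (fun R' => e1 (o R R'))) (univ.image (fun R' => e2 (o R R')))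
    have a4 := card_image_le (s := univ) (f := fun R' => e1 (o R R'))
    have a5 := card_image_le (s := univ) (f := fun R' => e2 (o R R'))
    rw [card_univ] at a4 a5
    simp only [T]
    omega
  have hsub : d.Sp ⊆ univ.biUnion fun R => (T R).image fun i => (R, i) := by
    rintro ⟨R, i⟩ hp
    obtain ⟨hi, hr⟩ := d.mem_Sp.1 hp
    simp only at hi hr
    refine mem_biUnion.2 ⟨R, mem_univ _, mem_image.2 ⟨i, ?_, rfl⟩⟩
    by_contra hn
    simp only [T, mem_insert, mem_union, mem_image, mem_univ, true_and, not_or, not_exists] at hn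
    obtain ⟨n1, n2, n3, n4⟩ := hn
    apply hr
    refine ⟨(d.z R (i - 1)).1, (d.z R i).1, fun e => ?_, fun R' i' hi' e => ?_⟩
    · have := d.ed_inj hg hh (by omega) (by omega) e; omega
    have k1 := ho1 R R'
    have k2 := ho2 R R'
    have k3 := n3 R'
    have k4 := n4 R'
    have k5 := (k2 i hi i' hi').1 e.symm
    have w1 := d.wk R (i - 1) (by omega)
    have w2 := d.wk R i (by omega)
    rw [show i - 1 + 1 = i by omega] at w1
    rcases ho : o R R' with _ | ⟨_ | _, a, a', l⟩ <;> rw [ho] at k1 k2 k3 k4 k5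
    · exact k5.elim
    · obtain ⟨j, j1, j2, j3⟩ := k5
      obtain ⟨c1, c2, c3⟩ := k1
      simp [e1, e2] at k3 k4
      have m1 := (k2 (i - 1) (by omega) (i' + 1) (by omega)).2 ⟨j - 1, by omega, by omega, by omega⟩
      have m2 := (k2 (i + 1) (by omega) (i' - 1) (by omega)).2 ⟨j + 1, by omega, by omega, by omega⟩
      have w3 := d.wk R' (i' - 1) (by omega)
      have w4 := d.wk R' i' (by omega)
      rw [show i' - 1 + 1 = i' by omega] at w3
      refine ⟨by omega, by omega, Or.inr ⟨?_, ?_⟩⟩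
      · have := hg.dart_eq (by omega) (d := d.z R' (i' - 1)) (d' := rv (d.z R i))
          (by simp [w3.1, w2.2, m2]) (by simp [w3.2, w2.1, e])
        rw [this]; rfl
      · have := hg.dart_eq (by omega) (d := d.z R' i') (d' := rv (d.z R (i - 1)))
          (by simp [w4.1, w1.2, e]) (by simp [w4.2, w1.1, m1])
        rw [this]; rfl
    · obtain ⟨j, j1, j2, j3⟩ := k5
      obtain ⟨c1, c2⟩ := k1
      simp [e1, e2] at k3 k4
      have m1 := (k2 (i - 1) (by omega) (i' - 1) (by omega)).2 ⟨j - 1, by omega, by omega, by omega⟩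
      have m2 := (k2 (i + 1) (by omega) (i' + 1) (by omega)).2 ⟨j + 1, by omega, by omega, by omega⟩
      have w3 := d.wk R' (i' - 1) (by omega)
      have w4 := d.wk R' i' (by omega)
      rw [show i' - 1 + 1 = i' by omega] at w3
      refine ⟨by omega, by omega, Or.inl ⟨?_, ?_⟩⟩
      · rw [hg.dart_eq (by omega) (d := d.z R' (i' - 1)) (d' := d.z R (i - 1))
          (by simp [w3.1, w1.1, m1]) (by simp [w3.2, w1.2, e])]
      · rw [hg.dart_eq (by omega) (d := d.z R' i') (d' := d.z R i)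
          (by simp [w4.1, w2.1, e]) (by simp [w4.2, w2.2, m2])]
  refine (card_le_card hsub).trans (card_biUnion_le.trans ?_)
  calc _ ≤ ∑ R : I, (2 * Fintype.card I + 2) := sum_le_sum fun R _ => card_image_le.trans (hT R)
    _ = _ := by simp

end Loc

end Crest.Agent.H6.Kap
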