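import Mathlib
import Crest.Agent.H6.KOver

/-! Similar families of runs and the count at one multiplicity level. -/

namespace Crest.Agent.H6.Kap

open Finset

variable {P E W B C : Type} {M : Mdl P E W B C} {π π' : Equiv.Perm E}

namespace Loc

variable {I : Type} [Fintype I] {h g : ℕ}

/-- similarity of two families -/
structure Sim (d : Loc M π I h) (d' : Loc M π' I h) (root : W) : Prop where
  len : ∀ R, d'.len R = d.len R
  mir : ∀ R, d'.mir R = d.mir R
  dir : ∀ R, ∀ i < d.len R, (d'.z R i).2 = (d.z R i).2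
  eq : ∀ R R' i i', i ≤ d.len R → i' ≤ d.len R' → (d'.τ R i = d'.τ R' i' ↔ d.τ R i = d.τ R' i')
  rt : ∀ R i, i ≤ d.len R → d.τ R i = Sum.inl root → d'.τ R i = Sum.inl root

/-- the finite set of types -/
abbrev Ty (I : Type) (h : ℕ) : Type :=
  (I → Fin (h + 1)) × (I → Bool) × (I → Option I) ×
    (I → I → Option (Bool × Fin (h + 1) × Fin (h + 1) × Fin (h + 1))) × Option (I × Fin (h + 1))

/-- a family has a type -/
def HasTy (d : Loc M π I h) (root : W) (θ : Ty I h) : Prop :=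
  (∀ R, d.len R = θ.1 R) ∧ (∀ R, (d.z R 0).2 = θ.2.1 R) ∧ (∀ R, d.mir R = θ.2.2.1 R) ∧
  (∀ R R' i i', i ≤ d.len R → i' ≤ d.len R' → (d.τ R i = d.τ R' i' ↔
    dec ((θ.2.2.2.1 R R').map fun y => (y.1, y.2.1.1, y.2.2.1.1, y.2.2.2.1)) i i')) ∧
  (θ.2.2.2.2 = none → ∀ R i, i ≤ d.len R → d.τ R i ≠ Sum.inl root) ∧
  (∀ p, θ.2.2.2.2 = some p → p.2.1 ≤ d.len p.1 ∧ d.τ p.1 p.2.1 = Sum.inl root)

omit [Fintype I] in
theorem exists_ty (hg : M.Girth π g) (hh : 2 * h ≤ g) (d : Loc M π I h) (root : W) :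
    ∃ θ, d.HasTy root θ := by
  have ho : ∀ R R', ∃ o : Option (Bool × Fin (h + 1) × Fin (h + 1) × Fin (h + 1)),
      ∀ i i', i ≤ d.len R → i' ≤ d.len R' → (d.τ R i = d.τ R' i' ↔
        dec (o.map fun y => (y.1, y.2.1.1, y.2.2.1.1, y.2.2.2.1)) i i') := by
    intro R R'
    have l1 := d.len_le R
    have l2 := d.len_le R'
    obtain ⟨o, h1, h2⟩ := hg.overlap (by omega) (d.wk R) (d.wk R') (d.red R) (d.red R')
    rcases o with _ | ⟨_ | _, a, a', l⟩
    · exact ⟨none, fun i i' hi hi' => h2 i hi i' hi'⟩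
    · obtain ⟨c1, c2, c3⟩ := h1
      exact ⟨some (false, ⟨a, by omega⟩, ⟨a', by omega⟩, ⟨l, by omega⟩),
        fun i i' hi hi' => h2 i hi i' hi'⟩
    · obtain ⟨c1, c2⟩ := h1
      exact ⟨some (true, ⟨a, by omega⟩, ⟨a', by omega⟩, ⟨l, by omega⟩),
        fun i i' hi hi' => h2 i hi i' hi'⟩
  choose o ho using ho
  have hr : ∃ q : Option (I × Fin (h + 1)), (q = none → ∀ R i, i ≤ d.len R → d.τ R i ≠ Sum.inl root) ∧
      (∀ p, q = some p → p.2.1 ≤ d.len p.1 ∧ d.τ p.1 p.2.1 = Sum.inl root) := by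
    by_cases hc : ∃ R i, i ≤ d.len R ∧ d.τ R i = Sum.inl root
    · obtain ⟨R, i, h1, h2⟩ := hc
      refine ⟨some (R, ⟨i, by have := d.len_le R; omega⟩), by simp, ?_⟩
      rintro p ⟨⟩
      exact ⟨h1, h2⟩
    · push Not at hc
      exact ⟨none, fun _ => hc, by simp⟩
  obtain ⟨q, hq1, hq2⟩ := hr
  exact ⟨(fun R => ⟨d.len R, by have := d.len_le R; omega⟩, fun R => (d.z R 0).2, d.mir, o, q),
    fun _ => rfl, fun _ => rfl, fun _ => rfl, ho, hq1, hq2⟩

omit [Fintype I] in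
theorem dir_succ (d : Loc M π I h) {R : I} {i : ℕ} (hi : i + 1 < d.len R) :
    (d.z R (i + 1)).2 = !(d.z R i).2 := by
  rw [← Mdl.isLeft_tl (M := M) π, ← Mdl.isLeft_hd (M := M) π, (d.wk R _ hi).1,
    (d.wk R i (by omega)).2]

omit [Fintype I] in
theorem sim_of_ty {d : Loc M π I h} {d' : Loc M π' I h} {root : W} {θ : Ty I h}
    (a : d.HasTy root θ) (b : d'.HasTy root θ) : d.Sim d' root := by
  obtain ⟨a1, a2, a3, a4, a5, a6⟩ := a
  obtain ⟨b1, b2, b3, b4, b5, b6⟩ := b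
  have hl : ∀ R, d'.len R = d.len R := fun R => (b1 R).trans (a1 R).symm
  have he : ∀ R R' i i', i ≤ d.len R → i' ≤ d.len R' →
      (d'.τ R i = d'.τ R' i' ↔ d.τ R i = d.τ R' i') := fun R R' i i' hi hi' => by
    rw [a4 R R' i i' hi hi', b4 R R' i i' (by rw [hl]; exact hi) (by rw [hl]; exact hi')]
  refine ⟨hl, fun R => (b3 R).trans (a3 R).symm, fun R i => ?_, he, fun R i hi e => ?_⟩
  · induction i with
    | zero => exact fun _ => (b2 R).trans (a2 R).symm
    | succ i ih =>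
      intro hi
      rw [d.dir_succ hi, d'.dir_succ (by rw [hl]; exact hi), ih (by omega)]
  · rcases hq : θ.2.2.2.2 with _ | p
    · exact absurd e (a5 hq R i hi)
    · rw [← (b6 p hq).2, he R p.1 i _ hi (a6 p hq).1, e, (a6 p hq).2]

omit [Fintype I] in
theorem pos_w (d : Loc M π I h) {R : I} {i : ℕ} (hi : i < d.len R) :
    d.τ R (if (d.z R i).2 then i else i + 1) = Sum.inl (M.src (d.z R i).1) := by
  have := d.wk R i hi
  revert this
  rcases d.z R i with ⟨e, _ | _⟩ <;> simp +contextual [eq_comm]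

omit [Fintype I] in
theorem pos_b (d : Loc M π I h) {R : I} {i : ℕ} (hi : i < d.len R) :
    d.τ R (if (d.z R i).2 then i + 1 else i) = Sum.inr (M.tg (π (d.z R i).1)) := by
  have := d.wk R i hi
  revert this
  rcases d.z R i with ⟨e, _ | _⟩ <;> simp +contextual [eq_comm]

theorem edge_eq (hg : M.Girth π g) (h2 : 2 ≤ g) {e e' : E} (h1 : M.src e = M.src e')
    (h3 : M.tg (π e) = M.tg (π e')) : e = e' :=
  congrArg Prod.fst (hg.dart_eq h2 (d := (e, true)) (d' := (e', true)) (by simp [h1]) (by simp [h3]))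

section
variable {d : Loc M π I h} {d' : Loc M π' I h} {root : W}

omit [Fintype I] in
theorem Sim.src_iff (s : d.Sim d' root) {R R' : I} {i i' : ℕ} (hi : i < d.len R)
    (hi' : i' < d.len R') : M.src (d'.z R i).1 = M.src (d'.z R' i').1 ↔
      M.src (d.z R i).1 = M.src (d.z R' i').1 := by
  have a1 := d.pos_w hi
  have a2 := d.pos_w hi'
  have b1 := d'.pos_w (R := R) (i := i) (by rw [s.len]; exact hi)
  have b2 := d'.pos_w (R := R') (i := i') (by rw [s.len]; exact hi')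
  rw [s.dir R i hi] at b1
  rw [s.dir R' i' hi'] at b2
  have := s.eq R R' (if (d.z R i).2 then i else i + 1) (if (d.z R' i').2 then i' else i' + 1)
    (by split_ifs <;> omega) (by split_ifs <;> omega)
  rw [a1, a2, b1, b2] at this
  simpa using this

omit [Fintype I] in
theorem Sim.tg_iff (s : d.Sim d' root) {R R' : I} {i i' : ℕ} (hi : i < d.len R)
    (hi' : i' < d.len R') : M.tg (π' (d'.z R i).1) = M.tg (π' (d'.z R' i').1) ↔
      M.tg (π (d.z R i).1) = M.tg (π (d.z R' i').1) := by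
  have a1 := d.pos_b hi
  have a2 := d.pos_b hi'
  have b1 := d'.pos_b (R := R) (i := i) (by rw [s.len]; exact hi)
  have b2 := d'.pos_b (R := R') (i := i') (by rw [s.len]; exact hi')
  rw [s.dir R i hi] at b1
  rw [s.dir R' i' hi'] at b2
  have := s.eq R R' (if (d.z R i).2 then i + 1 else i) (if (d.z R' i').2 then i' + 1 else i')
    (by split_ifs <;> omega) (by split_ifs <;> omega)
  rw [a1, a2, b1, b2] at this
  simpa using this

omit [Fintype I] in
theorem Sim.src_rt (s : d.Sim d' root) {R : I} {i : ℕ} (hi : i < d.len R)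
    (e : M.src (d.z R i).1 = root) : M.src (d'.z R i).1 = root := by
  have a1 := d.pos_w hi
  have b1 := d'.pos_w (R := R) (i := i) (by rw [s.len]; exact hi)
  rw [s.dir R i hi] at b1
  have := s.rt R (if (d.z R i).2 then i else i + 1) (by split_ifs <;> omega) (by rw [a1, e])
  rw [b1] at this
  simpa using this
end

variable [Fintype E] [Fintype W] [Fintype B] (d : Loc M π I h)

open Classical in
/-- edges of multiplicity at least `t` -/
noncomputable def Jt (t : ℕ) : Finset E := univ.filter fun e => t ≤ d.mult e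

omit [Fintype W] [Fintype B] in
theorem mem_Jt {t : ℕ} {e : E} : e ∈ d.Jt t ↔ t ≤ d.mult e := by simp [Jt]

/-- order on black vertices -/
noncomputable def key (β : B) : ℕ ×ₗ ℕ :=
  toLex (Fintype.card I - d.mv (Sum.inr β), (Fintype.equivFin B β).1)

omit [Fintype E] [Fintype W] in
theorem key_inj {β β' : B} (e : d.key β = d.key β') : β = β' :=
  (Fintype.equivFin B).injective (Fin.ext (congrArg (fun x => (ofLex x).2) e))

/-- constrained black vertices -/
def Con (β : B) : Prop :=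
  ∃ R R' i β', d.mir R = some R' ∧ i ≤ d.len R ∧ d.τ R i = Sum.inr β ∧
    d.τ R' (d.len R - i) = Sum.inr β' ∧ d.IsReg (Sum.inr β') ∧ d.key β' < d.key β

open Classical in
/-- free black vertices -/
noncomputable def Free (t : ℕ) : Finset B :=
  univ.filter fun β => t ≤ d.mv (Sum.inr β) ∧ d.IsReg (Sum.inr β) ∧ ¬ d.Con β

open Classical in
/-- regular white vertices -/
noncomputable def W2 (root : W) (t : ℕ) : Finset W :=
  univ.filter fun α => t ≤ d.mv (Sum.inl α) ∧ d.IsReg (Sum.inl α) ∧ α ≠ root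

open Classical in
theorem level_count [Fintype P] [Fintype C] {Np nw mp : ℕ} (hN : M.Nice Np nw mp) (m M0 k : ℕ)
    (hm : ∀ e, m ≤ (univ.filter fun e' => M.col e' = M.col e).card)
    (hM : M0 + 2 * (Fintype.card P + 1) ^ (g + 1) + k ≤ m) (hk : Fintype.card I * h ≤ k)
    (hg : M.Girth π g) (hh : 2 * h ≤ g) (h1 : 1 ≤ h) (hC : 1 ≤ Fintype.card C) (root : W) {t : ℕ}
    (ht : 1 ≤ t) (S : Finset (Equiv.Perm E))
    (hS : ∀ π' ∈ S, π' ∈ M.Good g ∧ ∃ d' : Loc M π' I h, d.Sim d' root) :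
    S.card * M0 ^ (d.Jt t).card ≤ (Fintype.card C ^ (2 * d.Sp.card) * Np ^ (d.Free t).card *
      (nw ^ (d.W2 root t).card * mp ^ ((((d.Jt t).image M.src).erase root \ d.W2 root t).card +
        ((d.Jt t).image fun e => M.tg (π e)).card))) * (M.Good g).card := by
  have hpos : ∀ j : d.Jt t, ∃ R, ∃ i < d.len R, (d.z R i).1 = j.1 := fun j =>
    d.mult_pos.1 (by have := d.mem_Jt.1 j.2; omega)
  choose R0 i0 hi0 he0 using hpos
  have hmp : ∀ j : d.Jt t, 0 < d.mult j.1 := fun j => by have := d.mem_Jt.1 j.2; omega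
  let Rel : d.Jt t → d.Jt t → Prop := fun j j' => ∃ R R' i, d.mir R = some R' ∧ i < d.len R ∧
    (d.z R i).1 = j.1 ∧ (d.z R' (d.len R - 1 - i)).1 = j'.1
  let Exc : Finset (d.Jt t) := univ.filter fun j =>
    ¬ d.IsReg (Sum.inl (M.src j.1)) ∨ ¬ d.IsReg (Sum.inr (M.tg (π j.1)))
  have hExc : Exc.card ≤ 2 * d.Sp.card := by
    have : Exc.image Subtype.val ⊆ d.Sp.image (fun p => (d.z p.1 p.2).1) ∪
        d.Sp.image (fun p => (d.z p.1 (p.2 - 1)).1) := by
      intro e he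
      obtain ⟨j, hj, rfl⟩ := mem_image.1 he
      obtain ⟨v, hv1, hv2⟩ : ∃ v, M.Inc π j.1 v ∧ ¬ d.IsReg v := by
        rcases (mem_filter.1 hj).2 with a | a
        · exact ⟨_, Or.inl rfl, a⟩
        · exact ⟨_, Or.inr rfl, a⟩
      rw [← he0 j, d.inc_iff (hi0 j)] at hv1
      rcases hv1 with rfl | rfl
      · exact mem_union_left _ (mem_image.2 ⟨(R0 j, i0 j), d.mem_Sp.2 ⟨(hi0 j).le, hv2⟩, he0 j⟩)
      · exact mem_union_right _ (mem_image.2 ⟨(R0 j, i0 j + 1), d.mem_Sp.2 ⟨hi0 j, hv2⟩, he0 j⟩)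
    have a1 := card_le_card this
    rw [card_image_of_injective _ Subtype.val_injective] at a1
    have a2 := card_union_le (d.Sp.image (fun p => (d.z p.1 p.2).1))
      (d.Sp.image (fun p => (d.z p.1 (p.2 - 1)).1))
    have a3 := card_image_le (s := d.Sp) (f := fun p => (d.z p.1 p.2).1)
    have a4 := card_image_le (s := d.Sp) (f := fun p => (d.z p.1 (p.2 - 1)).1)
    omega
  have hJ : Fintype.card (d.Jt t) ≤ k := by
    refine le_trans ?_ hk
    rw [show Fintype.card I * h = Fintype.card (I × Fin h) by simp]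
    refine Fintype.card_le_of_injective (fun j => (R0 j, ⟨i0 j, ?_⟩)) fun j j' e => ?_
    · have := hi0 j; have := d.len_le (R0 j); omega
    · simp only [Prod.mk.injEq, Fin.mk.injEq] at e
      exact Subtype.ext (by rw [← he0, ← he0, e.2, e.1])
  have hreg : ∀ v e1 e2, d.Reg v e1 e2 → t ≤ d.mv v → e1 ∈ d.Jt t ∧ M.Inc π e1 v := fun v e1 e2 r a =>
    ⟨d.mem_Jt.2 (by rw [r.mult_eq hg hh (by omega)]; exact a), r.inc (by omega)⟩
  have key := Mdl.count_perm hN g m M0 k hm hM hJ (fun j : d.Jt t => M.src j.1)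
    (fun j => M.tg (π j.1)) Rel root root Exc (d.Free t) (d.W2 root t) ?_ ?_ ?_ ?_ S ?_
  · have e1 : (univ.image fun j : d.Jt t => M.src j.1) = (d.Jt t).image M.src := by
      ext; simp
    have e2 : (univ.image fun j : d.Jt t => M.tg (π j.1)) = (d.Jt t).image fun e => M.tg (π e) := by
      ext; simp
    rw [e1, e2, Fintype.card_coe] at key
    refine key.trans (Nat.mul_le_mul_right _ (Nat.mul_le_mul_right _ (Nat.mul_le_mul_right _ ?_)))
    exact Nat.pow_le_pow_right hC hExc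
  · intro β hβ
    obtain ⟨a1, ⟨e1, e2, r⟩, -⟩ := (mem_filter.1 hβ).2
    obtain ⟨b1, b2⟩ := hreg _ _ _ r a1
    obtain ⟨b3, b4⟩ := hreg _ _ _ r.symm a1
    refine ⟨⟨e1, b1⟩, ⟨e2, b3⟩, fun e => r.1 (congrArg Subtype.val e), ?_, ?_, fun j hj => ?_⟩
    · simpa [Mdl.Inc, eq_comm] using b2
    · simpa [Mdl.Inc, eq_comm] using b4
    · rcases r.edges (hmp j) (Or.inr (by rw [← hj])) with e | e
      · exact Or.inl (Subtype.ext e)
      · exact Or.inr (Subtype.ext e)
  · intro l l' hl hl' hE hF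
    suffices H : ∀ β, ∀ j : d.Jt t, M.tg (π j.1) = β → l j = l' j from fun j => H _ j rfl
    intro β
    induction β using (InvImage.wf d.key wellFounded_lt).induction with
    | h β ih =>
    rintro j rfl
    by_cases a1 : j ∈ Exc
    · exact hE j a1
    have a2 : d.IsReg (Sum.inr (M.tg (π j.1))) := by
      by_contra a; exact a1 (mem_filter.2 ⟨mem_univ _, Or.inr a⟩)
    have a3 : t ≤ d.mv (Sum.inr (M.tg (π j.1))) :=
      (d.mem_Jt.1 j.2).trans (d.mult_le_mv hg hh (Or.inr rfl))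
    by_cases a4 : d.Con (M.tg (π j.1))
    swap
    · exact hF j (mem_filter.2 ⟨mem_univ _, a3, a2, a4⟩)
    obtain ⟨R, R', i, β', c1, c2, c3, c4, c5, c6⟩ := a4
    obtain ⟨e1, e2, r⟩ := a2
    obtain ⟨c7, c8, c9⟩ := r.2 R i c2 c3
    have c10 := d.mir_len R R' c1
    obtain ⟨i', c11, c12⟩ : ∃ i', (i' = i - 1 ∨ i' = i) ∧ (d.z R i').1 = j.1 := by
      rcases r.edges (hmp j) (Or.inr rfl) with e | e <;> rcases c9 with c9 | c9
      · exact ⟨_, Or.inl rfl, c9.1.trans e.symm⟩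
      · exact ⟨_, Or.inr rfl, c9.2.trans e.symm⟩
      · exact ⟨_, Or.inr rfl, c9.2.trans e.symm⟩
      · exact ⟨_, Or.inl rfl, c9.1.trans e.symm⟩
    have c13 : M.Inc π (d.z R' (d.len R - 1 - i')).1 (Sum.inr β') := by
      rw [d.inc_iff (by omega), ← c4]
      rcases c11 with rfl | rfl
      · left; congr 1; omega
      · right; congr 1; omega
    have c14 : d.mv (Sum.inr (M.tg (π j.1))) ≤ d.mv (Sum.inr β') := by
      have := d.mv_le hg hh (Sum.inr β')
      have := d.mv_le hg hh (Sum.inr (M.tg (π j.1)))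
      rcases Prod.Lex.toLex_lt_toLex.1 c6 with a | a <;> simp only at a <;> omega
    have c15 : (d.z R' (d.len R - 1 - i')).1 ∈ d.Jt t := by
      rw [d.mem_Jt, c5.mult_eq hg hh (d.mult_pos.2 ⟨R', _, by omega, rfl⟩) c13]; omega
    have c16 : Rel j ⟨_, c15⟩ := ⟨R, R', i', c1, by omega, c12, rfl⟩
    rw [hl _ _ c16, hl' _ _ c16]
    exact ih β' c6 _ (by simpa [Mdl.Inc, eq_comm] using c13)
  · intro Q hE hQ
    suffices H : ∀ i R, i < d.len R → ∀ j : d.Jt t, (d.z R i).1 = j.1 → Q j from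
      fun j => H _ _ (hi0 j) j (he0 j)
    intro i
    induction i using Nat.strong_induction_on with
    | h i ih =>
    intro R hi j hj
    by_cases a1 : j ∈ Exc
    · exact hE j a1
    have a0 : M.Inc π j.1 (d.τ R i) := by rw [← hj, d.inc_iff hi]; left; rfl
    have a2 : d.IsReg (d.τ R i) := by
      by_contra a
      rcases a0 with a0 | a0 <;> rw [a0] at a
      · exact a1 (mem_filter.2 ⟨mem_univ _, Or.inl a⟩)
      · exact a1 (mem_filter.2 ⟨mem_univ _, Or.inr a⟩)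
    have a3 : 0 < i := by
      obtain ⟨e1, e2, r⟩ := a2
      exact (r.2 R i hi.le rfl).1
    have a4 : M.Inc π (d.z R (i - 1)).1 (d.τ R i) := by
      rw [d.inc_iff (by omega)]; right; congr 1; omega
    have a5 : (d.z R (i - 1)).1 ∈ d.Jt t := by
      rw [d.mem_Jt, a2.mult_eq hg hh (d.mult_pos.2 ⟨R, _, by omega, rfl⟩) a4,
        ← a2.mult_eq hg hh (hmp j) a0]
      exact d.mem_Jt.1 j.2
    refine hQ ⟨_, a5⟩ j ?_ (ih (i - 1) (by omega) R (by omega) _ rfl)
    rcases a0 with a0 | a0 <;> rcases a4 with a4 | a4 <;> rw [a0] at a4 <;> simp at a4 <;>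
      simp [a4]
  · intro α hα
    obtain ⟨a1, ⟨e1, e2, r⟩, a2⟩ := (mem_filter.1 hα).2
    obtain ⟨b1, b2⟩ := hreg _ _ _ r a1
    obtain ⟨b3, b4⟩ := hreg _ _ _ r.symm a1
    refine ⟨a2, ⟨e1, b1⟩, ⟨e2, b3⟩, fun e => r.1 (congrArg Subtype.val e), ?_, ?_⟩
    · simpa [Mdl.Inc, eq_comm] using b2
    · simpa [Mdl.Inc, eq_comm] using b4
  · intro π' hπ'
    obtain ⟨a1, d', s⟩ := hS π' hπ'
    obtain ⟨a2, a3⟩ := Mdl.mem_good.1 a1
    have hed : ∀ R i R' i', i < d.len R → i' < d.len R' → (d.z R i).1 = (d.z R' i').1 →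
        (d'.z R i).1 = (d'.z R' i').1 := fun R i R' i' hi hi' e =>
      edge_eq a3 (by omega) ((s.src_iff hi hi').2 (by rw [e])) ((s.tg_iff hi hi').2 (by rw [e]))
    have hinj : ∀ j j', (d'.z (R0 j) (i0 j)).1 = (d'.z (R0 j') (i0 j')).1 → j = j' := by
      intro j j' e
      refine Subtype.ext ?_
      rw [← he0, ← he0]
      exact edge_eq hg (by omega) ((s.src_iff (hi0 j) (hi0 j')).1 (by rw [e]))
        ((s.tg_iff (hi0 j) (hi0 j')).1 (by rw [e]))
    refine ⟨a1, fun j => ((d'.z (R0 j) (i0 j)).1, π' (d'.z (R0 j) (i0 j)).1),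
      ⟨fun j j' e => ?_, fun j j' e => ?_, fun j => a2 _, hinj,
        fun j j' e => hinj j j' (π'.injective e), ?_, fun j e => ?_⟩, fun j => rfl⟩
    · exact (s.src_iff (hi0 j) (hi0 j')).2 (by rw [he0, he0, e])
    · exact (s.tg_iff (hi0 j) (hi0 j')).2 (by rw [he0, he0, e])
    · rintro j j' ⟨R, R', i, c1, c2, c3, c4⟩
      have c5 := d.mir_len R R' c1
      simp only
      rw [hed _ _ R i (hi0 j) c2 (by rw [he0, c3]),
        hed _ _ R' (d.len R - 1 - i) (hi0 j') (by omega) (by rw [he0, c4])]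
      have := d'.mir_lab R R' (by rw [s.mir, c1]) i (by rw [s.len]; exact c2)
      rw [s.len] at this
      exact (congrArg Prod.fst this).symm
    · exact s.src_rt (hi0 j) (by rw [he0, e])

end Loc

end Crest.Agent.H6.Kap
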