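import Mathlib
import Crest.Agent.H6.KLocal

/-! Summing over multiplicity levels. -/

namespace Crest.Agent.H6.Kap

open Finset

theorem sum_levels {X : Type} (m : X → ℕ) (s : Finset X) (K : ℕ) (hK : ∀ x, m x ≤ K)
    (F : ℕ → Finset X) (hF : ∀ t x, x ∈ F t ↔ t ≤ m x ∧ x ∈ s) :
    ∑ t ∈ Icc 1 K, (F t).card = ∑ x ∈ s, m x := by
  classical
  have : ∀ t, F t = s.filter fun x => t ≤ m x := fun t => by ext x; simp [hF, and_comm]
  simp only [this, card_filter]
  rw [sum_comm]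
  refine sum_congr rfl fun x _ => ?_
  rw [← card_filter]
  have : (Icc 1 K).filter (fun t => t ≤ m x) = Icc 1 (m x) := by
    ext t; have := hK x; simp only [mem_filter, mem_Icc]; omega
  rw [this]; simp

variable {P E W B C : Type} {M : Mdl P E W B C} {π : Equiv.Perm E}

namespace Loc

variable {I : Type} [Fintype I] {h g : ℕ} (d : Loc M π I h)

open Classical in
theorem sum_mv (s : Finset (W ⊕ B)) :
    ∑ v ∈ s, d.mv v = (d.VP.filter fun p => d.τ p.1 p.2 ∈ s).card := by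
  rw [← sum_card_fiberwise_eq_card_filter]; rfl

open Classical in
/-- run ends without successor at a vertex -/
noncomputable def eH (root : W) : ℕ :=
  (univ.filter fun R => d.nxt R = none ∧ d.τ R (d.len R) ≠ Sum.inl root).card
open Classical in
/-- run starts without predecessor -/
noncomputable def eT (root : W) : ℕ :=
  (univ.filter fun S => (∀ R, d.nxt R ≠ some S) ∧ d.τ S 0 ≠ Sum.inl root).card
open Classical in
/-- indicator that a run starts at the root -/
noncomputable def rI (root : W) : ℕ := if ∃ R, d.τ R 0 = Sum.inl root then 1 else 0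
open Classical in
/-- unmirrored length -/
noncomputable def un : ℕ := ∑ R ∈ univ.filter fun R => d.mir R = none, d.len R

/-- successor relation on edge positions -/
def Suc (p q : I × ℕ) : Prop :=
  p.2 < d.len p.1 ∧ q.2 < d.len q.1 ∧
    ((q.1 = p.1 ∧ q.2 = p.2 + 1) ∨ (p.2 + 1 = d.len p.1 ∧ d.nxt p.1 = some q.1 ∧ q.2 = 0))

omit [Fintype I] in
theorem Suc.spec {p q : I × ℕ} (s : d.Suc p q) :
    d.τ p.1 (p.2 + 1) = d.τ q.1 q.2 ∧ (d.z p.1 p.2).1 ≠ (d.z q.1 q.2).1 := by
  obtain ⟨R, i⟩ := p; obtain ⟨S, j⟩ := q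
  obtain ⟨h1, h2, h3⟩ := s
  simp only at *
  have a : d.τ R (i + 1) = d.τ S j ∧ d.z S j ≠ rv (d.z R i) := by
    rcases h3 with ⟨rfl, rfl⟩ | ⟨h3, h4, rfl⟩
    · exact ⟨rfl, d.red _ _ h2⟩
    · have := d.nxt_ne R S h4
      rw [← h3] at this
      exact ⟨h3 ▸ d.nxt_v R S h4, this⟩
  refine ⟨a.1, fun e => ?_⟩
  rcases eq_or_rv e with e | e
  · apply Mdl.tl_ne_hd (M := M) π (d.z R i)
    rw [(d.wk R i h1).2, a.1, ← (d.wk S j h2).1, e]
  · exact a.2 e

open Classical in
theorem two_mult_le (e : E) (v : W ⊕ B) (hi : M.Inc π e v) :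
    2 * d.mult e ≤ (d.EP.filter fun p => d.τ p.1 p.2 = v).card +
      (d.EP.filter fun p => d.τ p.1 (p.2 + 1) = v).card +
      (univ.filter fun R => d.nxt R = none ∧ d.τ R (d.len R) = v).card +
      (univ.filter fun S => (∀ R, d.nxt R ≠ some S) ∧ d.τ S 0 = v).card := by
  set Tl := d.EP.filter fun p => d.τ p.1 p.2 = v
  set Hd := d.EP.filter fun p => d.τ p.1 (p.2 + 1) = v
  let q : I × ℕ → Prop := fun p => (d.z p.1 p.2).1 = e
  have h1 : d.mult e ≤ (Tl.filter q).card + (Hd.filter q).card := by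
    refine le_trans (card_le_card ?_) (card_union_le _ _)
    intro p hp
    obtain ⟨a1, a2⟩ := mem_filter.1 hp
    rw [← a2, d.inc_iff (d.mem_EP.1 a1)] at hi
    rcases hi with hi | hi
    · exact mem_union_left _ (mem_filter.2 ⟨mem_filter.2 ⟨a1, hi.symm⟩, a2⟩)
    · exact mem_union_right _ (mem_filter.2 ⟨mem_filter.2 ⟨a1, hi.symm⟩, a2⟩)
  have h2 := card_filter_add_card_filter_not (s := Tl) q
  have h3 := card_filter_add_card_filter_not (s := Hd) q
  have h4 := card_filter_add_card_filter_not (s := Hd.filter q) fun p => ∃ p', d.Suc p p'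
  have h5 := card_filter_add_card_filter_not (s := Tl.filter q) fun p => ∃ p', d.Suc p' p
  have h6 : ((Hd.filter q).filter fun p => ∃ p', d.Suc p p').card ≤
      (Tl.filter fun p => ¬ q p).card := by
    refine card_le_card_of_forall_subsingleton d.Suc ?_ ?_
    · intro p hp
      simp only [mem_filter, Hd, q] at hp
      obtain ⟨⟨⟨a1, a2⟩, a3⟩, p', a4⟩ := hp
      refine ⟨p', ?_, a4⟩
      simp only [mem_filter, Tl, q, mem_EP]
      exact ⟨⟨a4.2.1, a2 ▸ (Suc.spec d a4).1.symm⟩, a3 ▸ (Suc.spec d a4).2.symm⟩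
    · rintro ⟨S, j⟩ - ⟨R, i⟩ ⟨-, a1, a2, a3⟩ ⟨R', i'⟩ ⟨-, b1, b2, b3⟩
      simp only at *
      rcases a3 with ⟨rfl, rfl⟩ | ⟨a3, a4, rfl⟩ <;> rcases b3 with ⟨rfl, b3⟩ | ⟨b3, b4, b5⟩
      · rw [show i = i' by omega]
      · omega
      · omega
      · obtain rfl := d.nxt_inj _ _ _ a4 b4
        rw [show i = i' by omega]
  have h7 : ((Tl.filter q).filter fun p => ∃ p', d.Suc p' p).card ≤
      (Hd.filter fun p => ¬ q p).card := by
    refine card_le_card_of_forall_subsingleton (fun p p' => d.Suc p' p) ?_ ?_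
    · intro p hp
      simp only [mem_filter, Tl, q] at hp
      obtain ⟨⟨⟨a1, a2⟩, a3⟩, p', a4⟩ := hp
      refine ⟨p', ?_, a4⟩
      simp only [mem_filter, Hd, q, mem_EP]
      exact ⟨⟨a4.1, a2 ▸ (Suc.spec d a4).1⟩, a3 ▸ (Suc.spec d a4).2⟩
    · rintro ⟨S, j⟩ - ⟨R, i⟩ ⟨-, a1, a2, a3⟩ ⟨R', i'⟩ ⟨-, b1, b2, b3⟩
      simp only at *
      rcases a3 with ⟨rfl, rfl⟩ | ⟨a3, a4, rfl⟩ <;> rcases b3 with ⟨rfl, b3⟩ | ⟨b3, b4, b5⟩
      · rw [b3]
      · omega
      · omega
      · rw [a4] at b4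
        obtain rfl := Option.some.inj b4
        rw [b5]
  have h8 : ((Hd.filter q).filter fun p => ¬ ∃ p', d.Suc p p').card ≤
      (univ.filter fun R => d.nxt R = none ∧ d.τ R (d.len R) = v).card := by
    have key : ∀ p ∈ (Hd.filter q).filter fun p => ¬ ∃ p', d.Suc p p',
        p.2 + 1 = d.len p.1 ∧ d.nxt p.1 = none ∧ d.τ p.1 (p.2 + 1) = v := by
      intro p hp
      simp only [mem_filter, Hd, q, mem_EP, not_exists] at hp
      obtain ⟨⟨⟨a1, a2⟩, a3⟩, a4⟩ := hp
      have a5 : p.2 + 1 = d.len p.1 := by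
        by_contra a
        exact a4 (p.1, p.2 + 1) ⟨a1, by simp only; omega, Or.inl ⟨rfl, rfl⟩⟩
      refine ⟨a5, ?_, a2⟩
      rcases hn : d.nxt p.1 with _ | S
      · rfl
      · exact absurd ⟨a1, d.len_pos S, Or.inr ⟨a5, hn, rfl⟩⟩ (a4 (S, 0))
    refine card_le_card_of_injOn Prod.fst (fun p hp => ?_) fun p hp p' hp' e => ?_
    · obtain ⟨a1, a2, a3⟩ := key p hp
      simpa [← a1] using ⟨a2, a3⟩
    · have a1 := (key p hp).1
      have a2 := (key p' hp').1
      exact Prod.ext e (by rw [e] at a1; omega)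
  have h9 : ((Tl.filter q).filter fun p => ¬ ∃ p', d.Suc p' p).card ≤
      (univ.filter fun S => (∀ R, d.nxt R ≠ some S) ∧ d.τ S 0 = v).card := by
    have key : ∀ p ∈ (Tl.filter q).filter fun p => ¬ ∃ p', d.Suc p' p,
        p.2 = 0 ∧ (∀ R, d.nxt R ≠ some p.1) ∧ d.τ p.1 p.2 = v := by
      intro p hp
      simp only [mem_filter, Tl, q, mem_EP, not_exists] at hp
      obtain ⟨⟨⟨a1, a2⟩, a3⟩, a4⟩ := hp
      have a5 : p.2 = 0 := by
        by_contra a
        exact a4 (p.1, p.2 - 1) ⟨by simp only; omega, a1, Or.inl ⟨rfl, by simp only; omega⟩⟩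
      refine ⟨a5, fun R hn => ?_, a2⟩
      have := d.len_pos R
      exact a4 (R, d.len R - 1) ⟨by simp only; omega, a1, Or.inr ⟨by simp only; omega, hn, a5⟩⟩
    refine card_le_card_of_injOn Prod.fst (fun p hp => ?_) fun p hp p' hp' e => ?_
    · obtain ⟨a1, a2, a3⟩ := key p hp
      rw [a1] at a3
      simpa using ⟨a2, a3⟩
    · exact Prod.ext e ((key p hp).1.trans (key p' hp').1.symm)
  omega

variable [Fintype E] [Fintype W] [Fintype B]

open Classical in
/-- maximal multiplicity of an edge at a vertex -/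
noncomputable def mx (v : W ⊕ B) : ℕ := (univ.filter fun e => M.Inc π e v).sup d.mult

open Classical in
theorem sum_mx (root : W) : 2 * ∑ v ∈ univ.filter (fun v => v ≠ Sum.inl root), d.mx v + d.rI root ≤
    2 * ∑ R, d.len R + d.eH root + d.eT root := by
  set s : Finset (W ⊕ B) := univ.filter fun v => v ≠ Sum.inl root
  have h1 : ∀ v, 2 * d.mx v ≤ (d.EP.filter fun p => d.τ p.1 p.2 = v).card +
      (d.EP.filter fun p => d.τ p.1 (p.2 + 1) = v).card +
      ((univ.filter fun R => d.nxt R = none).filter fun R => d.τ R (d.len R) = v).card +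
      ((univ.filter fun S => ∀ R, d.nxt R ≠ some S).filter fun S => d.τ S 0 = v).card := by
    intro v
    rcases (univ.filter fun e => M.Inc π e v).eq_empty_or_nonempty with h0 | h0
    · simp [mx, h0]
    · obtain ⟨e, he, he'⟩ := exists_mem_eq_sup _ h0 d.mult
      rw [mx, he', filter_filter, filter_filter]
      convert d.two_mult_le e v (mem_filter.1 he).2
  have h2 := sum_le_sum fun v (_ : v ∈ s) => h1 v
  simp only [sum_add_distrib, sum_card_fiberwise_eq_card_filter, ← mul_sum] at h2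
  simp only [filter_filter] at h2
  have h3 : (d.EP.filter fun p => d.τ p.1 (p.2 + 1) ∈ s).card ≤ d.EP.card := card_filter_le _ _
  have h4 : (d.EP.filter fun p => d.τ p.1 p.2 ∈ s).card + d.rI root ≤ d.EP.card := by
    unfold rI
    split_ifs with hc
    · obtain ⟨R, hR⟩ := hc
      refine card_lt_card ⟨filter_subset _ _, fun hs => ?_⟩
      have := (mem_filter.1 (hs (d.mem_EP.2 (show ((R, 0) : I × ℕ).2 < _ from d.len_pos R)))).2
      simp [s, hR] at this
    · exact card_filter_le _ _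
  have h5 : (univ.filter fun R => d.nxt R = none ∧ d.τ R (d.len R) ∈ s).card = d.eH root := by
    simp [eH, s]
  have h6 : (univ.filter fun S => (∀ R, d.nxt R ≠ some S) ∧ d.τ S 0 ∈ s).card = d.eT root := by
    simp [eT, s]
  rw [← d.card_EP]
  omega

open Classical in
theorem sum_Jt (hg : M.Girth π g) (hh : 2 * h ≤ g) {K : ℕ} (hK : Fintype.card I ≤ K) :
    ∑ t ∈ Icc 1 K, (d.Jt t).card = ∑ R, d.len R := by
  rw [sum_levels d.mult univ K (fun e => (d.mult_le hg hh e).trans hK) _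
    fun t x => by simp [mem_Jt], ← d.card_EP]
  exact (card_eq_sum_card_fiberwise (f := fun p : I × ℕ => (d.z p.1 p.2).1) (t := univ) fun _ _ => by simp).symm

open Classical in
theorem sum_vert (hg : M.Girth π g) (hh : 2 * h ≤ g) {K : ℕ} (hK : Fintype.card I ≤ K) (root : W) :
    ∑ t ∈ Icc 1 K, ((d.W2 root t).card + ((((d.Jt t).image M.src).erase root \ d.W2 root t).card +
        ((d.Jt t).image fun e => M.tg (π e)).card)) ≤
      ∑ v ∈ univ.filter (fun v => v ≠ Sum.inl root), d.mx v := by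
  rw [← sum_levels d.mx _ K (fun v => Finset.sup_le fun e _ => (d.mult_le hg hh e).trans hK)
    (fun t => univ.filter fun v => t ≤ d.mx v ∧ v ≠ Sum.inl root) fun t x => by simp]
  refine sum_le_sum fun t ht => ?_
  have ht1 := (mem_Icc.1 ht).1
  have h1 : d.W2 root t ⊆ ((d.Jt t).image M.src).erase root := by
    intro α hα
    obtain ⟨a1, ⟨e1, e2, r⟩, a2⟩ := (mem_filter.1 hα).2
    refine mem_erase.2 ⟨a2, mem_image.2 ⟨e1, d.mem_Jt.2 ?_, ?_⟩⟩
    · rw [r.mult_eq hg hh (by omega)]; exact a1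
    · simpa [Mdl.Inc, eq_comm] using r.inc (by omega)
  have h2 := card_sdiff_add_card_eq_card h1
  rw [← add_assoc, add_comm (d.W2 root t).card, h2, ← card_disjSum]
  refine card_le_card fun v hv => ?_
  simp only [mem_filter, mem_univ, true_and]
  rcases mem_disjSum.1 hv with ⟨α, h3, rfl⟩ | ⟨β, h3, rfl⟩
  · obtain ⟨h4, h5⟩ := mem_erase.1 h3
    obtain ⟨e, he, rfl⟩ := mem_image.1 h5
    refine ⟨(d.mem_Jt.1 he).trans (le_sup (f := d.mult) ?_), by simpa using h4⟩
    simp [Mdl.Inc]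
  · obtain ⟨e, he, rfl⟩ := mem_image.1 h3
    refine ⟨(d.mem_Jt.1 he).trans (le_sup (f := d.mult) ?_), by simp⟩
    simp [Mdl.Inc]

open Classical in
theorem sum_W2 (hg : M.Girth π g) (hh : 2 * h ≤ g) {K : ℕ} (hK : Fintype.card I ≤ K) (root : W) :
    ∑ R, d.len R ≤ 2 * (∑ t ∈ Icc 1 K, (d.W2 root t).card + d.Sp.card + K) := by
  set s := univ.filter fun α => d.IsReg (Sum.inl α) ∧ α ≠ root
  rw [sum_levels (fun α => d.mv (Sum.inl α)) s K (fun α => (d.mv_le hg hh _).trans hK) _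
    fun t x => by simp [W2, s]]
  have h1 := d.sum_mv (s.map Function.Embedding.inl)
  rw [sum_map] at h1
  simp only [Function.Embedding.inl_apply] at h1
  rw [h1, ← d.card_EP]
  set X := d.VP.filter fun p => d.τ p.1 p.2 ∈ s.map Function.Embedding.inl
  have h2 : (d.VP.filter fun p => d.τ p.1 p.2 = Sum.inl root).card ≤ K :=
    (d.mv_le hg hh (Sum.inl root)).trans hK
  have h3 : d.EP.card ≤ ((X ∪ d.Sp ∪ d.VP.filter fun p => d.τ p.1 p.2 = Sum.inl root) ×ˢ
      (univ : Finset Bool)).card := by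
    refine card_le_card_of_injOn
      (fun p => ((p.1, if (d.z p.1 p.2).2 then p.2 else p.2 + 1), (d.z p.1 p.2).2)) ?_ ?_
    · intro p hp
      have a1 := d.mem_EP.1 (mem_coe.1 hp)
      have a2 := d.pos_w a1
      have a3 : (if (d.z p.1 p.2).2 then p.2 else p.2 + 1) ≤ d.len p.1 := by split_ifs <;> omega
      simp only [coe_product, coe_union, Set.mem_prod, Set.mem_union, mem_coe, mem_univ, and_true,
        X, mem_filter, mem_VP, mem_Sp, a2, a3, true_and, s]
      by_cases b1 : d.IsReg (Sum.inl (M.src (d.z p.1 p.2).1)) <;>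
        by_cases b2 : M.src (d.z p.1 p.2).1 = root <;> simp [b1, b2]
    · rintro ⟨R, i⟩ - ⟨R', i'⟩ - e
      simp only [Prod.mk.injEq] at e
      obtain ⟨⟨rfl, e1⟩, e2⟩ := e
      rw [e2] at e1
      rw [show i = i' by split_ifs at e1 <;> omega]
  rw [card_product, card_univ, Fintype.card_bool] at h3
  have h4 := card_union_le (X ∪ d.Sp) (d.VP.filter fun p => d.τ p.1 p.2 = Sum.inl root)
  have h5 := card_union_le X d.Sp
  omega

open Classical in
theorem sum_Free (hπ : M.CP π) (hg : M.Girth π g) (hh : 2 * h ≤ g) {K : ℕ}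
    (hK : Fintype.card I ≤ K) :
    4 * ∑ t ∈ Icc 1 K, (d.Free t).card ≤ ∑ R, d.len R + 2 * d.un + 2 * d.Sp.card := by
  set s := univ.filter fun β => d.IsReg (Sum.inr β) ∧ ¬ d.Con β
  rw [sum_levels (fun α => d.mv (Sum.inr α)) s K (fun α => (d.mv_le hg hh _).trans hK) _
    fun t x => by simp [Free, s]]
  have h1 := d.sum_mv (s.map Function.Embedding.inr)
  rw [sum_map] at h1
  simp only [Function.Embedding.inr_apply] at h1
  rw [h1, ← d.card_EP]
  set U := d.VP.filter fun p => d.τ p.1 p.2 ∈ s.map Function.Embedding.inr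
  let BR := d.VP.filter fun p => ∃ β, d.τ p.1 p.2 = Sum.inr β ∧ d.IsReg (Sum.inr β)
  have hU : ∀ p, p ∈ U ↔ p.2 ≤ d.len p.1 ∧
      ∃ β, d.τ p.1 p.2 = Sum.inr β ∧ d.IsReg (Sum.inr β) ∧ ¬ d.Con β := by
    intro p
    simp only [U, s, mem_filter, mem_VP, mem_map, mem_univ, true_and,
      Function.Embedding.inr_apply, eq_comm (a := d.τ p.1 p.2)]
    tauto
  have hBR : ∀ p ∈ BR, 0 < p.2 ∧ p.2 < d.len p.1 ∧ (d.z p.1 p.2).2 = false := by
    intro p hp
    obtain ⟨a1, β, a2, e1, e2, r⟩ := mem_filter.1 hp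
    obtain ⟨a3, a4, -⟩ := r.2 p.1 p.2 (d.mem_VP.1 a1) a2
    refine ⟨a3, a4, ?_⟩
    rw [← Mdl.isLeft_tl (M := M) π, (d.wk _ _ a4).1, a2]; rfl
  have hUB : U ⊆ BR := fun p hp => by
    obtain ⟨a1, β, a2, a3, -⟩ := (hU p).1 hp
    exact mem_filter.2 ⟨d.mem_VP.2 a1, β, a2, a3⟩
  have h2 : (BR ×ˢ (univ : Finset Bool)).card ≤ d.EP.card := by
    refine card_le_card_of_injOn (fun q => (q.1.1, if q.2 then q.1.2 else q.1.2 - 1)) ?_ ?_
    · intro q hq
      obtain ⟨a1, a2, -⟩ := hBR _ (mem_product.1 (mem_coe.1 hq)).1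
      simp only [mem_coe, mem_EP]; split_ifs <;> omega
    · rintro ⟨⟨R, i⟩, b⟩ hq ⟨⟨R', i'⟩, b'⟩ hq' e
      obtain ⟨a1, a2, a3⟩ := hBR _ (mem_product.1 (mem_coe.1 hq)).1
      obtain ⟨b1, b2, b3⟩ := hBR _ (mem_product.1 (mem_coe.1 hq')).1
      simp only [Prod.mk.injEq] at *
      obtain ⟨rfl, e⟩ := e
      cases b <;> cases b' <;> simp at e ⊢
      · omega
      · obtain rfl : i = i' + 1 := by omega
        rw [d.dir_succ a2, b3] at a3; simp at a3
      · obtain rfl : i' = i + 1 := by omega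
        rw [d.dir_succ b2, a3] at b3; simp at b3
      · exact e
  rw [card_product, card_univ, Fintype.card_bool] at h2
  have h3 : (U.filter fun p => d.mir p.1 = none).card ≤ d.un := by
    unfold un
    rw [← d.card_filter_EP]
    refine card_le_card fun p hp => mem_filter.2 ⟨d.mem_EP.2 ?_, (mem_filter.1 hp).2⟩
    exact (hBR p (hUB (mem_filter.1 hp).1)).2.1
  have h4 : (U.filter fun p => ¬ d.mir p.1 = none).card ≤ (d.Sp ∪ BR \ U).card := by
    refine card_le_card_of_forall_subsingleton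
      (fun p q => d.mir p.1 = some q.1 ∧ p.2 ≤ d.len p.1 ∧ q.2 = d.len p.1 - p.2) ?_ ?_
    · rintro ⟨R, i⟩ hp
      obtain ⟨a1, a2⟩ := mem_filter.1 hp
      obtain ⟨R', a3⟩ := Option.ne_none_iff_exists'.1 a2
      obtain ⟨a4, a5, a6⟩ := hBR _ (hUB a1)
      obtain ⟨-, β, a7, a8, a9⟩ := (hU _).1 a1
      simp only at a3 a4 a5 a6 a7
      refine ⟨(R', d.len R - i), ?_, a3, a5.le, rfl⟩
      have b1 := d.mir_len R R' a3
      have b2 := d.mir_lab R R' a3 i a5
      have b3 : (d.z R' (d.len R - 1 - i)).2 = true := by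
        have := congrArg Prod.snd b2
        simpa [Mdl.dl, a6] using this
      have b4 := d.pos_b (R := R') (i := d.len R - 1 - i) (by omega)
      rw [b3, if_pos rfl, show d.len R - 1 - i + 1 = d.len R - i by omega] at b4
      set β' := M.tg (π (d.z R' (d.len R - 1 - i)).1)
      by_cases b5 : d.IsReg (Sum.inr β')
      swap
      · exact mem_union_left _ (d.mem_Sp.2 ⟨by simp only; omega, by simpa [b4] using b5⟩)
      refine mem_union_right _ (mem_sdiff.2 ⟨mem_filter.2 ⟨d.mem_VP.2 (by simp only; omega),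
        β', b4, b5⟩, fun b6 => ?_⟩)
      obtain ⟨-, β'', c1, -, c2⟩ := (hU _).1 b6
      simp only [b4, Sum.inr.injEq] at c1
      subst c1
      rcases lt_trichotomy (d.key β') (d.key β) with c | c | c
      · exact a9 ⟨R, R', i, β', a3, a5.le, a7, b4, b5, c⟩
      · exact d.mir_ne R R' a3 i a5.le (by rw [b4, a7, d.key_inj c])
      · refine c2 ⟨R', R, d.len R - i, β, d.mir_symm _ _ a3, by omega, b4, ?_, a8, c⟩
        rw [← a7]; congr 1; omega
    · rintro ⟨S, j⟩ - ⟨R, i⟩ ⟨-, a1, a2, a3⟩ ⟨R', i'⟩ ⟨-, b1, b2, b3⟩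
      simp only at *
      have := (d.mir_symm _ _ a1).symm.trans (d.mir_symm _ _ b1)
      obtain rfl := Option.some.inj this
      rw [show i = i' by omega]
  have h5 := card_filter_add_card_filter_not (s := U) fun p => d.mir p.1 = none
  have h6 := card_union_le d.Sp (BR \ U)
  have h7 := card_sdiff_add_card_eq_card hUB
  omega

end Loc

end Crest.Agent.H6.Kap
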