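import Mathlib
import Crest.Agent.H6.KSum

/-! The local inequality for a suitable permutation. -/

namespace Crest.Agent.H6.Kap

open Finset

variable {P E W B C : Type} {M : Mdl P E W B C} {π : Equiv.Perm E}

namespace Loc

variable {I I' : Type} {h g : ℕ}

/-- reindexing -/
def reidx (d : Loc M π I h) (e : I' ≃ I) : Loc M π I' h where
  len R := d.len (e R)
  τ R := d.τ (e R)
  z R := d.z (e R)
  mir R := (d.mir (e R)).map e.symm
  nxt R := (d.nxt (e R)).map e.symm
  len_le R := d.len_le _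
  len_pos R := d.len_pos _
  wk R := d.wk _
  red R := d.red _
  mir_symm R R' a := by
    obtain ⟨S, a1, rfl⟩ := Option.map_eq_some_iff.1 a
    simp [d.mir_symm _ _ a1]
  mir_len R R' a := by
    obtain ⟨S, a1, rfl⟩ := Option.map_eq_some_iff.1 a
    simp [d.mir_len _ _ a1]
  mir_lab R R' a := by
    obtain ⟨S, a1, rfl⟩ := Option.map_eq_some_iff.1 a
    simpa using d.mir_lab _ _ a1
  mir_ne R R' a := by
    obtain ⟨S, a1, rfl⟩ := Option.map_eq_some_iff.1 a
    simpa using d.mir_ne _ _ a1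
  nxt_inj R R' S a b := by
    obtain ⟨S1, a1, rfl⟩ := Option.map_eq_some_iff.1 a
    obtain ⟨S2, b1, b2⟩ := Option.map_eq_some_iff.1 b
    obtain rfl := e.symm.injective b2
    exact e.injective (d.nxt_inj _ _ _ a1 b1)
  nxt_v R S a := by
    obtain ⟨S, a1, rfl⟩ := Option.map_eq_some_iff.1 a
    simpa using d.nxt_v _ _ a1
  nxt_ne R S a := by
    obtain ⟨S, a1, rfl⟩ := Option.map_eq_some_iff.1 a
    simpa using d.nxt_ne _ _ a1

variable [Fintype I] [Fintype I'] (d : Loc M π I h) (e : I' ≃ I)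

theorem reidx_len : ∑ R, (d.reidx e).len R = ∑ R, d.len R := e.sum_comp d.len

theorem reidx_un : (d.reidx e).un = d.un := by
  unfold un
  refine sum_equiv e (fun R => by simp [reidx]) fun R _ => rfl

theorem reidx_eH (root : W) : (d.reidx e).eH root = d.eH root := by
  unfold eH
  refine card_equiv e fun R => by simp [reidx]

theorem reidx_eT (root : W) : (d.reidx e).eT root = d.eT root := by
  unfold eT
  refine card_equiv e fun R => ?_
  simp only [reidx, mem_filter, mem_univ, true_and, ne_eq, Option.map_eq_some_iff, not_exists,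
    not_and]
  refine and_congr_left' ⟨fun a S hS => a (e.symm S) (e R) (by simpa using hS) (by simp), ?_⟩
  rintro a S x hx rfl
  exact a _ (by simpa using hx)

theorem reidx_rI (root : W) : (d.reidx e).rI root = d.rI root := by
  unfold rI
  congr 1
  exact propext ⟨fun ⟨R, a⟩ => ⟨e R, a⟩, fun ⟨R, a⟩ => ⟨e.symm R, by simpa [reidx] using a⟩⟩

end Loc

/-- bound on the number of types -/
def TB (K h : ℕ) : ℕ :=
  (K + 1) * ((h + 1) ^ K * (2 ^ K * ((K + 1) ^ K * (((2 * (h + 1) ^ 3 + 1) ^ K) ^ K *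
    (K * (h + 1) + 1)))))

theorem card_Ty (K h : ℕ) : Fintype.card (Σ k : Fin (K + 1), Loc.Ty (Fin k) h) ≤ TB K h := by
  rw [Fintype.card_sigma, TB]
  refine (sum_le_card_nsmul _ _ _ fun k _ => ?_).trans (le_of_eq (by simp; rfl))
  have hk : (k : ℕ) ≤ K := by have := k.2; omega
  simp only [Loc.Ty, Fintype.card_prod, Fintype.card_fun, Fintype.card_fin, Fintype.card_bool,
    Fintype.card_option]
  rw [show 2 * ((h + 1) * ((h + 1) * (h + 1))) = 2 * (h + 1) ^ 3 by ring]
  gcongr <;> first | omega | exact Nat.one_le_pow _ _ (by omega)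

variable (M π) in
/-- the local inequality -/
def LocIneq (K h : ℕ) (root : W) (η A B' C0 : ℝ) : Prop :=
  ∀ (I : Type) [Fintype I], Fintype.card I ≤ K → ∀ d : Loc M π I h,
    η * (∑ R, d.len R : ℕ) ≤ A * ((d.eH root : ℝ) + d.eT root - d.rI root) + B' * d.un + C0

open Classical in
theorem exists_locIneq [Fintype P] [Fintype E] [Fintype W] [Fintype B] [Fintype C]
    {Np nw mp : ℕ} (hN : M.Nice Np nw mp) (m M0 K g h : ℕ)
    (hm : ∀ e, m ≤ (univ.filter fun e' => M.col e' = M.col e).card)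
    (hM : M0 + 2 * (Fintype.card P + 1) ^ (g + 1) + K * h ≤ m) (hM0 : 1 ≤ M0)
    (hh : 2 * h ≤ g) (h1 : 1 ≤ h) (hC : 1 ≤ Fintype.card C) (hNp : 1 ≤ Np) (hnw : 1 ≤ nw)
    (hmp : nw ≤ mp) (root : W) (η Λ : ℝ)
    (hη : η ≤ Real.log M0 - Real.log mp + (Real.log mp - Real.log nw) / 2 - Real.log Np / 4)
    (hΛ : Real.log mp - Real.log nw ≤ Λ) :
    ∃ π ∈ M.Good g, LocIneq M π K h root η (Real.log mp / 2) (Real.log Np / 2)
      (K * (Real.log (2 * TB K h) + 2 * (K * (2 * K + 2)) * Real.log (Fintype.card C)) +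
        (K * (2 * K + 2)) * Real.log Np / 2 + (K * (2 * K + 2) + K) * Λ) := by
  have hG := Mdl.good_nonempty m hm g (by omega)
  obtain ⟨π, hπ, H⟩ := first_moment (Θ := Σ k : Fin (K + 1), Loc.Ty (Fin k) h) (M.Good g) hG
    fun π θ => ∃ d : Loc M π (Fin θ.1) h, d.HasTy root θ.2
  refine ⟨π, hπ, fun I _ hI d0 => ?_⟩
  obtain ⟨hcp, hg⟩ := Mdl.mem_good.1 hπ
  let k : Fin (K + 1) := ⟨Fintype.card I, by omega⟩
  let e : Fin k ≃ I := (Fintype.equivFin I).symm
  rw [← d0.reidx_len e, ← d0.reidx_un e, ← d0.reidx_eH e, ← d0.reidx_eT e, ← d0.reidx_rI e]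
  generalize d0.reidx e = d
  have hk : Fintype.card (Fin k) ≤ K := by simpa using hI
  obtain ⟨θ, hθ⟩ := d.exists_ty hg hh root
  have H1 := H ⟨k, θ⟩ ⟨d, hθ⟩
  set c := 2 * TB K h * Fintype.card C ^ (2 * (K * (2 * K + 2)))
  have hsp : d.Sp.card ≤ K * (2 * K + 2) :=
    (d.card_Sp hg hh h1).trans (Nat.mul_le_mul hk (by omega))
  have H2 : ∀ t ∈ Icc 1 K, M0 ^ (d.Jt t).card ≤ c * (Np ^ (d.Free t).card *
      (nw ^ (d.W2 root t).card * mp ^ ((((d.Jt t).image M.src).erase root \ d.W2 root t).card +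
        ((d.Jt t).image fun e => M.tg (π e)).card))) := by
    intro t ht
    have := d.level_count hN m M0 (K * h) hm hM (Nat.mul_le_mul_right _ hk) hg hh h1 hC root
      (mem_Icc.1 ht).1 ((M.Good g).filter fun π' => ∃ d : Loc M π' (Fin k) h, d.HasTy root θ)
      fun π' hπ' => ⟨(mem_filter.1 hπ').1, (mem_filter.1 hπ').2.imp fun d' hd' =>
        Loc.sim_of_ty hθ hd'⟩
    refine Nat.le_of_mul_le_mul_right ?_ (card_pos.2 hG)
    have a1 := card_Ty K h
    have a2 : Fintype.card C ^ (2 * d.Sp.card) ≤ Fintype.card C ^ (2 * (K * (2 * K + 2))) :=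
      Nat.pow_le_pow_right hC (by omega)
    calc _ ≤ M0 ^ (d.Jt t).card * (2 * TB K h * _) :=
          Nat.mul_le_mul_left _ (H1.trans (Nat.mul_le_mul_right _ (Nat.mul_le_mul_left _ a1)))
      _ = 2 * TB K h * (((M.Good g).filter fun π' => ∃ d : Loc M π' (Fin k) h,
            d.HasTy root θ).card * M0 ^ (d.Jt t).card) := by ring
      _ ≤ 2 * TB K h * _ := Nat.mul_le_mul_left _ this
      _ ≤ _ := by
          simp only [c, mul_assoc]
          gcongr
  have H3 := prod_le_prod' H2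
  simp only [prod_mul_distrib, prod_pow_eq_pow_sum, prod_const, Nat.card_Icc,
    add_tsub_cancel_right] at H3
  have s1 := d.sum_Jt hg hh hk
  have s2 := d.sum_vert hg hh hk root
  have s3 := d.sum_W2 hg hh hk root
  have s4 := d.sum_Free hcp hg hh hk
  have s5 := d.sum_mx root
  rw [sum_add_distrib] at s2
  rw [s1] at H3
  generalize ∑ t ∈ Icc 1 K, (d.Free t).card = f at *
  generalize ∑ t ∈ Icc 1 K, (d.W2 root t).card = w at *
  generalize ∑ t ∈ Icc 1 K, ((((d.Jt t).image M.src).erase root \ d.W2 root t).card +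
        ((d.Jt t).image fun e => M.tg (π e)).card) = v at *
  generalize ∑ R, d.len R = L at *
  have s6 : 2 * (w + v) + d.rI root ≤ 2 * L + d.eH root + d.eT root := by omega
  have s7 : L ≤ 2 * (w + K * (2 * K + 2) + K) := by omega
  have s8 : 4 * f ≤ L + 2 * d.un + 2 * (K * (2 * K + 2)) := by omega
  have hTB : 0 < TB K h := by unfold TB; positivity
  have hc : 0 < c := by positivity
  have H4 : (L : ℝ) * Real.log M0 ≤ K * Real.log c + f * Real.log Np + w * Real.log nw +
      v * Real.log mp := by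
    have : ((M0 : ℝ)) ^ L ≤ (c : ℝ) ^ K * ((Np : ℝ) ^ f * ((nw : ℝ) ^ w * (mp : ℝ) ^ v)) := by
      exact_mod_cast H3
    have h2 := Real.log_le_log (by positivity) this
    have : (0 : ℝ) < mp := by exact_mod_cast (by omega : 0 < mp)
    rw [Real.log_mul (by positivity) (by positivity), Real.log_mul (by positivity) (by positivity),
      Real.log_mul (by positivity) (by positivity)] at h2
    simp only [Real.log_pow] at h2
    linarith
  have H5 : Real.log c = Real.log (2 * TB K h) + 2 * (K * (2 * K + 2)) *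
      Real.log (Fintype.card C) := by
    simp only [c]
    push_cast
    rw [Real.log_mul (by positivity) (by positivity), Real.log_pow]
    push_cast; ring
  rw [← H5]
  have l1 : 0 ≤ Real.log Np := Real.log_nonneg (by exact_mod_cast hNp)
  have l2 : 0 ≤ Real.log mp := Real.log_nonneg (by exact_mod_cast hnw.trans hmp)
  have l3 : 0 ≤ Real.log mp - Real.log nw :=
    sub_nonneg.2 (Real.log_le_log (by exact_mod_cast hnw) (by exact_mod_cast hmp))
  have r6 : 2 * ((w : ℝ) + v) + d.rI root ≤ 2 * L + d.eH root + d.eT root := by exact_mod_cast s6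
  have r7 : (L : ℝ) ≤ 2 * (w + K * (2 * K + 2) + K) := by exact_mod_cast s7
  have r8 : 4 * (f : ℝ) ≤ L + 2 * d.un + 2 * (K * (2 * K + 2)) := by exact_mod_cast s8
  have t1 := mul_le_mul_of_nonneg_right r6 l2
  have t2 := mul_le_mul_of_nonneg_right r7 l3
  have t3 := mul_le_mul_of_nonneg_right r8 l1
  have t4 := mul_le_mul_of_nonneg_right hη (Nat.cast_nonneg L)
  have t5 := mul_le_mul_of_nonneg_left hΛ
    (by positivity : (0 : ℝ) ≤ K * (2 * K + 2) + K)
  nlinarith

end Crest.Agent.H6.Kap
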