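import Mathlib
import Crest.Agent.H6.KPlanar

/-! A planar map has no `K₇` minor (MacLane's dimension count). -/

namespace Crest.Agent.H6.Kap

open Finset Module

/-- unordered pairs -/
abbrev Q7 : Type := {q : Fin 7 × Fin 7 // q.1 < q.2}

theorem even_three (z : Q7 → ZMod 2) (hz : ∀ i, ∑ q : Q7, z q * ((if q.1.1 = i then 1 else 0) +
    (if q.1.2 = i then 1 else 0)) = 0) (q : Q7) (hq : z q ≠ 0) :
    3 ≤ (univ.filter fun q => z q ≠ 0).card := by
  have key : ∀ i, (q.1.1 = i ∨ q.1.2 = i) → ∃ q' : Q7, q' ≠ q ∧ z q' ≠ 0 ∧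
      (q'.1.1 = i ∨ q'.1.2 = i) := by
    intro i hi
    by_contra hc
    push Not at hc
    have := hz i
    rw [sum_eq_single q] at this
    · have hlt := q.2
      rcases hi with hi | hi
      · rw [if_pos hi, if_neg (by omega)] at this; simp [hq] at this
      · rw [if_pos hi, if_neg (by omega)] at this; simp [hq] at this
    · intro b _ hb
      by_cases c : z b = 0
      · simp [c]
      · simp [hc b hb c]
    · simp
  obtain ⟨q1, a1, a2, a3⟩ := key _ (Or.inl rfl)
  obtain ⟨q2, b1, b2, b3⟩ := key _ (Or.inr rfl)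
  have c : q1 ≠ q2 := by
    rintro rfl
    apply a1
    have := q.2; have := q1.2
    refine Subtype.ext (Prod.ext ?_ ?_) <;> omega
  have : ({q, q1, q2} : Finset Q7) ⊆ univ.filter fun q => z q ≠ 0 := by
    intro x hx
    simp only [mem_insert, mem_singleton] at hx
    rcases hx with rfl | rfl | rfl <;> simpa
  have h2 := card_le_card this
  rwa [card_eq_three.2 ⟨q, q1, q2, a1.symm, b1.symm, c, rfl⟩] at h2

section abstract

variable {S Ed Φ : Type} [Fintype Ed] [DecidableEq S] (p1 p2 : Ed → S)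

/-- boundary of a chain -/
def bdL : (Ed → ZMod 2) →ₗ[ZMod 2] (S → ZMod 2) where
  toFun c x := ∑ ε, c ε * ((if p1 ε = x then 1 else 0) + (if p2 ε = x then 1 else 0))
  map_add' a b := by funext x; simp [add_mul, sum_add_distrib]
  map_smul' c a := by funext x; simp [mul_sum, mul_assoc]

theorem bdL_single [DecidableEq Ed] (ε : Ed) :
    bdL p1 p2 (Pi.single ε 1) = Pi.single (p1 ε) 1 + Pi.single (p2 ε) 1 := by
  funext x
  simp only [bdL, LinearMap.coe_mk, AddHom.coe_mk, Pi.add_apply]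
  rw [sum_eq_single ε]
  · simp [Pi.single_apply, eq_comm]
  · intro b _ hb; simp [hb]
  · simp

theorem no_K7_abs [Fintype S] [Fintype Φ] (s1 s2 : Ed → Φ) (Rl : Φ → Φ → Prop)
    (H1 : ∀ c, bdL p1 p2 c = 0 → ∃ l : Φ → ZMod 2, (∀ a b, Rl a b → l a = l b) ∧
      ∀ ε, c ε = l (s1 ε) + l (s2 ε))
    (H2 : ∀ l : Φ → ZMod 2, (∀ a b, Rl a b → l a = l b) →
      bdL p1 p2 (fun ε => l (s1 ε) + l (s2 ε)) = 0)
    (β : S → Option (Fin 7))
    (conn : ∀ x y i, β x = some i → β y = some i → Relation.ReflTransGen (fun a b =>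
      (∃ ε, (p1 ε = a ∧ p2 ε = b) ∨ (p1 ε = b ∧ p2 ε = a)) ∧ β a = some i ∧ β b = some i) x y)
    (cross : ∀ i j, i ≠ j → ∃ x y, β x = some i ∧ β y = some j ∧
      ∃ ε, (p1 ε = x ∧ p2 ε = y) ∨ (p1 ε = y ∧ p2 ε = x)) : False := by
  classical
  have cr : ∀ q : Q7, ∃ x y, β x = some q.1.1 ∧ β y = some q.1.2 ∧
      ∃ ε, (p1 ε = x ∧ p2 ε = y) ∨ (p1 ε = y ∧ p2 ε = x) := fun q => cross _ _ q.2.ne
  choose x y hx hy e he using cr
  have hβ : ∀ q, (β (p1 (e q)) = some q.1.1 ∧ β (p2 (e q)) = some q.1.2) ∨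
      (β (p1 (e q)) = some q.1.2 ∧ β (p2 (e q)) = some q.1.1) := fun q => by
    rcases he q with h | h
    · left; rw [h.1, h.2]; exact ⟨hx q, hy q⟩
    · right; rw [h.1, h.2]; exact ⟨hy q, hx q⟩
  have einj : Function.Injective e := by
    intro q q' h
    have a := hβ q
    have b := hβ q'
    rw [← h] at b
    have := q.2; have := q'.2
    refine Subtype.ext (Prod.ext ?_ ?_) <;> rcases a with a | a <;> rcases b with b | b <;>
      have c1 := Option.some.inj (a.1.symm.trans b.1) <;>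
      have c2 := Option.some.inj (a.2.symm.trans b.2) <;> omega
  let Ins : Ed → Prop := fun ε => β (p1 ε) = β (p2 ε)
  have hIns : ∀ q, ¬ Ins (e q) := fun q h => by
    have := q.2
    rcases hβ q with a | a <;> have c := Option.some.inj (a.1.symm.trans (h.trans a.2)) <;> omega
  have hbe : ∀ q, bdL p1 p2 (Pi.single (e q) 1) = Pi.single (x q) 1 + Pi.single (y q) 1 := by
    intro q
    rw [bdL_single]
    rcases he q with h | h
    · rw [h.1, h.2]
    · rw [h.1, h.2, add_comm]
  have two : ∀ f : S → ZMod 2, f + f = 0 := fun f => by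
    funext x; exact CharTwo.add_self_eq_zero _
  have path : ∀ a b i, β a = some i → β b = some i → ∃ c : Ed → ZMod 2, (∀ ε, ¬ Ins ε → c ε = 0) ∧
      bdL p1 p2 c = Pi.single a 1 + Pi.single b 1 := by
    intro a b i ha hb
    have := conn a b i ha hb
    clear hb
    induction this with
    | refl => exact ⟨0, fun _ _ => rfl, by rw [map_zero, two]⟩
    | @tail b b' _ h ih =>
      obtain ⟨c, hc1, hc2⟩ := ih
      obtain ⟨⟨ε, h1⟩, h2, h3⟩ := h
      refine ⟨c + Pi.single ε 1, fun ε' h' => ?_, ?_⟩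
      · have : ε' ≠ ε := by
          rintro rfl
          apply h'
          rcases h1 with h1 | h1 <;> simp only [Ins, h1.1, h1.2, h2, h3]
        simp [hc1 ε' h', this]
      · rw [map_add, hc2, bdL_single]
        rcases h1 with h1 | h1 <;> rw [h1.1, h1.2]
        · rw [add_assoc, ← add_assoc (Pi.single b 1), two, zero_add]
        · rw [add_comm (Pi.single b' 1), add_assoc, ← add_assoc (Pi.single b 1), two, zero_add]
  let Y : (Φ → ZMod 2) → Prop := fun l => (∀ a b, Rl a b → l a = l b) ∧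
    ∀ ε, ¬ Ins ε → (∀ q, ε ≠ e q) → l (s1 ε) = l (s2 ε)
  let Dq : (Φ → ZMod 2) → Q7 → ZMod 2 := fun l q => l (s1 (e q)) + l (s2 (e q))
  have heven : ∀ l, Y l → ∀ i, ∑ q : Q7, Dq l q * ((if q.1.1 = i then 1 else 0) +
      (if q.1.2 = i then 1 else 0)) = 0 := by
    intro l hl i
    have h0 := H2 l hl.1
    have h1 : ∑ x ∈ univ.filter fun x => β x = some i,
        bdL p1 p2 (fun ε => l (s1 ε) + l (s2 ε)) x = 0 := by simp [h0]
    simp only [bdL, LinearMap.coe_mk, AddHom.coe_mk] at h1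
    rw [sum_comm] at h1
    simp only [← mul_sum, sum_add_distrib, sum_ite_eq, mem_filter, mem_univ, true_and] at h1
    refine Eq.trans ?_ h1
    refine (sum_of_injOn e einj.injOn (fun _ _ => mem_univ _) ?_ ?_)
    · intro ε _ hε
      by_cases c : Ins ε
      · rw [show β (p1 ε) = β (p2 ε) from c, CharTwo.add_self_eq_zero, mul_zero]
      · rw [hl.2 ε c fun q h => hε ⟨q, by simp, h.symm⟩, CharTwo.add_self_eq_zero, zero_mul]
    · intro q _
      rcases hβ q with a | a <;> simp [Dq, a.1, a.2, add_comm]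
  let st : Setoid Φ := ⟨fun a b => ∀ l, Y l → l a = l b, fun _ _ _ => rfl,
    fun h l hl => (h l hl).symm, fun h h' l hl => (h l hl).trans (h' l hl)⟩
  let ind : Quotient st → Φ → ZMod 2 := fun R a => if Quotient.mk st a = R then 1 else 0
  have hind : ∀ R, Y (ind R) := by
    intro R
    refine ⟨fun a b h => ?_, fun ε h1 h2 => ?_⟩
    · simp only [ind]; rw [Quotient.sound (s := st) (fun l hl => hl.1 a b h)]
    · simp only [ind]; rw [Quotient.sound (s := st) (fun l hl => hl.2 ε h1 h2)]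
  have hsum : ∀ l, Y l → ∀ a, l a = ∑ R, l R.out * ind R a := by
    intro l hl a
    rw [sum_eq_single (Quotient.mk st a)]
    · simp only [ind, if_true, mul_one]
      exact (Quotient.mk_out (s := st) a l hl).symm
    · intro b _ hb; simp [ind, hb.symm]
    · simp
  let G := univ.filter fun R => Dq (ind R) ≠ 0
  have hG : G.card * 3 ≤ (univ : Finset Q7).card * 2 := by
    refine card_mul_le_card_mul (fun R q => Dq (ind R) q ≠ 0) (fun R hR => ?_) fun q _ => ?_
    · obtain ⟨q, hq⟩ := Function.ne_iff.1 (mem_filter.1 hR).2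
      exact even_three _ (heven _ (hind R)) q hq
    · refine (card_le_card (t := {Quotient.mk st (s1 (e q)), Quotient.mk st (s2 (e q))}) ?_).trans
        card_le_two
      intro R hR
      have := (mem_filter.1 hR).2
      by_contra hc
      simp only [mem_insert, mem_singleton, not_or] at hc
      simp [Dq, ind, Ne.symm hc.1, Ne.symm hc.2] at this
  have c1 : (univ : Finset Q7).card = 21 := by decide
  let Q0 := {q : Q7 // 0 < q.1.1}
  have c2 : Fintype.card Q0 = 15 := by decide
  let v : Quotient st → Q0 → ZMod 2 := fun R q => Dq (ind R) q.1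
  have hspan : Submodule.span (ZMod 2) (G.image v : Set (Q0 → ZMod 2)) = ⊤ := by
    rw [eq_top_iff, ← (Pi.basisFun (ZMod 2) Q0).span_eq, Submodule.span_le]
    rintro _ ⟨q, rfl⟩
    let qa : Q7 := ⟨(0, q.1.1.1), q.2⟩
    let qb : Q7 := ⟨(0, q.1.1.2), q.2.trans q.1.2⟩
    obtain ⟨ca, a1, a2⟩ := path (x qa) (x qb) 0 (hx qa) (hx qb)
    obtain ⟨cb, b1, b2⟩ := path (y qa) (x q.1) _ (hy qa) (hx q.1)
    obtain ⟨cc, d1, d2⟩ := path (y qb) (y q.1) _ (hy qb) (hy q.1)
    obtain ⟨l, l1, l2⟩ := H1 (Pi.single (e qa) 1 + Pi.single (e qb) 1 + Pi.single (e q.1) 1 +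
      (ca + cb + cc)) (by
        simp only [map_add, hbe, a2, b2, d2]
        funext s
        simp only [Pi.add_apply, Pi.zero_apply]
        generalize Pi.single (M := fun _ => ZMod 2) (x qa) 1 s = t1
        generalize Pi.single (M := fun _ => ZMod 2) (x qb) 1 s = t2
        generalize Pi.single (M := fun _ => ZMod 2) (y qa) 1 s = t3
        generalize Pi.single (M := fun _ => ZMod 2) (y qb) 1 s = t4
        generalize Pi.single (M := fun _ => ZMod 2) (x q.1) 1 s = t5
        generalize Pi.single (M := fun _ => ZMod 2) (y q.1) 1 s = t6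
        revert t1 t2 t3 t4 t5 t6; decide)
    have hl : Y l := ⟨l1, fun ε h1 h2 => by
      have := l2 ε
      simp only [Pi.add_apply, a1 ε h1, b1 ε h1, d1 ε h1, Pi.single_eq_of_ne (h2 _),
        add_zero] at this
      exact CharTwo.add_eq_zero.1 this.symm⟩
    have h3 : Pi.basisFun (ZMod 2) Q0 q = ∑ R ∈ G, l R.out • v R := by
      funext q'
      have n1 : e q'.1 ≠ e qa := fun h => by
        have := congrArg (fun q : Q7 => q.1.1) (einj h); have := q'.2; simp [qa] at *; omega
      have n2 : e q'.1 ≠ e qb := fun h => by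
        have := congrArg (fun q : Q7 => q.1.1) (einj h); have := q'.2; simp [qb] at *; omega
      have := l2 (e q'.1)
      simp only [Pi.add_apply, a1 _ (hIns _), b1 _ (hIns _), d1 _ (hIns _), Pi.single_eq_of_ne n1,
        Pi.single_eq_of_ne n2, add_zero, zero_add] at this
      rw [hsum l hl, hsum l hl (s2 _), ← sum_add_distrib] at this
      simp only [Pi.basisFun_apply, Finset.sum_apply, Pi.smul_apply, smul_eq_mul]
      rw [sum_filter_of_ne (p := fun R => Dq (ind R) ≠ 0) fun R _ h h' => h (by simp [v, h'])]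
      simp only [v, Dq, mul_add]
      rw [← this, Pi.single_apply, Pi.single_apply]
      congr 1
      exact propext ⟨fun h => by rw [h], fun h => Subtype.ext (einj h)⟩
    rw [h3]
    exact Submodule.sum_mem _ fun R hR => Submodule.smul_mem _ _
      (Submodule.subset_span (mem_coe.2 (mem_image_of_mem _ hR)))
  have h4 := finrank_span_finset_le_card (R := ZMod 2) (G.image v)
  rw [Set.finrank, hspan, finrank_top, finrank_fintype_fun_eq_card, c2] at h4
  have h5 := card_image_le (s := G) (f := v)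
  omega

end abstract

theorem no_K7 {S : Type} [Fintype S] {φ μ : Equiv.Perm S} (hp : Planar φ μ) (hμ : ∀ x, μ (μ x) = x)
    (β : S → Option (Fin 7))
    (conn : ∀ x y i, β x = some i → β y = some i → Relation.ReflTransGen (fun a b =>
      (φ a = b ∨ φ b = a ∨ μ a = b) ∧ β a = some i ∧ β b = some i) x y)
    (cross : ∀ i j, i ≠ j → ∃ x y, β x = some i ∧ β y = some j ∧ (φ x = y ∨ φ y = x ∨ μ x = y)) :
    False := by
  classical
  let p1 : S ⊕ S → S := Sum.elim φ.symm fun x => x
  let p2 : S ⊕ S → S := Sum.elim (fun x => x) μ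
  have hb : ∀ c x, bdL p1 p2 c x =
      c (Sum.inl (φ x)) + c (Sum.inl x) + (c (Sum.inr x) + c (Sum.inr (μ x))) := by
    intro c x
    have : ∀ y, μ y = x ↔ y = μ x := fun y => ⟨fun h => by rw [← h, hμ], fun h => by rw [h, hμ]⟩
    have e1 : ∀ y, p1 (Sum.inl y) = φ.symm y := fun _ => rfl
    have e2 : ∀ y, p1 (Sum.inr y) = y := fun _ => rfl
    have e3 : ∀ y, p2 (Sum.inl y) = y := fun _ => rfl
    have e4 : ∀ y, p2 (Sum.inr y) = μ y := fun _ => rfl
    clear_value p1 p2
    simp [bdL, e1, e2, e3, e4, Fintype.sum_sum_type, mul_add, sum_add_distrib,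
      Equiv.symm_apply_eq, this]
    ring
  have hadj : ∀ a b, (φ a = b ∨ φ b = a ∨ μ a = b) →
      ∃ ε, (p1 ε = a ∧ p2 ε = b) ∨ (p1 ε = b ∧ p2 ε = a) := by
    rintro a b (rfl | rfl | rfl)
    · exact ⟨Sum.inl (φ a), Or.inl ⟨by simp [p1], rfl⟩⟩
    · exact ⟨Sum.inl (φ b), Or.inr ⟨by simp [p1], rfl⟩⟩
    · exact ⟨Sum.inr a, Or.inl ⟨rfl, rfl⟩⟩
  refine no_K7_abs (Φ := S ⊕ S ⊕ S) p1 p2 (Sum.elim Sum.inl fun x => Sum.inr (Sum.inr x))
    (Sum.elim (fun x => Sum.inr (Sum.inl x)) fun x => Sum.inr (Sum.inl x))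
    (fun a b => ∃ x, (a = Sum.inl (φ x) ∧ b = Sum.inl x) ∨
      (a = Sum.inr (Sum.inl (φ (μ x))) ∧ b = Sum.inr (Sum.inl x)) ∨
      (a = Sum.inr (Sum.inr (μ x)) ∧ b = Sum.inr (Sum.inr x))) ?_ ?_ β
    (fun x y i h1 h2 => Relation.ReflTransGen.mono (fun a b h => And.intro (hadj a b h.1) h.2)
      _ _ (conn x y i h1 h2)) fun i j h => ?_
  · intro c hc
    have hc' : ∀ x, c (Sum.inl (φ x)) + c (Sum.inl x) + (c (Sum.inr x) + c (Sum.inr (μ x))) = 0 :=
      fun x => by rw [← hb, hc]; rfl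
    obtain ⟨u, hu1, hu2⟩ := hp (fun x => c (Sum.inl x)) (fun x => by
      have a := hc' x
      have b := hc' (μ x)
      rw [hμ] at b
      revert a b
      generalize c (Sum.inl x) = t1; generalize c (Sum.inl (φ x)) = t2
      generalize c (Sum.inl (μ x)) = t3; generalize c (Sum.inl (φ (μ x))) = t4
      generalize c (Sum.inr x) = t5; generalize c (Sum.inr (μ x)) = t6
      revert t1 t2 t3 t4 t5 t6; decide) (fun x hx => by
      have a := hc' x
      rw [hx, CharTwo.add_self_eq_zero, add_zero] at a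
      exact CharTwo.add_eq_zero.1 a)
    refine ⟨Sum.elim u (Sum.elim (fun x => c (Sum.inl x) + u x)
      fun x => c (Sum.inr x) + (c (Sum.inl x) + u x)), ?_, ?_⟩
    · rintro a b ⟨x, ⟨rfl, rfl⟩ | ⟨rfl, rfl⟩ | ⟨rfl, rfl⟩⟩
      · exact hu1 x
      · exact hu2 x
      · have a := hc' (μ x)
        have b := hu2 x
        rw [hμ] at a
        rw [hu1] at b
        simp only [Sum.elim_inr]
        revert a b
        generalize c (Sum.inl x) = t1; generalize u x = t2
        generalize c (Sum.inl (μ x)) = t3; generalize c (Sum.inl (φ (μ x))) = t4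
        generalize c (Sum.inr x) = t5; generalize c (Sum.inr (μ x)) = t6
        generalize u (μ x) = t7
        revert t1 t2 t3 t4 t5 t6 t7; decide
    · rintro (x | x) <;> simp only [Sum.elim_inr, Sum.elim_inl]
      · generalize c (Sum.inl x) = t1; generalize u x = t2; revert t1 t2; decide
      · generalize c (Sum.inr x) = t1; generalize c (Sum.inl x) + u x = t2; revert t1 t2; decide
  · intro l hl
    funext x
    rw [hb]
    simp only [Sum.elim_inr, Sum.elim_inl, Pi.zero_apply]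
    have a := hl _ _ ⟨x, Or.inl ⟨rfl, rfl⟩⟩
    have b := hl _ _ ⟨μ x, Or.inr (Or.inl ⟨rfl, rfl⟩)⟩
    have d := hl _ _ ⟨x, Or.inr (Or.inr ⟨rfl, rfl⟩)⟩
    rw [hμ] at b
    rw [a, b, d]
    generalize l (Sum.inl x) = t1; generalize l (Sum.inr (Sum.inl x)) = t2
    generalize l (Sum.inr (Sum.inl (μ x))) = t3; generalize l (Sum.inr (Sum.inr x)) = t4
    revert t1 t2 t3 t4; decide
  · obtain ⟨x, y, h1, h2, h3⟩ := cross i j h
    exact ⟨x, y, h1, h2, hadj x y h3⟩

end Crest.Agent.H6.Kap
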