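import Mathlib
import Crest.Agent.H6.KMinor
import Crest.Agent.H2.PRS

/-! Runs between cut corners of a planar map. -/

namespace Crest.Agent.H6.Kap

open Finset

/-- A set of cut corners. -/
structure Cuts (S : Type) (h : ℕ) where
  φ : Equiv.Perm S
  μ : Equiv.Perm S
  μμ : ∀ x, μ (μ x) = x
  Cut : S → Prop
  reach : ∀ x, ∃ n, 0 < n ∧ n ≤ h ∧ Cut ((φ ^ n) x)
  flat : ∀ x, ¬ Cut x → φ (μ (φ (μ x))) = x
  symm : ∀ x, ¬ Cut x → ¬ Cut (φ (μ x))

namespace Cuts

variable {S : Type} {h : ℕ} (D : Cuts S h)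

theorem reach' (x : S) : ∃ n, 0 < n ∧ D.Cut ((D.φ ^ n) x) :=
  (D.reach x).imp fun _ a => ⟨a.1, a.2.2⟩

open Classical in
/-- length of the run -/
noncomputable def len (x : S) : ℕ := Nat.find (D.reach' x)

theorem len_pos (x : S) : 0 < D.len x := by
  classical exact (Nat.find_spec (D.reach' x)).1

theorem cut_len (x : S) : D.Cut ((D.φ ^ D.len x) x) := by
  classical exact (Nat.find_spec (D.reach' x)).2

theorem not_cut {x : S} {i : ℕ} (h0 : 0 < i) (hi : i < D.len x) : ¬ D.Cut ((D.φ ^ i) x) := by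
  classical exact fun a => Nat.find_min (D.reach' x) hi ⟨h0, a⟩

theorem len_le' {x : S} {i : ℕ} (h0 : 0 < i) (hi : D.Cut ((D.φ ^ i) x)) : D.len x ≤ i := by
  by_contra a; exact D.not_cut h0 (by omega) hi

theorem len_le (x : S) : D.len x ≤ h := by
  obtain ⟨n, a, b, c⟩ := D.reach x
  exact (D.len_le' a c).trans b

theorem pow_succ_apply (i : ℕ) (x : S) : (D.φ ^ (i + 1)) x = D.φ ((D.φ ^ i) x) := by
  rw [pow_succ', Equiv.Perm.mul_apply]

theorem run_unique {c c' : S} (hc : D.Cut c) (hc' : D.Cut c') {i i' : ℕ} (hi : i < D.len c)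
    (hi' : i' < D.len c') (e : (D.φ ^ i) c = (D.φ ^ i') c') : c = c' := by
  wlog hle : i ≤ i' generalizing c c' i i'
  · exact (this hc' hc hi' hi e.symm (by omega)).symm
  rw [show i' = i + (i' - i) by omega, pow_add, Equiv.Perm.mul_apply] at e
  have e' := (D.φ ^ i).injective e
  rcases Nat.eq_zero_or_pos (i' - i) with a | a
  · simpa [a] using e'
  · exact absurd (e' ▸ hc) (D.not_cut a (by omega))

theorem symm' {x : S} (a : ¬ D.Cut (D.φ (D.μ x))) : ¬ D.Cut x := by
  have := D.symm _ a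
  rwa [D.μ.injective (D.φ.injective (D.flat _ a))] at this

/-- start of the mirror run -/
noncomputable def mr (c : S) : S := D.μ ((D.φ ^ (D.len c - 1)) c)
/-- start of the next run -/
noncomputable def nx (c : S) : S := (D.φ ^ D.len c) c

theorem mr_pow (c : S) : ∀ i < D.len c,
    (D.φ ^ i) (D.mr c) = D.μ ((D.φ ^ (D.len c - 1 - i)) c) := by
  intro i
  induction i with
  | zero => intro _; rfl
  | succ i ih =>
    intro hi
    rw [pow_succ_apply, ih (by omega)]
    have := D.flat _ (D.not_cut (x := c) (i := D.len c - 1 - i) (by omega) (by omega))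
    nth_rewrite 2 [show D.len c - 1 - i = D.len c - 1 - (i + 1) + 1 by omega] at this
    rw [pow_succ_apply] at this
    rw [← D.φ.injective this, D.μμ]

theorem φ_last (c : S) : D.φ ((D.φ ^ (D.len c - 1)) c) = D.nx c := by
  rw [← pow_succ_apply, Nat.sub_add_cancel (D.len_pos c)]; rfl

theorem cut_mr (c : S) : D.Cut (D.mr c) := by
  by_contra a
  apply D.symm _ a
  rw [mr, D.μμ, φ_last]; exact D.cut_len c

theorem mr_end (c : S) : (D.φ ^ D.len c) (D.mr c) = D.φ (D.μ c) := by
  have := D.len_pos c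
  nth_rewrite 1 [show D.len c = D.len c - 1 + 1 by omega]
  rw [pow_succ_apply, mr_pow _ _ _ (by omega)]; simp

theorem len_mr {c : S} (hc : D.Cut c) : D.len (D.mr c) = D.len c := by
  refine le_antisymm (D.len_le' (D.len_pos c) ?_) ?_
  · rw [mr_end]
    by_contra a
    exact D.symm' a hc
  · by_contra a
    have b := D.len_pos (D.mr c)
    have := D.cut_len (D.mr c)
    generalize D.len (D.mr c) = k at *
    rw [show k = k - 1 + 1 by omega, pow_succ_apply, mr_pow _ _ _ (by omega)] at this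
    exact D.symm _ (D.not_cut (by omega) (by omega)) this

theorem mr_mr {c : S} (hc : D.Cut c) : D.mr (D.mr c) = c := by
  have := D.len_pos c
  rw [mr, D.len_mr hc, mr_pow _ _ _ (by omega), D.μμ]; simp

theorem nx_inj {c c' : S} (hc : D.Cut c) (hc' : D.Cut c') (e : D.nx c = D.nx c') : c = c' := by
  rw [← φ_last, ← φ_last] at e
  have := D.len_pos c
  have := D.len_pos c'
  exact D.run_unique hc hc' (by omega) (by omega) (D.φ.injective e)

variable [Fintype S]

theorem exists_start (x : S) : ∃ c, D.Cut c ∧ ∃ i < D.len c, (D.φ ^ i) c = x := by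
  classical
  have hex : ∃ k : ℕ, D.Cut ((D.φ⁻¹ ^ k) x) := by
    obtain ⟨n, -, hn⟩ := D.reach' x
    have : D.φ⁻¹.SameCycle x ((D.φ ^ n) x) :=
      Equiv.Perm.sameCycle_inv.2 ⟨n, by simp⟩
    obtain ⟨i, -, hi⟩ := this.exists_pow_eq'
    exact ⟨i, by rwa [hi]⟩
  refine ⟨_, Nat.find_spec hex, Nat.find hex, ?_, by simp⟩
  by_contra a
  have b := D.len_pos ((D.φ⁻¹ ^ Nat.find hex) x)
  refine Nat.find_min hex (m := Nat.find hex - D.len ((D.φ⁻¹ ^ Nat.find hex) x)) (by omega) ?_
  have := D.cut_len ((D.φ⁻¹ ^ Nat.find hex) x)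
  generalize D.len ((D.φ⁻¹ ^ Nat.find hex) x) = k at *
  rw [show Nat.find hex = k + (Nat.find hex - k) by omega, pow_add] at this
  simpa using this

/-- the runs -/
abbrev V : Type := {c // D.Cut c}

/-- the run containing a side -/
noncomputable def start (x : S) : D.V := ⟨(D.exists_start x).choose, (D.exists_start x).choose_spec.1⟩

theorem start_spec (x : S) : ∃ i < D.len (D.start x).1, (D.φ ^ i) (D.start x).1 = x :=
  (D.exists_start x).choose_spec.2

theorem start_pow (c : D.V) {i : ℕ} (hi : i < D.len c.1) : D.start ((D.φ ^ i) c.1) = c := by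
  obtain ⟨j, h1, h2⟩ := D.start_spec ((D.φ ^ i) c.1)
  exact Subtype.ext (D.run_unique (D.start _).2 c.2 h1 hi h2)

omit [Fintype S] in
/-- next run -/
noncomputable def nxV (c : D.V) : D.V := ⟨D.nx c.1, D.cut_len c.1⟩
omit [Fintype S] in
/-- mirror run -/
noncomputable def mrV (c : D.V) : D.V := ⟨D.mr c.1, D.cut_mr c.1⟩

omit [Fintype S] in
theorem mrV_mrV (c : D.V) : D.mrV (D.mrV c) = c := Subtype.ext (D.mr_mr c.2)

omit [Fintype S] in
theorem nxV_inj : Function.Injective D.nxV := fun c c' e =>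
  Subtype.ext (D.nx_inj c.2 c'.2 (congrArg Subtype.val e))

omit [Fintype S] in
/-- adjacency of runs -/
def adj (c c' : D.V) : Prop := c' = D.nxV c ∨ c = D.nxV c' ∨ c' = D.mrV c

omit [Fintype S] in
theorem adj_symm ⦃c c' : D.V⦄ (a : D.adj c c') : D.adj c' c := by
  rcases a with a | a | a
  · exact Or.inr (Or.inl a)
  · exact Or.inl a
  · exact Or.inr (Or.inr (by rw [a, mrV_mrV]))

theorem adj_deg (c : D.V) : {y | D.adj c y}.ncard ≤ 3 := by
  classical
  obtain ⟨p, rfl⟩ := (Finite.injective_iff_surjective.1 D.nxV_inj) c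
  have : {y | D.adj (D.nxV p) y} ⊆ ({D.nxV (D.nxV p), p, D.mrV (D.nxV p)} : Finset D.V) := by
    rintro y (a | a | a)
    · simp [a]
    · simp [D.nxV_inj a]
    · simp [a]
  refine (Set.ncard_le_ncard this).trans ?_
  rw [Set.ncard_coe_finset]; exact card_le_three

theorem adj_lift {c c' : D.V} (a : D.adj c c') : ∃ x y, D.start x = c ∧ D.start y = c' ∧
    (D.φ x = y ∨ D.φ y = x ∨ D.μ x = y) := by
  have h0 : ∀ c : D.V, D.start c.1 = c := fun c => D.start_pow c (D.len_pos c.1)
  have h1 : ∀ c : D.V, D.start ((D.φ ^ (D.len c.1 - 1)) c.1) = c := fun c =>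
    D.start_pow c (by have := D.len_pos c.1; omega)
  rcases a with rfl | rfl | rfl
  · exact ⟨_, _, h1 c, h0 _, Or.inl (D.φ_last _)⟩
  · exact ⟨_, _, h0 _, h1 c', Or.inr (Or.inl (D.φ_last _))⟩
  · exact ⟨_, _, h1 c, h0 _, Or.inr (Or.inr rfl)⟩

theorem no_minor (hp : Planar D.φ D.μ) : ¬ ∃ A : Fin 7 → Finset D.V,
    (∀ i, H2.PRS.Conn D.adj (A i)) ∧
      ∀ i j, i ≠ j → Disjoint (A i) (A j) ∧ ∃ x ∈ A i, ∃ y ∈ A j, D.adj x y := by
  classical
  rintro ⟨A, h1, h2⟩
  let β : S → Option (Fin 7) := fun x => if h : ∃ i, D.start x ∈ A i then some h.choose else none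
  have hβ : ∀ x i, β x = some i ↔ D.start x ∈ A i := by
    intro x i
    simp only [β]
    split_ifs with h
    · refine ⟨fun a => Option.some.inj a ▸ h.choose_spec, fun a => ?_⟩
      by_contra b
      exact disjoint_left.1 (h2 _ _ fun e => b (by rw [e])).1 h.choose_spec a
    · exact ⟨fun a => by simp at a, fun a => (h ⟨i, a⟩).elim⟩
  refine no_K7 hp D.μμ β (fun x y i hx hy => ?_) fun i j hij => ?_
  · set R := fun a b => (D.φ a = b ∨ D.φ b = a ∨ D.μ a = b) ∧ β a = some i ∧ β b = some i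
    have hs : ∀ a b, Relation.ReflTransGen R a b → Relation.ReflTransGen R b a := by
      intro a b hab
      induction hab with
      | refl => rfl
      | tail _ h ih =>
        refine Relation.ReflTransGen.head ⟨?_, h.2.2, h.2.1⟩ ih
        rcases h.1 with e | e | e
        · exact Or.inr (Or.inl e)
        · exact Or.inl e
        · exact Or.inr (Or.inr (by rw [← e, D.μμ]))
    have hr : ∀ x, D.start x ∈ A i → Relation.ReflTransGen R (D.start x).1 x := by
      intro x hx
      obtain ⟨j, j1, j2⟩ := D.start_spec x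
      generalize D.start x = c at *
      subst j2
      induction j with
      | zero => rfl
      | succ j ih =>
        refine (ih (by omega)).tail ⟨Or.inl (D.pow_succ_apply _ _).symm, ?_, ?_⟩
        · rwa [hβ, D.start_pow c (by omega)]
        · rwa [hβ, D.start_pow c j1]
    rw [hβ] at hx hy
    refine ((hs _ _ (hr x hx)).trans ?_).trans (hr y hy)
    have := (h1 i).2 _ hx _ hy
    generalize D.start y = c' at this
    induction this with
    | refl => rfl
    | tail _ h ih =>
      obtain ⟨a, b, e1, e2, e3⟩ := D.adj_lift h.1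
      subst e1 e2
      exact (ih.trans ((hr a h.2.1).tail ⟨e3, (hβ _ _).2 h.2.1, (hβ _ _).2 h.2.2⟩)).trans
        (hs _ _ (hr b h.2.2))
  · obtain ⟨c, hc, c', hc', a⟩ := (h2 i j hij).2
    obtain ⟨x, y, rfl, rfl, e⟩ := D.adj_lift a
    exact ⟨x, y, (hβ _ _).2 hc, (hβ _ _).2 hc', e⟩

end Cuts

end Crest.Agent.H6.Kap
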