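import Mathlib
import Crest.Agent.H6.KRuns
import Crest.Agent.H6.KIneq

/-! The global inequality for reduced planar diagrams. -/

namespace Crest.Agent.H6.Kap

open Finset

variable {P E W B C : Type} {M : Mdl P E W B C} {π : Equiv.Perm E}

variable (M π) in
/-- Reduced diagrams. -/
structure RD (S : Type) (root : W) where
  φ : Equiv.Perm S
  μ : Equiv.Perm S
  o : S
  In : S → Prop
  z : S → E × Bool
  lb : S → P × Bool
  tv : S → W ⊕ B
  μμ : ∀ x, μ (μ x) = x
  μfix : ∀ x, μ x = x ↔ x = o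
  planar : Planar φ μ
  In_φ : ∀ x, In (φ x) ↔ In x
  dart : ∀ x, In x → x ≠ o → M.tl π (z x) = tv x ∧ M.hd π (z x) = tv (φ x) ∧ M.dl (z x) = lb x
  lb_μ : ∀ x, x ≠ o → lb (μ x) = rv (lb x)
  imm : ∀ x, x ≠ o → φ x ≠ o → lb (φ x) ≠ rv (lb x)
  red : ∀ x, In x → In (μ x) → x ≠ o → tv (μ x) ≠ tv (φ x)
  jump : In o → tv (φ o) = Sum.inl root ∧ tv o ≠ Sum.inl root

namespace RD

variable {S : Type} {root : W} (D : RD M π S root) {g : ℕ}

theorem μ_ne {x : S} (hx : x ≠ D.o) : D.μ x ≠ D.o := fun h =>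
  hx (by rw [← D.μμ x, h, (D.μfix _).2 rfl])

theorem nospike {x : S} (hx : x ≠ D.o) : D.φ (D.μ x) ≠ x := fun h =>
  D.imm (D.μ x) (D.μ_ne hx) (by rwa [h]) (by rw [h, D.lb_μ x hx, rv_rv])

theorem In_pow (i : ℕ) (x : S) : D.In ((D.φ ^ i) x) ↔ D.In x := by
  induction i with
  | zero => rfl
  | succ i ih => rw [pow_succ', Equiv.Perm.mul_apply, D.In_φ, ih]

theorem wk {x : S} {n : ℕ} (hx : D.In x) (h : ∀ i < n, (D.φ ^ i) x ≠ D.o) :
    M.Wk π (fun i => D.tv ((D.φ ^ i) x)) (fun i => D.z ((D.φ ^ i) x)) n ∧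
      Red (fun i => D.z ((D.φ ^ i) x)) n := by
  refine ⟨fun i hi => ?_, fun i hi e => ?_⟩
  · have := D.dart _ ((D.In_pow i x).2 hx) (h i hi)
    simp only [pow_succ', Equiv.Perm.mul_apply]
    exact ⟨this.1, this.2.1⟩
  · have a := (D.dart _ ((D.In_pow i x).2 hx) (h i (by omega))).2.2
    have b := (D.dart _ ((D.In_pow (i + 1) x).2 hx) (h _ hi)).2.2
    have c := h _ hi
    simp only at e
    rw [e, Mdl.dl_rv, a] at b
    rw [pow_succ', Equiv.Perm.mul_apply] at b c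
    exact D.imm _ (h i (by omega)) c b.symm

/-- inner faces are long -/
theorem period (hg : M.Girth π g) {x : S} {n : ℕ} (hx : D.In x) (h : ∀ i < n, (D.φ ^ i) x ≠ D.o)
    (h0 : 0 < n) (hn : n ≤ g) : (D.φ ^ n) x ≠ x := fun e =>
  hg _ _ n h0 hn (D.wk hx h).1 (D.wk hx h).2 (by simp [e])

variable [Fintype S]

open Classical in
/-- boundary sides -/
noncomputable def Bd : Finset S := univ.filter fun x => ¬ D.In x ∨ x = D.o
open Classical in
/-- genuine inner sides -/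
noncomputable def Inn : Finset S := univ.filter fun x => D.In x ∧ x ≠ D.o

theorem mem_Bd {x : S} : x ∈ D.Bd ↔ ¬ D.In x ∨ x = D.o := by simp [Bd]
theorem mem_Inn {x : S} : x ∈ D.Inn ↔ D.In x ∧ x ≠ D.o := by simp [Inn]

theorem not_Bd {x : S} : x ∉ D.Bd ↔ D.In x ∧ x ≠ D.o := by simp [mem_Bd]

theorem card_eq : Fintype.card S = D.Inn.card + D.Bd.card := by
  classical
  rw [← card_union_of_disjoint, ← card_univ]
  · congr 1; ext x; simp only [mem_univ, mem_union, mem_Bd, mem_Inn]; tauto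
  · rw [disjoint_left]; intro x; simp only [mem_Bd, mem_Inn]; tauto

theorem exists_cuts (hg : M.Girth π g) {r : ℕ} (hr : 0 < r) (hrg : r ≤ g) :
    ∃ (K : Cuts S (2 * r)) (m : ℕ), K.φ = D.φ ∧ K.μ = D.μ ∧ r * m ≤ Fintype.card S ∧
      Nat.card K.V ≤ 8 * m + 22 * D.Bd.card ∧ ∀ x ∈ D.Bd, K.Cut x ∧ K.Cut (D.φ x) := by
  classical
  obtain ⟨Mk, -, h1, h2⟩ := marks D.φ univ (fun _ _ => mem_univ _) r hr
  have ho : D.o ∈ D.Bd := D.mem_Bd.2 (Or.inr rfl)
  have hb : 1 ≤ D.Bd.card := card_pos.2 ⟨_, ho⟩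
  have h3 : ∀ x, ∃ n, 0 < n ∧ n ≤ 2 * r ∧ (D.φ ^ n) x ∈ Mk ∪ D.Bd := by
    intro x
    rcases h2 (D.φ x) (mem_univ _) with ⟨i, a, b⟩ | ⟨j, a, b, c⟩
    · exact ⟨i + 1, by omega, by omega, mem_union_left _ (by rwa [pow_succ, Equiv.Perm.mul_apply])⟩
    · by_contra hc
      push Not at hc
      have : ∀ i < j, (D.φ ^ i) (D.φ x) ∉ D.Bd := fun i hi e => hc (i + 1) (by omega) (by omega)
        (mem_union_right _ (by rwa [pow_succ, Equiv.Perm.mul_apply]))
      exact D.period hg (D.not_Bd.1 (this 0 a)).1 (fun i hi => (D.not_Bd.1 (this i hi)).2) a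
        (by omega) c
  let Bs := Mk ∪ D.Bd ∪ D.Bd.image D.φ
  let ρ := D.φ * D.μ
  let N3 := univ.filter fun x => ρ (ρ x) ≠ x
  let N2 := univ.filter fun x => ¬ ρ (ρ x) ≠ x
  have hN := card_filter_add_card_filter_not (s := univ) fun x => ρ (ρ x) ≠ x
  obtain ⟨R3, -, a1, a2⟩ := marks ρ N3 (fun x hx => by
    simp only [N3, mem_filter, mem_univ, true_and] at hx ⊢
    exact fun e => hx (ρ.injective e)) 3 (by omega)
  obtain ⟨R2, -, b1, b2⟩ := marks ρ N2 (fun x hx => by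
    simp only [N2, mem_filter, mem_univ, true_and, not_not] at hx ⊢
    rw [hx]) 2 (by omega)
  obtain ⟨RE, -, c1, c2⟩ := marks D.μ univ (fun _ _ => mem_univ _) 2 (by omega)
  have he := euler D.planar D.μμ (Mk ∪ D.Bd) (insert D.o (R3 ∪ R2)) (insert D.o RE)
    (fun x => (h3 x).imp fun _ a => a.2.2) (fun x => by
      by_cases c : ρ (ρ x) ≠ x
      · rcases a2 x (by simpa [N3] using c) with ⟨i, -, a⟩ | ⟨j, j1, j2, a⟩
        · exact ⟨i, by simp [ρ] at a; simp [a]⟩
        · exfalso; apply c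
          obtain rfl | rfl : j = 1 ∨ j = 2 := by omega
          · simp only [pow_one] at a; rw [a, a]
          · simpa [pow_two] using a
      · rcases b2 x (by simpa [N2] using c) with ⟨i, -, a⟩ | ⟨j, j1, j2, a⟩
        · exact ⟨i, by simp [ρ] at a; simp [a]⟩
        · obtain rfl : j = 1 := by omega
          refine ⟨0, ?_⟩
          by_cases e : x = D.o
          · simp [e]
          · exact absurd a (D.nospike e)) (fun x => by
      rcases c2 x (mem_univ _) with ⟨i, hi, a⟩ | ⟨j, j1, j2, a⟩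
      · obtain rfl | rfl | rfl | rfl : i = 0 ∨ i = 1 ∨ i = 2 ∨ i = 3 := by omega
        all_goals simp [pow_succ, D.μμ] at a; simp [a]
      · obtain rfl : j = 1 := by omega
        left; simp [(D.μfix x).1 a])
  have d1 := card_insert_le D.o (R3 ∪ R2)
  have d2 := card_union_le R3 R2
  have d3 := card_insert_le D.o RE
  have d4 := card_union_le Mk D.Bd
  have d5 := card_union_le (Mk ∪ D.Bd) (D.Bd.image D.φ)
  have d6 := card_image_le (s := D.Bd) (f := D.φ)
  rw [card_univ] at hN c1 h1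
  refine ⟨⟨D.φ, D.μ, D.μμ, fun x => ρ (ρ x) ≠ x ∨ x ∈ Bs ∨ ρ x ∈ Bs, fun x => ?_, fun x hx => ?_,
    fun x hx => ?_⟩, Mk.card, rfl, rfl, h1, ?_, fun x hx => ⟨?_, ?_⟩⟩
  · obtain ⟨n, e1, e2, e3⟩ := h3 x
    exact ⟨n, e1, e2, Or.inr (Or.inl (mem_union_left _ e3))⟩
  · push Not at hx; exact hx.1
  · push Not at hx ⊢
    change ρ (ρ (ρ x)) = ρ x ∧ ρ x ∉ Bs ∧ ρ (ρ x) ∉ Bs
    rw [hx.1]; exact ⟨rfl, hx.2.2, hx.2.1⟩
  · rw [Nat.card_eq_fintype_card, Fintype.card_subtype]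
    have : (univ.filter fun x => ρ (ρ x) ≠ x ∨ x ∈ Bs ∨ ρ x ∈ Bs) ⊆ N3 ∪ Bs ∪ Bs.image ρ.symm := by
      intro x hx
      rcases (mem_filter.1 hx).2 with a | a | a
      · exact mem_union_left _ (mem_union_left _ (by simpa [N3] using a))
      · exact mem_union_left _ (mem_union_right _ a)
      · exact mem_union_right _ (mem_image.2 ⟨_, a, by simp⟩)
    have e1 := card_le_card this
    have e2 := card_union_le (N3 ∪ Bs) (Bs.image ρ.symm)
    have e3 := card_union_le N3 Bs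
    have e4 := card_image_le (s := Bs) (f := ρ.symm)
    refine le_trans (le_of_eq ?_) (e1.trans ?_)
    · congr
    · simp only [N3, N2, Bs] at *; omega
  · exact Or.inr (Or.inl (mem_union_left _ (mem_union_right _ hx)))
  · exact Or.inr (Or.inl (mem_union_right _ (mem_image_of_mem _ hx)))

section parts

variable {h : ℕ} (K : Cuts S h) (hφ : K.φ = D.φ) (hμ : K.μ = D.μ)
  (hB : ∀ x ∈ D.Bd, K.Cut x ∧ K.Cut (D.φ x))

include hφ hB in
theorem run_ne {c : S} (hc : c ≠ D.o) : ∀ i < K.len c, (D.φ ^ i) c ≠ D.o := by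
  intro i hi e
  rcases Nat.eq_zero_or_pos i with rfl | h0
  · exact hc e
  · exact K.not_cut h0 hi (by rw [hφ, e]; exact (hB _ (D.mem_Bd.2 (Or.inr rfl))).1)

include hφ hB in
theorem len_Bd {c : S} (hc : c ∈ D.Bd) : K.len c = 1 :=
  le_antisymm (K.len_le' one_pos (by simpa [hφ] using (hB c hc).2)) (K.len_pos c)

open Classical in
/-- The family of runs in a set `U`. -/
noncomputable def loc (U : Finset K.V) (hU : ∀ c ∈ U, D.In c.1 ∧ c.1 ≠ D.o) : Loc M π U h where
  len R := K.len R.1.1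
  τ R i := D.tv ((D.φ ^ i) R.1.1)
  z R i := D.z ((D.φ ^ i) R.1.1)
  mir R := if a : K.mrV R.1 ∈ U then some ⟨_, a⟩ else none
  nxt R := if a : K.nxV R.1 ∈ U then some ⟨_, a⟩ else none
  len_le R := K.len_le _
  len_pos R := K.len_pos _
  wk R := (D.wk (hU _ R.2).1 (D.run_ne K hφ hB (hU _ R.2).2)).1
  red R := (D.wk (hU _ R.2).1 (D.run_ne K hφ hB (hU _ R.2).2)).2
  mir_symm R R' a := by
    split_ifs at a with b
    obtain rfl := Option.some.inj a
    simp [K.mrV_mrV]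
  mir_len R R' a := by
    split_ifs at a with b
    obtain rfl := Option.some.inj a
    exact K.len_mr R.1.2
  mir_lab R R' a i hi := by
    split_ifs at a with b
    obtain rfl := Option.some.inj a
    have a1 := D.run_ne K hφ hB (hU _ R.2).2 i hi
    have a2 := D.run_ne K hφ hB (hU _ b).2 (K.len R.1.1 - 1 - i) (by
      rw [show K.len (K.mrV R.1).1 = _ from K.len_mr R.1.2]; omega)
    rw [(D.dart _ ((D.In_pow _ _).2 (hU _ b).1) a2).2.2,
      (D.dart _ ((D.In_pow _ _).2 (hU _ R.2).1) a1).2.2, ← D.lb_μ _ a1]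
    have := K.mr_pow R.1.1 (K.len R.1.1 - 1 - i) (by omega)
    rw [hφ, hμ, show K.len R.1.1 - 1 - (K.len R.1.1 - 1 - i) = i by omega] at this
    exact congrArg D.lb this
  mir_ne R R' a i hi := by
    split_ifs at a with b
    obtain rfl := Option.some.inj a
    rcases Nat.eq_zero_or_pos i with rfl | h0
    · have a1 := K.mr_end R.1.1
      rw [hφ, hμ] at a1
      have a2 : D.In (D.μ R.1.1) := by
        rw [← D.In_φ, ← a1, D.In_pow]; exact (hU _ b).1
      have := D.red _ a2 (by rw [D.μμ]; exact (hU _ R.2).1) (D.μ_ne (hU _ R.2).2)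
      rw [D.μμ, ← a1] at this
      exact this.symm
    · have a1 := K.mr_pow R.1.1 (K.len R.1.1 - i) (by omega)
      rw [hφ, hμ, show K.len R.1.1 - 1 - (K.len R.1.1 - i) = i - 1 by omega] at a1
      have := D.red ((D.φ ^ (i - 1)) R.1.1) ((D.In_pow _ _).2 (hU _ R.2).1)
        (by rw [← a1, D.In_pow]; exact (hU _ b).1) (D.run_ne K hφ hB (hU _ R.2).2 _ (by omega))
      rw [← a1, ← Equiv.Perm.mul_apply D.φ, ← pow_succ', show i - 1 + 1 = i by omega] at this
      exact this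
  nxt_inj R R' T a b := by
    split_ifs at a b with c d
    rw [← a] at b
    exact Subtype.ext (K.nxV_inj (congrArg Subtype.val (Option.some.inj b))).symm
  nxt_v R T a := by
    split_ifs at a with b
    obtain rfl := Option.some.inj a
    rw [← hφ]; rfl
  nxt_ne R T a e := by
    split_ifs at a with b
    obtain rfl := Option.some.inj a
    have a0 := K.len_pos R.1.1
    have a1 := D.run_ne K hφ hB (hU _ R.2).2 (K.len R.1.1 - 1) (by omega)
    have a2 := K.φ_last R.1.1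
    rw [hφ] at a2
    refine D.imm _ a1 (by rw [a2]; exact (hU _ b).2) ?_
    rw [a2, ← (D.dart _ ((D.In_pow _ _).2 (hU _ R.2).1) a1).2.2, ← Mdl.dl_rv, ← e]
    exact (D.dart _ (hU _ b).1 (hU _ b).2).2.2.symm

end parts

end RD

end Crest.Agent.H6.Kap
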