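import Mathlib
import Crest.Agent.H6.KGlobal

/-! Summing the local inequality over the parts. -/

namespace Crest.Agent.H6.Kap

open Finset

variable {P E W B C : Type} {M : Mdl P E W B C} {π : Equiv.Perm E}

/-- the partition property -/
def PartProp (K : ℕ) (ε : ℝ) : Prop :=
  ∀ (V : Type) [Fintype V] [DecidableEq V] (adj : V → V → Prop),
    (∀ ⦃a b : V⦄, adj a b → adj b a) → (∀ x, {y | adj x y}.ncard ≤ 3) →
    (¬ ∃ A : Fin 7 → Finset V, (∀ i, H2.PRS.Conn adj (A i)) ∧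
      ∀ i j, i ≠ j → Disjoint (A i) (A j) ∧ ∃ x ∈ A i, ∃ y ∈ A j, adj x y) →
    ∃ part : V → ℕ, (∀ k, {x | part x = k}.ncard ≤ K) ∧
      ({p : V × V | adj p.1 p.2 ∧ part p.1 ≠ part p.2}.ncard : ℝ) ≤ ε * Fintype.card V

theorem exists_partProp (ε : ℝ) (hε : 0 < ε) : ∃ K, PartProp K ε := H2.PRS.partition' 3 7 ε hε

theorem sum_fib {α : Type} (s : Finset α) (f : α → ℕ) (T : Finset ℕ) :
    ∑ k ∈ T, (s.filter fun a => f a = k).card ≤ s.card := by
  rw [sum_card_fiberwise_eq_card_filter]; exact card_filter_le _ _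

namespace Loc

variable {I α : Type} [Fintype I] {h : ℕ} (d : Loc M π I h) (root : W)

theorem eH_le (t : Finset α) (f : I → α) (hf : Function.Injective f)
    (H : ∀ R, d.nxt R = none → f R ∈ t) : d.eH root ≤ t.card := by
  classical
  exact card_le_card_of_injOn f (fun R hR => H R (mem_filter.1 (mem_coe.1 hR)).2.1) hf.injOn

theorem eT_le (t : Finset α) (r : I → α → Prop) (hf : ∀ R R' a, r R a → r R' a → R = R')
    (H : ∀ R, (∀ R', d.nxt R' ≠ some R) → d.τ R 0 ≠ Sum.inl root → ∃ a ∈ t, r R a) :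
    d.eT root ≤ t.card := by
  classical
  exact card_le_card_of_forall_subsingleton r
    (fun R hR => H R (mem_filter.1 hR).2.1 (mem_filter.1 hR).2.2)
    fun a _ R b R' c => hf R R' a b.2 c.2

theorem un_le (t t' : Finset α) (f : I → α) (hf : Function.Injective f)
    (H : ∀ R, d.mir R = none → f R ∈ t ∨ (f R ∈ t' ∧ d.len R = 1)) :
    d.un ≤ h * t.card + t'.card := by
  classical
  unfold un
  have b1 : ∀ R ∈ univ.filter fun R => d.mir R = none, d.len R ≤
      h * (if f R ∈ t then 1 else 0) + if f R ∈ t' then 1 else 0 := by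
    intro R hR
    have := d.len_le R
    rcases H R (mem_filter.1 hR).2 with a | a
    · rw [if_pos a]; omega
    · rw [if_pos a.1]; omega
  refine (sum_le_sum b1).trans ((sum_le_sum_of_subset (filter_subset _ _)).trans ?_)
  rw [sum_add_distrib, ← mul_sum, ← card_filter, ← card_filter]
  refine Nat.add_le_add (Nat.mul_le_mul_left _ ?_) ?_ <;>
    exact card_le_card_of_injOn f (fun R hR => (mem_filter.1 (mem_coe.1 hR)).2) hf.injOn

end Loc

namespace RD

variable {S : Type} {root : W} (D : RD M π S root) {g : ℕ} [Fintype S]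

theorem exists_loc {h : ℕ} (K : Cuts S h) (hφ : K.φ = D.φ) (hμ : K.μ = D.μ)
    (hB : ∀ x ∈ D.Bd, K.Cut x ∧ K.Cut (D.φ x)) (U : Finset K.V)
    (hU : ∀ c ∈ U, D.In c.1 ∧ c.1 ≠ D.o) : ∃ d : Loc M π U h, (∀ R, d.len R = K.len R.1.1) ∧
      (∀ R, d.τ R 0 = D.tv R.1.1) ∧ (∀ R, d.nxt R = none → K.nxV R.1 ∉ U) ∧
      (∀ R R', K.nxV R.1 = R'.1 → d.nxt R = some R') ∧ (∀ R, d.mir R = none → K.mrV R.1 ∉ U) := by
  refine ⟨D.loc K hφ hμ hB U hU, fun _ => rfl, fun _ => rfl, fun R a b => ?_, fun R R' a => ?_,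
    fun R a b => ?_⟩
  · simp [loc, b] at a
  · simp [loc, a]
  · simp [loc, b] at a

theorem global_aux {h : ℕ} (K : Cuts S h) (hφ : K.φ = D.φ) (hμ : K.μ = D.μ)
    (hB : ∀ x ∈ D.Bd, K.Cut x ∧ K.Cut (D.φ x)) {K0 : ℕ} {ε η A B' C0 : ℝ} (hη : 0 ≤ η) (hA : 0 ≤ A)
    (hB' : 0 ≤ B') (hC0 : 0 ≤ C0) (hpart : PartProp K0 ε)
    (hloc : LocIneq M π K0 h root η A B' C0) :
    η * D.Inn.card ≤ (ε * (2 * A + h * B') + C0) * Nat.card K.V + B' * D.Bd.card := by
  classical
  obtain ⟨part, hp1, hp2⟩ := hpart K.V K.adj K.adj_symm K.adj_deg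
    (K.no_minor (by rw [hφ, hμ]; exact D.planar))
  rw [Nat.card_eq_fintype_card]
  let V0 : Finset K.V := univ.filter fun c => D.In c.1 ∧ c.1 ≠ D.o
  let U : ℕ → Finset K.V := fun k => V0.filter fun c => part c = k
  have hU : ∀ k, ∀ c ∈ U k, D.In c.1 ∧ c.1 ≠ D.o := fun k c hc =>
    (mem_filter.1 (mem_filter.1 hc).1).2
  have mU : ∀ k c, c ∈ U k ↔ (D.In c.1 ∧ c.1 ≠ D.o) ∧ part c = k := by simp [U, V0]
  let T := univ.image part
  let X1 : Finset K.V := univ.filter fun c => part (K.nxV c) ≠ part c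
  let X2 : Finset K.V := univ.filter fun c => part (K.mrV c) ≠ part c
  let X3 : Finset K.V := univ.filter fun c => (K.mrV c).1 ∈ D.Bd
  let Z : Finset K.V := V0.filter fun c => (K.nxV c).1 = D.o
  choose d dl dτ dn dn' dm using fun k => D.exists_loc K hφ hμ hB (U k) (hU k)
  have hInx : ∀ c : K.V, D.In (K.nxV c).1 ↔ D.In c.1 := fun c => by
    simp only [Cuts.nxV, Cuts.nx, hφ, D.In_pow]
  have hX1 : X1.card ≤ {p : K.V × K.V | K.adj p.1 p.2 ∧ part p.1 ≠ part p.2}.ncard := by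
    rw [← Set.ncard_coe_finset]
    exact Set.ncard_le_ncard_of_injOn (fun c => (c, K.nxV c))
      (fun c hc => ⟨Or.inl rfl, (mem_filter.1 (mem_coe.1 hc)).2.symm⟩)
      fun c _ c' _ e => congrArg Prod.fst e
  have hX2 : X2.card ≤ {p : K.V × K.V | K.adj p.1 p.2 ∧ part p.1 ≠ part p.2}.ncard := by
    rw [← Set.ncard_coe_finset]
    exact Set.ncard_le_ncard_of_injOn (fun c => (c, K.mrV c))
      (fun c hc => ⟨Or.inr (Or.inr rfl), (mem_filter.1 (mem_coe.1 hc)).2.symm⟩)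
      fun c _ c' _ e => congrArg Prod.fst e
  have hX3 : X3.card ≤ D.Bd.card :=
    card_le_card_of_injOn (fun c => (K.mrV c).1) (fun c hc => (mem_filter.1 (mem_coe.1 hc)).2)
      fun c _ c' _ e => by rw [← K.mrV_mrV c, Subtype.ext e, K.mrV_mrV]
  have e1 : ∀ k, (d k).eH root ≤ (X1.filter fun c => part c = k).card +
      (Z.filter fun c => part c = k).card := by
    intro k
    refine le_trans ((d k).eH_le root _ Subtype.val Subtype.val_injective fun R a1 => ?_)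
      (card_union_le _ _)
    have a2 := dn k R a1
    obtain ⟨⟨a3, a4⟩, a5⟩ := (mU _ _).1 R.2
    rw [mU, hInx] at a2
    simp only [mem_union, mem_filter, X1, Z, V0, mem_univ, true_and, a5, a3, and_true]
    tauto
  have e2 : ∀ k, (d k).eT root ≤ (X1.filter fun c => part (K.nxV c) = k).card := by
    intro k
    refine (d k).eT_le root _ (fun R c => K.nxV c = R.1)
      (fun R R' c a b => Subtype.ext (a.symm.trans b)) fun R a1 a2 => ?_
    obtain ⟨c, hc⟩ := (Finite.injective_iff_surjective.1 K.nxV_inj) R.1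
    obtain ⟨⟨a3, a4⟩, a5⟩ := (mU _ _).1 R.2
    refine ⟨c, ?_, hc⟩
    simp only [mem_filter, X1, mem_univ, true_and, hc, a5, and_true]
    intro a6
    have a7 : D.In c.1 := by rw [← hInx, hc]; exact a3
    by_cases a8 : c.1 = D.o
    · apply a2
      have := D.len_Bd K hφ hB (D.mem_Bd.2 (Or.inr rfl))
      rw [← (D.jump (a8 ▸ a7)).1, dτ, ← hc]
      simp only [Cuts.nxV, Cuts.nx, a8, this, hφ, pow_one]
    · exact a1 ⟨c, (mU _ _).2 ⟨⟨a7, a8⟩, a6.symm⟩⟩ (dn' _ _ _ hc)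
  have e3 : ∀ k, (d k).un ≤ h * (X2.filter fun c => part c = k).card +
      (X3.filter fun c => part c = k).card := by
    intro k
    refine (d k).un_le _ _ Subtype.val Subtype.val_injective fun R a1 => ?_
    have a2 := dm k R a1
    obtain ⟨⟨a3, a4⟩, a5⟩ := (mU _ _).1 R.2
    rw [mU, ← D.not_Bd] at a2
    by_cases a6 : (K.mrV R.1).1 ∈ D.Bd
    · have := D.len_Bd K hφ hB a6
      rw [show K.len (K.mrV R.1).1 = _ from K.len_mr R.1.2] at this
      exact Or.inr ⟨by simp [X3, a6, a5], by rw [dl, this]⟩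
    · left
      simp only [X2, mem_filter, mem_univ, true_and, a5, and_true]; tauto
  have e4 : Z.card ≤ ∑ k ∈ T, (d k).rI root := by
    rcases Z.eq_empty_or_nonempty with a | ⟨c, hc⟩
    · simp [a]
    have a1 : Z.card ≤ 1 := card_le_one.2 fun c hc c' hc' =>
      K.nxV_inj (Subtype.ext ((mem_filter.1 hc).2.trans (mem_filter.1 hc').2.symm))
    have a2 : D.In D.o := by
      rw [← (mem_filter.1 hc).2, hInx]; exact (mem_filter.1 (mem_filter.1 hc).1).2.1
    obtain ⟨a3, a4⟩ := D.jump a2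
    let c1 : K.V := ⟨D.φ D.o, (hB _ (D.mem_Bd.2 (Or.inr rfl))).2⟩
    have a5 : c1 ∈ U (part c1) := (mU _ _).2 ⟨⟨(D.In_φ _).2 a2, fun e => a4 (by
      rw [← a3]; exact congrArg D.tv e.symm)⟩, rfl⟩
    refine a1.trans (le_trans ?_ (single_le_sum (fun _ _ => Nat.zero_le _)
      (mem_image_of_mem part (mem_univ c1))))
    unfold Loc.rI
    rw [if_pos ⟨⟨c1, a5⟩, by rw [dτ]; exact a3⟩]
  have e5 : D.Inn.card ≤ ∑ k ∈ T, ∑ R, (d k).len R := by
    have a1 : ∀ k, ∑ R, (d k).len R = ∑ c ∈ U k, K.len c.1 := fun k => by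
      simp only [dl]; exact sum_coe_sort (U k) fun c => K.len c.1
    simp only [a1]
    rw [sum_fiberwise_of_maps_to (fun c _ => mem_image_of_mem part (mem_univ c))]
    have a2 : D.Inn ⊆ V0.biUnion fun c => (range (K.len c.1)).image fun i => (D.φ ^ i) c.1 := by
      intro x hx
      obtain ⟨a3, a4⟩ := D.mem_Inn.1 hx
      obtain ⟨i, hi, e⟩ := K.start_spec x
      rw [hφ] at e
      refine mem_biUnion.2 ⟨K.start x, mem_filter.2 ⟨mem_univ _, ?_, fun a5 => a4 ?_⟩,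
        mem_image.2 ⟨i, mem_range.2 hi, e⟩⟩
      · rwa [← e, D.In_pow] at a3
      · rw [a5, D.len_Bd K hφ hB (D.mem_Bd.2 (Or.inr rfl))] at hi
        rw [← e, a5, show i = 0 by omega]; rfl
    refine (card_le_card a2).trans (card_biUnion_le.trans (sum_le_sum fun c _ => ?_))
    exact card_image_le.trans (by simp)
  have e6 : ∀ k ∈ T, η * (∑ R, (d k).len R : ℕ) ≤ A * (((d k).eH root : ℝ) + (d k).eT root -
      (d k).rI root) + B' * (d k).un + C0 := by
    intro k _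
    refine hloc _ ?_ (d k)
    refine le_trans ?_ (hp1 k)
    rw [Fintype.card_coe, ← Set.ncard_coe_finset]
    exact Set.ncard_le_ncard fun c hc => (mem_filter.1 (mem_coe.1 hc)).2
  have f1 := sum_le_sum fun k (_ : k ∈ T) => e1 k
  have f2 := sum_le_sum fun k (_ : k ∈ T) => e2 k
  have f3 := sum_le_sum fun k (_ : k ∈ T) => e3 k
  have f6 := sum_le_sum e6
  simp only [sum_add_distrib, ← mul_sum, sum_sub_distrib, sum_const, nsmul_eq_mul,
    ← Nat.cast_sum] at f1 f2 f3 f6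
  have g1 := sum_fib X1 part T
  have g2 := sum_fib Z part T
  have g3 := sum_fib X1 (fun c => part (K.nxV c)) T
  have g4 := sum_fib X2 part T
  have g5 := sum_fib X3 part T
  have g6 : T.card ≤ Fintype.card K.V := card_image_le
  generalize {p : K.V × K.V | K.adj p.1 p.2 ∧ part p.1 ≠ part p.2}.ncard = cp at *
  have k1 : ∑ k ∈ T, (d k).eH root + ∑ k ∈ T, (d k).eT root ≤ 2 * cp + ∑ k ∈ T, (d k).rI root := by
    omega
  have k2 : ∑ k ∈ T, (d k).un ≤ h * cp + D.Bd.card :=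
    f3.trans (Nat.add_le_add (Nat.mul_le_mul_left _ (by omega)) (by omega))
  generalize ∑ k ∈ T, (d k).eH root = n1 at *
  generalize ∑ k ∈ T, (d k).eT root = n2 at *
  generalize ∑ k ∈ T, (d k).rI root = n3 at *
  generalize ∑ k ∈ T, (d k).un = n4 at *
  generalize ∑ k ∈ T, ∑ R, (d k).len R = n5 at *
  have r1 : (n1 : ℝ) + n2 - n3 ≤ 2 * cp := by
    have : (n1 : ℝ) + n2 ≤ 2 * cp + n3 := by exact_mod_cast k1
    linarith
  have r2 : (n4 : ℝ) ≤ h * cp + D.Bd.card := by exact_mod_cast k2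
  have r3 : (D.Inn.card : ℝ) ≤ n5 := by exact_mod_cast e5
  have r4 : (T.card : ℝ) ≤ Fintype.card K.V := by exact_mod_cast g6
  have t1 := mul_le_mul_of_nonneg_left r1 hA
  have t2 := mul_le_mul_of_nonneg_left r2 hB'
  have t3 := mul_le_mul_of_nonneg_left r3 hη
  have t4 := mul_le_mul_of_nonneg_right r4 hC0
  have t5 := mul_le_mul_of_nonneg_left hp2 (by positivity : 0 ≤ 2 * A + h * B')
  nlinarith

/-- The linear bound. -/
theorem global (hg : M.Girth π g) {r : ℕ} (hr : 0 < r) (hrg : r ≤ g) {K0 : ℕ} {ε η A B' C0 : ℝ}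
    (hε : 0 ≤ ε) (hη : 0 < η) (hA : 0 ≤ A) (hB' : 0 ≤ B') (hC0 : 0 ≤ C0) (hpart : PartProp K0 ε)
    (hloc : LocIneq M π K0 (2 * r) root η A B' C0)
    (h1 : 16 * (ε * (2 * A + 2 * r * B') + C0) ≤ η * r) (h2 : η + 2 * B' ≤ η * r) :
    D.Inn.card ≤ 4 * r * D.Bd.card := by
  obtain ⟨K, m, a1, a2, a3, a4, a5⟩ := D.exists_cuts hg hr hrg
  have := D.global_aux K a1 a2 a5 hη.le hA hB' hC0 hpart hloc
  rw [D.card_eq] at a3
  push_cast at this
  set Q := ε * (2 * A + 2 * r * B') + C0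
  have hQ : 0 ≤ Q := by positivity
  have b3 : (r : ℝ) * m ≤ D.Inn.card + D.Bd.card := by exact_mod_cast a3
  have b4 : (Nat.card K.V : ℝ) ≤ 8 * m + 22 * D.Bd.card := by exact_mod_cast a4
  have c1 := mul_le_mul_of_nonneg_left b4 hQ
  have c2 := mul_le_mul_of_nonneg_right h1 (Nat.cast_nonneg m)
  have c3 := mul_le_mul_of_nonneg_left b3 hη.le
  have c4 := mul_le_mul_of_nonneg_right h1 (Nat.cast_nonneg D.Bd.card)
  have c5 := mul_le_mul_of_nonneg_right h2 (Nat.cast_nonneg D.Bd.card)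
  have c6 : 0 ≤ η * r * D.Bd.card := by positivity
  have : η * D.Inn.card ≤ η * (4 * r * D.Bd.card) := by nlinarith
  exact_mod_cast le_of_mul_le_mul_left this hη

end RD

end Crest.Agent.H6.Kap
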