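import Mathlib
import Crest.Agent.H6.KBuild
import Crest.Agent.H6.KGlob2

/-! Consequences of the linear bound for diagrams. -/

namespace Crest.Agent.H6.Kap

open Equiv Finset Function

theorem exists_period {S : Type} (φ : Perm S) (X : Finset S) (x : S) (h : ∀ i : ℕ, (φ ^ i) x ∈ X) :
    ∃ k, 0 < k ∧ k ≤ X.card ∧ (φ ^ k) x = x := by
  obtain ⟨i, hi, j, hj, hne, e⟩ := exists_ne_map_eq_of_card_lt_of_maps_to
    (s := range (X.card + 1)) (t := X) (by simp) (f := fun i => (φ ^ i) x) fun i _ => h i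
  rw [mem_range] at hi hj
  wlog hij : i < j generalizing i j
  · exact this j hj i hi hne.symm e.symm (by omega)
  refine ⟨j - i, by omega, by omega, (φ ^ i).injective ?_⟩
  rw [← Perm.mul_apply, ← pow_add, show i + (j - i) = j by omega, e]

variable {P E W B C : Type} {M : Mdl P E W B C} {π : Perm E} {G A : Type} [Group G]
  [AddCommGroup A] {f : FreeGroup P →* G} {cl : G → E × Bool → A} {md : Prop} {v0 v1 : W ⊕ B}
  {w : FreeGroup P} {c : A} {root : W} {r g : ℕ}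

variable (M π root r) in
/-- the linear bound for reduced diagrams -/
def Lin : Prop := ∀ (S : Type) [Fintype S] (D : RD M π S root), D.Inn.card ≤ 4 * r * D.Bd.card

namespace Dg

variable {S : Type} [Fintype S]

/-- the reduced diagram of a minimal diagram -/
noncomputable def toRD (D : Dg M π f cl md v0 v1 w c S) (h1 : ∀ x, D.lb x = none → x = D.o)
    (h2 : ∀ x l, D.lb x = some l → D.lb (D.φ x) ≠ some (rv l))
    (h3 : ∀ x, D.In x → D.In (D.μ x) → x ≠ D.o → D.tv (D.μ x) ≠ D.tv (D.φ x))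
    (h4 : md → v0 = Sum.inl root ∧ v1 ≠ Sum.inl root) : RD M π S root where
  φ := D.φ
  μ := D.μ
  o := D.o
  In := D.In
  z := D.z
  lb x := (D.lb x).getD (M.dl (D.z x))
  tv := D.tv
  μμ := D.μμ
  μfix x := ⟨fun h => h1 x ((D.null x).2 h), fun h => h ▸ D.μo⟩
  planar := D.planar
  In_φ := D.In_φ
  dart x a b := by
    obtain ⟨l, hl⟩ := Option.ne_none_iff_exists'.1 fun e => b (h1 x e)
    simpa [hl] using D.dart x l a hl
  lb_μ x b := by
    obtain ⟨l, hl⟩ := Option.ne_none_iff_exists'.1 fun e => b (h1 x e)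
    simp [hl, D.lb_μ]
  imm x a b := by
    obtain ⟨l, hl⟩ := Option.ne_none_iff_exists'.1 fun e => a (h1 x e)
    obtain ⟨l', hl'⟩ := Option.ne_none_iff_exists'.1 fun e => b (h1 _ e)
    simpa [hl, hl'] using h2 x l hl
  red := h3
  jump h := by
    have := D.hmd.1 h
    rw [(D.hj this).1, (D.hj this).2]; exact h4 this

theorem outer (D : Dg M π f cl False v0 v1 w c S) (h1 : ∀ x, D.lb x = none → x = D.o)
    (h2 : ∀ x l, D.lb x = some l → D.lb (D.φ x) ≠ some (rv l)) :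
    ∃ (n : ℕ) (lf : ℕ → P × Bool), (D.φ ^ (n + 1)) D.o = D.o ∧
      (∀ i < n, D.lb ((D.φ ^ (i + 1)) D.o) = some (lf i)) ∧ Red lf n ∧ wv lf n = w ∧
      (∀ x, ¬ D.In x ↔ ∃ i ≤ n, (D.φ ^ (i + 1)) D.o = x) ∧
      ∀ i ≤ n, ∀ j ≤ n, (D.φ ^ (i + 1)) D.o = (D.φ ^ (j + 1)) D.o → i = j := by
  have hex : ∃ n, (D.φ ^ (n + 1)) D.o = D.o :=
    ⟨orderOf D.φ - 1, by rw [Nat.sub_add_cancel (orderOf_pos _), pow_orderOf_eq_one]; rfl⟩
  obtain ⟨n, hn, hmin⟩ := exists_least hex
  have sc : ∀ i, (D.φ ^ (i + 1)) D.o = D.φ ((D.φ ^ i) D.o) := fun i => by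
    rw [pow_succ', Perm.mul_apply]
  have a1 : ∀ i : ℕ, ¬ D.In ((D.φ ^ i) D.o) := by
    intro i
    induction i with
    | zero => exact D.hmd.1
    | succ i ih => rwa [sc, D.In_φ]
  let lf : ℕ → P × Bool := fun i => (D.lb ((D.φ ^ (i + 1)) D.o)).getD (M.dl (D.z D.o))
  have a2 : ∀ i < n, D.lb ((D.φ ^ (i + 1)) D.o) = some (lf i) := fun i hi => by
    obtain ⟨l, hl⟩ := Option.ne_none_iff_exists'.1 fun e => hmin i hi (h1 _ e)
    simp [lf, hl]
  have a3 : ∀ i ≤ n, D.pF ((D.φ ^ (i + 1)) D.o) = wv lf i := by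
    intro i
    induction i with
    | zero => exact fun _ => (D.hw id).1
    | succ i ih =>
      intro hi
      rw [sc, D.pF_φ _ (a1 _) (hmin i hi), ih (by omega), a2 i hi, wv_succ, lvF_some]
  refine ⟨n, lf, hn, a2, fun i hi e => ?_, ?_, fun x => ⟨fun hx => ?_, ?_⟩, fun i hi j hj e => ?_⟩
  · refine h2 _ _ (a2 i (by omega)) ?_
    rw [← sc, a2 _ hi, e]
  · rw [← a3 n le_rfl, hn, (D.hw id).2]
  · have := D.reach x hx
    clear hx
    induction this with
    | refl => exact ⟨n, le_rfl, hn⟩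
    | tail _ e ih =>
      obtain ⟨i, hi, rfl⟩ := ih
      by_cases c : i = n
      · exact ⟨0, by omega, by rw [← e, c, hn]; rfl⟩
      · exact ⟨i + 1, by omega, by rw [← e, sc]⟩
  · rintro ⟨i, -, rfl⟩; exact a1 _
  · wlog hij : i < j generalizing i j
    · by_contra c
      exact c (this j hj i hi e.symm (by omega)).symm
    refine absurd ((D.φ ^ (i + 1)).injective ?_) (hmin (j - i - 1) (by omega))
    rw [← Perm.mul_apply, ← pow_add, e]; congr 2; omega

end Dg

theorem Has.area [DecidableEq P] (hπ : M.CP π) (hg : M.Girth π g) (hr : 4 * r ≤ g)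
    (hL : Lin M π root r) (hcl : ∀ g d, cl (g * f (FreeGroup.mk [M.dl d])) (rv d) = - cl g d)
    (h : Has M π f cl False v0 v1 w c) :
    (∃ (n : ℕ) (γ : Fin n → G) (d : Fin n → E × Bool), n ≤ 4 * r * (w.norm + 1) ∧
      c = ∑ i, cl (γ i) (d i)) ∧ (4 * r * (w.norm + 1) ≤ g → c = 0) := by
  classical
  obtain ⟨S, _, D, h1, h2, h3⟩ := h.exists_min hπ hcl
  obtain ⟨n, lf, a1, a2, a3, a4, a5, a6⟩ := D.outer h1 h2
  let R : RD M π S root := D.toRD h1 h2 h3 False.elim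
  have b1 := hL S R
  have b2 : R.Bd.card ≤ n + 1 := by
    have : R.Bd ⊆ (range (n + 1)).image fun i => (D.φ ^ (i + 1)) D.o := by
      intro x hx
      have : ¬ D.In x := (R.mem_Bd.1 hx).elim id fun e => e ▸ D.hmd.1
      obtain ⟨i, hi, e⟩ := (a5 x).1 this
      exact mem_image.2 ⟨i, mem_range.2 (by omega), e⟩
    exact (card_le_card this).trans (card_image_le.trans (by simp))
  have b3 : c = ∑ x ∈ R.Inn, cl (D.pos x) (D.z x) := by
    refine D.hc.symm.trans ?_
    rw [← sum_filter]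
    refine sum_congr ?_ fun _ _ => rfl
    ext x
    simp only [mem_filter, mem_univ, true_and, R.mem_Inn]
    exact and_congr_right fun _ => not_congr ⟨h1 x, fun e => e ▸ D.lb_o⟩
  have b4 : w.norm = n := by rw [← a4]; convert norm_wv a3
  refine ⟨⟨R.Inn.card, fun i => D.pos (R.Inn.equivFin.symm i), fun i => D.z (R.Inn.equivFin.symm i),
    b1.trans (Nat.mul_le_mul_left _ (by omega)), ?_⟩, fun hw => ?_⟩
  · refine b3.trans ?_
    rw [← sum_coe_sort]
    exact (R.Inn.equivFin.symm.sum_comp fun x => cl (D.pos x) (D.z x)).symm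
  · rw [b3]
    refine sum_eq_zero fun x hx => ?_
    exfalso
    rw [b4] at hw
    have c1 := (R.mem_Inn.1 hx).1
    have c2 : ∀ i : ℕ, (R.φ ^ i) x ∈ R.Inn := fun i => R.mem_Inn.2
      ⟨(R.In_pow i x).2 c1, fun e => D.hmd.1 (show R.In R.o from e ▸ (R.In_pow i x).2 c1)⟩
    obtain ⟨k, k1, k2, k3⟩ := exists_period R.φ R.Inn x c2
    have : 4 * r * R.Bd.card ≤ 4 * r * (n + 1) := Nat.mul_le_mul_left _ b2
    exact R.period hg c1 (fun i _ => (R.mem_Inn.1 (c2 i)).2) k1 (by omega) k3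

theorem Mdl.Wk.red_dl (hπ : M.CP π) {τ : ℕ → W ⊕ B} {z : ℕ → E × Bool} {n : ℕ}
    (hw : M.Wk π τ z n) (hr : Red z n) : Red (fun i => M.dl (z i)) n := fun i hi e =>
  hr i hi (Mdl.dart_inj hπ (by rw [(hw _ hi).1, Mdl.tl_rv, (hw i (by omega)).2])
    (congrArg Prod.fst e))

theorem Has.root_eq (hπ : M.CP π) (hg : M.Girth π g) (hr : 4 * r ≤ g)
    (hL : Lin M π root r) (hcl : ∀ g d, cl (g * f (FreeGroup.mk [M.dl d])) (rv d) = - cl g d)
    {τ : ℕ → W ⊕ B} {z : ℕ → E × Bool} {n : ℕ} (hw : M.Wk π τ z n) (hz : Red z n)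
    (h0 : τ 0 = Sum.inl root) (h : Has M π f cl False v0 v1 (wv (fun i => M.dl (z i)) n) c) :
    τ n = τ 0 := by
  classical
  by_contra hne
  obtain ⟨S, _, D, h1, h2, h3⟩ := h.exists_min hπ hcl
  obtain ⟨n', lf, a1, a2, a3, a4, a5, a6⟩ := D.outer h1 h2
  obtain ⟨rfl, a7⟩ := wv_inj a3 (hw.red_dl hπ hz) a4
  have a8 : ∀ x, ∃ i, ¬ D.In x → i ≤ n' ∧ (D.φ ^ (i + 1)) D.o = x := fun x => by
    by_cases hx : D.In x
    · exact ⟨0, fun h => absurd hx h⟩
    · obtain ⟨i, hi⟩ := (a5 x).1 hx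
      exact ⟨i, fun _ => hi⟩
  choose j hj using a8
  have io : ¬ D.In D.o := D.hmd.1
  have j1 : j D.o = n' := a6 _ (hj _ io).1 _ le_rfl (by rw [(hj _ io).2, a1])
  have j2 : j (D.φ D.o) = 0 := by
    have := hj (D.φ D.o) (by rwa [D.In_φ])
    exact a6 _ this.1 _ (by omega) this.2
  have j3 : ∀ x, ¬ D.In x → x ≠ D.o → j x < n' ∧ j (D.φ x) = j x + 1 := by
    intro x hx ho
    have b1 := hj x hx
    have b2 := hj (D.φ x) (by rwa [D.In_φ])
    have b3 : j x ≠ n' := fun e => ho (by rw [← b1.2, e, a1])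
    refine ⟨by omega, a6 _ b2.1 _ (by omega) ?_⟩
    rw [b2.2, pow_succ', Perm.mul_apply, b1.2]
  have H : Has M π f cl True (τ 0) (τ n') (wv (fun i => M.dl (z i)) n') _ :=
    ⟨S, inferInstance, ⟨⟨D.φ, D.μ, D.o, fun _ => True, D.lb,
      fun x => if D.In x then D.z x else z (j x), fun x => if D.In x then D.tv x else τ (j x),
      D.pos, D.pF, D.μμ, D.null, D.μo, D.planar, by simp, D.lb_μ, fun x l _ b => by
        by_cases hx : D.In x
        · simpa [hx, D.In_φ] using D.dart x l hx b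
        · obtain ⟨b1, b2⟩ := j3 x hx (D.ne_o b)
          have := a2 _ b1
          rw [(hj x hx).2, b, a7 _ b1] at this
          simp [hx, D.In_φ, b2, hw _ b1, Option.some.inj this],
      fun x _ a b => absurd (h1 x b) a, D.pos_φ, D.pos_μ, D.pos_o, by simp, by simp, Iff.rfl,
      fun _ => by simp [D.In_φ, io, j1, j2], by simp, rfl⟩⟩⟩
  obtain ⟨S', _, D', g1, g2, g3⟩ := H.exists_min hπ hcl
  let R : RD M π S' root := D'.toRD g1 g2 g3 fun _ => ⟨h0, h0 ▸ hne⟩
  have io' : R.In R.o := D'.hmd.2 trivial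
  have hall : ∀ x, R.In x := by
    intro x
    by_contra hx
    have := D'.reach x hx
    apply hx
    clear hx
    induction this with
    | refl => exact io'
    | tail _ e ih => exact e ▸ (R.In_φ _).2 ih
  have b1 := hL S' R
  have b2 : R.Bd.card ≤ 1 := card_le_one.2 fun x hx y hy => by
    rw [R.mem_Bd] at hx hy
    rw [hx.resolve_left fun h => h (hall _), hy.resolve_left fun h => h (hall _)]
  have b3 : ∀ x, ∃ i : ℕ, (R.φ ^ i) R.o = x := by
    intro x
    have : ∃ i : ℕ, (R.φ ^ i) x = R.o := by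
      by_contra hc
      push Not at hc
      obtain ⟨k, k1, k2, k3⟩ := exists_period R.φ R.Inn x fun i => R.mem_Inn.2 ⟨hall _, hc i⟩
      have : 4 * r * R.Bd.card ≤ 4 * r * 1 := Nat.mul_le_mul_left _ b2
      exact R.period hg (hall x) (fun i _ => hc i) k1 (by omega) k3
    obtain ⟨i, hi⟩ := this
    have : R.φ.SameCycle R.o x := Perm.SameCycle.symm ⟨i, by simpa using hi⟩
    obtain ⟨k, -, hk⟩ := this.exists_pow_eq'
    exact ⟨k, hk⟩
  have b4 := interlace R.planar R.μμ R.o R.μfix b3 fun x hx => R.nospike hx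
  have b5 := R.jump io'
  rw [b4] at b5
  exact b5.2 b5.1

end Crest.Agent.H6.Kap
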