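import Mathlib

/-! A projective plane with two disjoint Baer subplanes. -/

namespace Crest.Agent.H6.Kap

open Finset
open scoped LinearAlgebra.Projectivization

open Classical in
/-- The incidence data used in the construction. -/
structure Geo (p : ℕ) (P : Type) [Fintype P] (q : ℕ) where
  ln : P → Finset P
  S : Finset P
  T : Finset P
  disj : Disjoint S T
  thru : ∀ x, (univ.filter fun l => x ∈ ln l).card = q + 1
  two : ∀ x y, x ≠ y → ∀ l l', x ∈ ln l → y ∈ ln l → x ∈ ln l' → y ∈ ln l' → l = l'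
  meet : ∀ l l', ((ln l ∩ ln l').card : ZMod p) = 1
  meetS : ∀ l, ((S ∩ ln l).card : ZMod p) = 1
  meetT : ∀ l, ((ln l ∩ T).card : ZMod p) = 1
  cardP : Fintype.card P = q ^ 2 + q + 1
  big : 9 < q
  hS : S.card ≠ 1
  hT : T.card ≠ 1
  hR : (univ \ (S ∪ T)).card ≠ 1

theorem card_addSubgroup_zmod {F : Type} [Field F] [Finite F] (p : ℕ) [Fact p.Prime] [CharP F p]
    (Z : AddSubgroup F) {z : F} (hz : z ∈ Z) (h0 : z ≠ 0) : (Nat.card Z : ZMod p) = 0 := by
  rw [ZMod.natCast_eq_zero_iff]
  have h1 : addOrderOf z = p := addOrderOf_eq_prime (by simp) h0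
  rw [← h1]
  exact AddSubgroup.addOrderOf_dvd_natCard Z hz

open Classical in
theorem meet_sub {K K3 Ω : Type} [Field K] [Field K3] [Field Ω] [Algebra K Ω] [Fintype K3]
    [Finite K] (p : ℕ) [Fact p.Prime] [CharP K3 p] (hc : Nat.card K < Nat.card K3)
    (ψ : K3 →+* Ω) (e : Ω ≃ₗ[K] (Fin 3 → K)) (ω : Ω) (hω : ω ≠ 0)
    (hne : ∀ y : {y : K3 // y ≠ 0}, e (ω * ψ y.1) ≠ 0) (l : ℙ K (Fin 3 → K)) :
    (((univ.image fun y : {y : K3 // y ≠ 0} => Projectivization.mk K _ (hne y)).filter
      fun x => x ∈ l).card : ZMod p) = 1 := by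
  let u : K3 →+ K :=
    { toFun := fun y => e (ω * ψ y) ⬝ᵥ l.rep
      map_zero' := by simp
      map_add' := fun a b => by simp [mul_add] }
  let k0 : Subfield K3 := (algebraMap K Ω).fieldRange.comap ψ
  have h1 : (Nat.card u.ker : ZMod p) = 0 := by
    have : ¬ Function.Injective u := fun h => by
      have := Nat.card_le_card_of_injective u h; omega
    rw [injective_iff_map_eq_zero] at this
    push Not at this
    obtain ⟨z, a, b⟩ := this
    exact card_addSubgroup_zmod p _ a b
  have h2 : (Nat.card k0 : ZMod p) = 0 :=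
    card_addSubgroup_zmod p k0.toAddSubgroup k0.one_mem one_ne_zero
  let f := fun y : {y : K3 // y ≠ 0} => Projectivization.mk K _ (hne y)
  have h3 : ∀ y, f y ∈ l ↔ u y.1 = 0 := fun y => by
    rw [Configuration.ofField.mem_iff]
    conv_lhs => rw [← l.mk_rep, Projectivization.orthogonal_mk]
    rfl
  have h4 : ∀ y y0, f y = f y0 ↔ y.1 / y0.1 ∈ k0 := fun y y0 => by
    simp only [f, Projectivization.mk_eq_mk_iff', k0, Subfield.mem_comap, RingHom.mem_fieldRange,
      map_div₀]
    refine exists_congr fun a => ?_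
    rw [← map_smul, e.injective.eq_iff, Algebra.smul_def, eq_div_iff (by simpa using y0.2), mul_left_comm, mul_right_inj' hω]
  let Z := univ.filter fun y : {y : K3 // y ≠ 0} => u y.1 = 0
  have h5 : Z.card + 1 = Nat.card u.ker := by
    rw [Nat.card_eq_fintype_card, Fintype.card_subtype,
      ← card_erase_add_one (a := (0 : K3)) (by simp)]
    congr 1
    refine card_bij (fun y _ => y.1) (fun y hy => ?_) (fun _ _ _ _ h => Subtype.ext h) fun y hy => ?_
    · simpa [Z, y.2] using hy
    · simp only [mem_erase, mem_filter, mem_univ, true_and, AddMonoidHom.mem_ker] at hy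
      exact ⟨⟨y, hy.1⟩, by simp [Z, hy.2], rfl⟩
  have h6 : Z.card = ∑ x ∈ (univ.image f).filter fun x => x ∈ l, (Nat.card k0 - 1) := by
    rw [card_eq_sum_card_fiberwise (f := f) (t := (univ.image f).filter fun x => x ∈ l)
      fun y hy => mem_coe.2 (mem_filter.2 ⟨mem_image_of_mem _ (mem_univ _),
        (h3 y).2 (mem_filter.1 (mem_coe.1 hy)).2⟩)]
    refine sum_congr rfl fun x hx => ?_
    obtain ⟨a1, a2⟩ := mem_filter.1 hx
    obtain ⟨y0, -, rfl⟩ := mem_image.1 a1
    rw [Nat.card_eq_fintype_card, Fintype.card_subtype, ← card_erase_of_mem (a := (0 : K3)) (by simp)]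
    refine card_bij (fun y _ => y.1 / y0.1) (fun y hy => ?_) (fun y _ y' _ h => ?_) fun c hc => ?_
    · simpa [y.2, y0.2, h4] using (mem_filter.1 hy).2
    · exact Subtype.ext ((div_left_inj' y0.2).1 h)
    · simp only [mem_erase, mem_filter, mem_univ, true_and] at hc
      have b : f ⟨c * y0.1, mul_ne_zero hc.1 y0.2⟩ = f y0 := by
        rw [h4]; simpa [y0.2] using hc.2
      refine ⟨⟨c * y0.1, mul_ne_zero hc.1 y0.2⟩, ?_, by simp [y0.2]⟩
      simp only [Z, mem_filter, mem_univ, true_and, ← h3, b, and_true]; exact a2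
  rw [sum_const, smul_eq_mul] at h6
  rw [← h5, h6] at h1
  push_cast [Nat.cast_sub (Nat.one_le_iff_ne_zero.2 (Nat.card_pos (α := k0)).ne')] at h1
  rw [h2] at h1
  linear_combination -h1

theorem exists_geo (p : ℕ) [hp : Fact p.Prime] :
    ∃ (P : Type) (_ : Fintype P) (q : ℕ), Nonempty (Geo p P q) := by
  classical
  let K := GaloisField p 4
  let K3 := GaloisField p 6
  let Ω := GaloisField p 12
  obtain ⟨φ⟩ : Nonempty (K →ₐ[ZMod p] Ω) := FiniteField.nonempty_algHom_of_finrank_dvd (by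
    rw [GaloisField.finrank p (by omega), GaloisField.finrank p (by omega)]; decide)
  obtain ⟨ψ⟩ : Nonempty (K3 →ₐ[ZMod p] Ω) := FiniteField.nonempty_algHom_of_finrank_dvd (by
    rw [GaloisField.finrank p (by omega), GaloisField.finrank p (by omega)]; decide)
  letI : Algebra K Ω := φ.toRingHom.toAlgebra
  have c1 : Nat.card K = p ^ 4 := GaloisField.card p 4 (by omega)
  have c2 : Nat.card K3 = p ^ 6 := GaloisField.card p 6 (by omega)
  have c3 : Nat.card Ω = p ^ 12 := GaloisField.card p 12 (by omega)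
  have p2 := hp.out.two_le
  have fr : Module.finrank K Ω = 3 := by
    have := Module.natCard_eq_pow_finrank (K := K) (V := Ω)
    rw [c1, c3, ← pow_mul] at this
    have := Nat.pow_right_injective p2 this
    omega
  obtain ⟨e⟩ : Nonempty (Ω ≃ₗ[K] (Fin 3 → K)) :=
    FiniteDimensional.nonempty_linearEquiv_of_finrank_eq (by simpa using fr)
  letI : Fintype K3 := Fintype.ofFinite _
  letI : Fintype (ℙ K (Fin 3 → K)) := Fintype.ofFinite _
  obtain ⟨ω, hω⟩ : ∃ ω : Ω, ∀ (a : K) (y : K3), ω ≠ algebraMap K Ω a * ψ y := by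
    by_contra h
    push Not at h
    have := Nat.card_le_card_of_surjective (fun x : K × K3 => algebraMap K Ω x.1 * ψ x.2) fun ω => by
      obtain ⟨a, y, h⟩ := h ω
      exact ⟨(a, y), h.symm⟩
    rw [Nat.card_prod, c1, c2, c3, ← pow_add] at this
    have := (Nat.pow_le_pow_iff_right p2).1 this
    omega
  have hω0 : ω ≠ 0 := by simpa using hω 0 0
  have hne : ∀ ω : Ω, ω ≠ 0 → ∀ y : {y : K3 // y ≠ 0}, e (ω * ψ.toRingHom y.1) ≠ 0 :=
    fun ω h y => by simp [h, y.2]
  have hc : Nat.card K < Nat.card K3 := by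
    rw [c1, c2]; exact Nat.pow_lt_pow_right p2 (by omega)
  let Sb := fun (ω : Ω) (h : ω ≠ 0) =>
    univ.image fun y : {y : K3 // y ≠ 0} => Projectivization.mk K _ (hne ω h y)
  have m1 : ∀ ω h l, (((Sb ω h).filter fun x => x ∈ l).card : ZMod p) = 1 := fun ω h l => by
    convert meet_sub p hc ψ.toRingHom e ω h (hne ω h) l
  have m2 : ∀ ω h, (Sb ω h).card ≠ 1 := by
    intro ω h h1
    obtain ⟨x, hx⟩ := card_eq_one.1 h1
    obtain ⟨l, hl⟩ := Configuration.Nondegenerate.exists_line (L := ℙ K (Fin 3 → K)) x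
    have := m1 ω h l
    rw [hx, filter_singleton, if_neg hl] at this
    simp at this
  have m3 : ∀ ω h, (Sb ω h).card ≤ p ^ 6 := fun ω h => by
    refine card_image_le.trans ?_
    rw [card_univ, ← c2, Nat.card_eq_fintype_card]
    exact Fintype.card_subtype_le _
  set o := Configuration.ProjectivePlane.order (ℙ K (Fin 3 → K)) (ℙ K (Fin 3 → K))
  have d1 : Fintype.card (ℙ K (Fin 3 → K)) = o ^ 2 + o + 1 :=
    Configuration.ProjectivePlane.card_points _ _
  have d2 : Fintype.card (ℙ K (Fin 3 → K)) = (p ^ 4) ^ 2 + p ^ 4 + 1 := by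
    rw [← Nat.card_eq_fintype_card, Projectivization.card_of_finrank K _ (n := 3) (by simp), c1]
    simp [sum_range_succ]; ring
  have d3 : o = p ^ 4 := by
    rw [d1] at d2
    rcases lt_trichotomy o (p ^ 4) with h | h | h
    · nlinarith
    · exact h
    · nlinarith
  have d4 : 16 ≤ p ^ 4 := by simpa using Nat.pow_le_pow_left p2 4
  refine ⟨ℙ K (Fin 3 → K), inferInstance, p ^ 4, ⟨⟨fun l => univ.filter fun x => x ∈ l,
    Sb 1 one_ne_zero, Sb ω hω0, ?_, fun x => ?_, fun x y h l l' a b c d => ?_, fun l l' => ?_,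
    fun l => ?_, fun l => ?_, d2, by omega, m2 _ one_ne_zero, m2 _ hω0, ?_⟩⟩⟩
  · rw [disjoint_left]
    intro x a b
    obtain ⟨y, -, rfl⟩ := mem_image.1 a
    obtain ⟨y', -, h⟩ := mem_image.1 b
    obtain ⟨a, ha⟩ := (Projectivization.mk_eq_mk_iff' K _ _ _ _).1 h
    rw [← map_smul, e.injective.eq_iff, Algebra.smul_def] at ha
    refine hω a (y.1 / y'.1) ?_
    rw [map_div₀, ← mul_div_assoc, eq_div_iff (by simpa using y'.2)]
    simpa using ha.symm
  · have := Configuration.ProjectivePlane.lineCount_eq (ℙ K (Fin 3 → K)) x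
    rw [Configuration.lineCount, Nat.card_eq_fintype_card, Fintype.card_subtype] at this
    rw [← d3, ← this]
    congr 1; ext; simp
  · simp only [mem_filter, mem_univ, true_and] at a b c d
    exact (Configuration.Nondegenerate.eq_or_eq a b c d).resolve_left h
  · by_cases h : l = l'
    · have := Configuration.ProjectivePlane.pointCount_eq (ℙ K (Fin 3 → K)) l
      rw [Configuration.pointCount, Nat.card_eq_fintype_card, Fintype.card_subtype] at this
      rw [← h, inter_self, this]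
      change ((o + 1 : ℕ) : ZMod p) = 1
      simp [d3]
    · obtain ⟨x, hx, hx'⟩ := Configuration.HasPoints.existsUnique_point (ℙ K (Fin 3 → K)) _ l l' h
      rw [card_eq_one.2 ⟨x, ?_⟩, Nat.cast_one]
      ext y
      simp only [mem_inter, mem_filter, mem_univ, true_and, mem_singleton]
      exact ⟨hx' y, fun e => e ▸ hx⟩
  · rw [← m1 1 one_ne_zero l]; congr 2; ext; simp
  · rw [← m1 ω hω0 l]; congr 2; ext; simp [and_comm]
  · have a1 := m3 1 one_ne_zero
    have a2 := m3 ω hω0
    have a3 := card_union_le (Sb 1 one_ne_zero) (Sb ω hω0)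
    have a4 := card_sdiff_add_card_eq_card (subset_univ (Sb 1 one_ne_zero ∪ Sb ω hω0))
    rw [card_univ, d2] at a4
    have a5 : 2 * p ^ 6 ≤ (p ^ 4) ^ 2 := by
      have : p ^ 6 * 2 ≤ p ^ 6 * p ^ 2 := Nat.mul_le_mul_left _ (by nlinarith)
      rw [show (p ^ 4) ^ 2 = p ^ 6 * p ^ 2 by ring]; omega
    intro h
    have : (univ \ (Sb 1 one_ne_zero ∪ Sb ω hω0)).card = 1 := by convert h
    omega

end Crest.Agent.H6.Kap
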