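import Mathlib
import Crest.Agent.H6.KMoves

/-! Chains on free `G`-sets, Fox chains, and the torsion-freeness chase. -/

namespace Crest.Agent.H6.Kap

open Finset Finsupp

variable {G : Type} [Group G] {X : Type}

/-- translation of chains -/
noncomputable def tr (g : G) : (G × X →₀ ℤ) →+ (G × X →₀ ℤ) :=
  mapDomain.addMonoidHom fun p => (g * p.1, p.2)

@[simp] theorem tr_single (g h : G) (x : X) (n : ℤ) :
    tr g (single (h, x) n) = single (g * h, x) n := by simp [tr]

theorem chain_ext {Y A : Type} [AddCommGroup A] {a b : (Y →₀ ℤ) →+ A}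
    (h : ∀ y, a (single y 1) = b (single y 1)) (c : Y →₀ ℤ) : a c = b c := by
  have : a = b := Finsupp.addHom_ext' fun y => AddMonoidHom.ext_int (h y)
  rw [this]

theorem tr_tr (g h : G) (c : G × X →₀ ℤ) : tr g (tr h c) = tr (g * h) c :=
  chain_ext (a := (tr g).comp (tr h)) (fun ⟨k, x⟩ => by simp [mul_assoc]) c

@[simp] theorem tr_one (c : G × X →₀ ℤ) : tr 1 c = c :=
  chain_ext (b := AddMonoidHom.id _) (fun ⟨k, x⟩ => by simp) c

/-- additive map from values on the basis -/
noncomputable def lin {Y A : Type} [AddCommGroup A] (v : Y → A) : (Y →₀ ℤ) →+ A :=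
  liftAddHom fun y => zmultiplesHom A (v y)

@[simp] theorem lin_single {Y A : Type} [AddCommGroup A] (v : Y → A) (y : Y) (n : ℤ) :
    lin v (single y n) = n • v y := by simp [lin]

open Classical in
/-- restriction to a set of group coordinates -/
noncomputable def res (t : G → Prop) : (G × X →₀ ℤ) →+ (G × X →₀ ℤ) :=
  lin fun p => if t p.1 then single p 1 else 0

theorem exists_transversal (H : Subgroup G) : ∃ t : G → Prop, ∀ g, ∃! η : H, t ((η : G)⁻¹ * g) := by
  refine ⟨fun g => (Quotient.mk (QuotientGroup.rightRel H) g).out = g, fun g => ?_⟩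
  have h1 : ∀ η : H, Quotient.mk (QuotientGroup.rightRel H) ((η : G)⁻¹ * g) =
      Quotient.mk (QuotientGroup.rightRel H) g := fun η =>
    Quotient.sound (QuotientGroup.rightRel_apply.2 (by simp))
  have h2 := QuotientGroup.rightRel_apply.1 (Quotient.mk_out (s := QuotientGroup.rightRel H) g)
  refine ⟨⟨_, h2⟩, ?_, fun η hη => Subtype.ext ?_⟩
  · have := h1 ⟨_, h2⟩
    simp only [this]; simp
  · simp only [h1] at hη
    simp [hη]

theorem higman {H : Subgroup G} [Fintype H] {t : G → Prop} (ht : ∀ g, ∃! η : H, t ((η : G)⁻¹ * g))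
    (c : G × X →₀ ℤ) : ∑ η : H, tr (η : G) (res t (tr (η : G)⁻¹ c)) = c := by
  classical
  have := chain_ext (a := ∑ η : H, (tr (η : G)).comp ((res t).comp (tr (η : G)⁻¹)))
    (b := AddMonoidHom.id _) (fun ⟨g, x⟩ => by
      obtain ⟨η, h1, h2⟩ := ht g
      rw [AddMonoidHom.finset_sum_apply, Finset.sum_eq_single η]
      · simp [res, h1]
      · intro b _ hb
        have : ¬ t ((b : G)⁻¹ * g) := fun h => hb (h2 b h)
        simp [res, this]
      · simp) c
  simpa [AddMonoidHom.finset_sum_apply] using this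

theorem chase {E P : Type} (d1 : (G × P →₀ ℤ) →+ (G × Unit →₀ ℤ))
    (d2 : (G × E →₀ ℤ) →+ (G × P →₀ ℤ)) (L : (G × P →₀ ℤ) →+ (G × E →₀ ℤ))
    (Q : (G × E →₀ ℤ) →+ (G × E →₀ ℤ)) (cx : G → G × P →₀ ℤ)
    (e1 : ∀ g y, d1 (tr g y) = tr g (d1 y)) (e2 : ∀ g y, d2 (tr g y) = tr g (d2 y))
    (e3 : ∀ g y, Q (tr g y) = tr g (Q y)) (e4 : ∀ t y, Q (res t y) = res t (Q y))
    (h1 : ∀ y, Q (L y) = L y) (h2 : ∀ z, Q z = z → L (d2 z) = z) (h3 : ∀ z, Q z = z → d1 (d2 z) = 0)
    (h4 : ∀ y, d1 y = 0 → d2 (L y) = y)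
    (h5 : ∀ g, d1 (cx g) = single (g, ()) 1 - single (1, ()) 1)
    (h6 : ∀ y, lin (fun _ => (1 : ℤ)) (d1 y) = 0) (g : G) (hg : IsOfFinOrder g) : g = 1 := by
  classical
  let H := Subgroup.zpowers g
  haveI : Finite H := finite_zpowers.2 hg
  letI : Fintype H := Fintype.ofFinite H
  obtain ⟨t, ht⟩ := exists_transversal H
  let R : (G × P →₀ ℤ) →+ (G × E →₀ ℤ) :=
    ∑ η : H, (tr (η : G)).comp ((res t).comp (L.comp (tr (η : G)⁻¹)))
  have R0 : ∀ y, R y = ∑ η : H, tr (η : G) (res t (L (tr (η : G)⁻¹ y))) := fun y => by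
    simp [R, AddMonoidHom.finset_sum_apply]
  have R1 : ∀ (a : H) y, R (tr (a : G) y) = tr (a : G) (R y) := by
    intro a y
    rw [R0, R0, map_sum, ← Equiv.sum_comp (Equiv.mulLeft a)]
    simp [tr_tr]
  have R2 : ∀ y, Q (R y) = R y := fun y => by simp [R0, e3, e4, h1]
  have R3 : ∀ z, Q z = z → R (d2 z) = z := by
    intro z hz
    rw [R0, ← higman ht z]
    refine sum_congr rfl fun η _ => ?_
    rw [higman ht z, ← e2, h2 _ (by rw [e3, hz])]
  let Ee : (G × P →₀ ℤ) →+ (G × P →₀ ℤ) := AddMonoidHom.id _ - d2.comp R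
  have E0 : ∀ y, Ee y = y - d2 (R y) := fun y => rfl
  have E1 : ∀ y, d1 y = 0 → Ee y = 0 := fun y hy => by
    rw [E0, ← h4 y hy, R3 _ (h1 y), sub_self]
  have E2 : ∀ y, d1 (Ee y) = d1 y := fun y => by rw [E0, map_sub, h3 _ (R2 y), sub_zero]
  have E3 : ∀ (a : H) y, Ee (tr (a : G) y) = tr (a : G) (Ee y) := fun a y => by
    rw [E0, E0, R1, e2, map_sub]
  let e0 : G × Unit →₀ ℤ :=
    single (1, ()) 1 - ∑ η : H, tr (η : G) (d1 (res t (Ee (cx (η : G)⁻¹))))
  have inv : ∀ a : H, tr (a : G) e0 = e0 := by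
    intro a
    have b1 : ∀ η : H, Ee (cx ((η : G)⁻¹ * a)) = Ee (cx (η : G)⁻¹) + tr (η : G)⁻¹ (Ee (cx a)) := by
      intro η
      have := E1 (cx ((η : G)⁻¹ * a) - cx (η : G)⁻¹ - tr (η : G)⁻¹ (cx a)) (by
        simp [h5, e1])
      rw [map_sub, map_sub, ← Subgroup.coe_inv, E3, sub_sub, sub_eq_zero] at this
      exact this
    have b2 : ∑ η : H, tr (η : G) (d1 (res t (tr (η : G)⁻¹ (Ee (cx a))))) =
        single ((a : G), ()) 1 - single (1, ()) 1 := by
      rw [← h5, ← E2, ← congrArg d1 (higman ht (Ee (cx a))), map_sum]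
      simp [e1]
    simp only [e0, map_sub, map_sum, tr_tr, tr_single, mul_one]
    rw [← Equiv.sum_comp (Equiv.mulLeft a⁻¹)]
    simp only [Equiv.coe_mulLeft, Subgroup.coe_mul, Subgroup.coe_inv, mul_inv_cancel_left,
      mul_inv_rev, inv_inv, b1, map_add, sum_add_distrib, b2]
    abel
  let aug : (G × Unit →₀ ℤ) →+ ℤ := lin fun _ => (1 : ℤ)
  have a1 : ∀ k y, aug (tr k y) = aug y := fun k y =>
    chain_ext (a := aug.comp (tr k)) (fun ⟨h, x⟩ => by simp [aug]) y
  have a2 : aug e0 = 1 := by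
    simp only [e0, map_sub, map_sum, a1]
    simp [aug, h6]
  have a3 := congrArg aug (higman ht e0)
  simp only [map_sum, a1, ← Subgroup.coe_inv, inv, sum_const, card_univ, a2, nsmul_eq_mul] at a3
  have a4 : Fintype.card H = 1 := by
    have := Int.eq_one_of_mul_eq_one_right (Nat.cast_nonneg _) a3
    exact_mod_cast this
  have := Fintype.card_le_one_iff.1 a4.le ⟨g, Subgroup.mem_zpowers g⟩ 1
  exact congrArg Subtype.val this

section fox

variable {P : Type} (f : FreeGroup P →* G)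

/-- chain of a letter -/
noncomputable def lc (g : G) : P × Bool → (G × P →₀ ℤ)
  | (x, true) => single (g, x) 1
  | (x, false) => - single (g * f (FreeGroup.mk [(x, false)]), x) 1

/-- chain of a word -/
noncomputable def foxL : G → List (P × Bool) → (G × P →₀ ℤ)
  | _, [] => 0
  | g, l :: L => lc f g l + foxL (g * f (FreeGroup.mk [l])) L

theorem mk_cons (l : P × Bool) (L : List (P × Bool)) :
    FreeGroup.mk (l :: L) = FreeGroup.mk [l] * FreeGroup.mk L := by simp [FreeGroup.mul_mk]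

theorem foxL_append (L L' : List (P × Bool)) :
    ∀ g, foxL f g (L ++ L') = foxL f g L + foxL f (g * f (FreeGroup.mk L)) L' := by
  induction L with
  | nil => intro g; simp [foxL, ← FreeGroup.one_eq_mk]
  | cons l L ih =>
    intro g
    rw [List.cons_append, foxL, foxL, ih, mk_cons l L, map_mul, add_assoc, mul_assoc]

theorem lc_rv (g : G) (l : P × Bool) : lc f (g * f (FreeGroup.mk [l])) (rv l) = - lc f g l := by
  obtain ⟨x, _ | _⟩ := l
  · simp [lc, rv]
  · have := mk_rv (x, true)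
    simp only [rv, Bool.not_true] at this
    simp only [lc, rv, Bool.not_true, this, map_inv, mul_inv_cancel_right]

/-- Fox chain of an element of the free group -/
noncomputable def fox (g : G) : FreeGroup P → (G × P →₀ ℤ) :=
  Quot.lift (foxL f g) (by
    rintro _ _ ⟨⟩
    rename_i L L' x b
    rw [foxL_append, foxL_append, foxL, foxL, ← add_assoc (lc f _ _),
      show (x, !b) = rv (x, b) from rfl, lc_rv, add_neg_cancel, zero_add, mk_rv, map_inv,
      mul_inv_cancel_right])

theorem fox_mk (g : G) (L : List (P × Bool)) : fox f g (FreeGroup.mk L) = foxL f g L := rfl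

@[simp] theorem fox_one (g : G) : fox f g 1 = 0 := rfl

theorem fox_mul (g : G) (w w' : FreeGroup P) :
    fox f g (w * w') = fox f g w + fox f (g * f w) w' := by
  rcases w with ⟨L⟩; rcases w' with ⟨L'⟩
  exact foxL_append f L L' g

theorem fox_letter (g : G) (l : P × Bool) : fox f g (FreeGroup.mk [l]) = lc f g l := by
  simp [fox_mk, foxL]

theorem fox_inv (g : G) (w : FreeGroup P) : fox f (g * f w) w⁻¹ = - fox f g w := by
  rw [eq_neg_iff_add_eq_zero, add_comm, ← fox_mul, mul_inv_cancel, fox_one]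

theorem free_ind {Q : FreeGroup P → Prop} (h1 : Q 1)
    (h2 : ∀ l w, Q w → Q (FreeGroup.mk [l] * w)) (w : FreeGroup P) : Q w := by
  rcases w with ⟨L⟩
  change Q (FreeGroup.mk L)
  induction L with
  | nil => exact h1
  | cons l L ih => rw [mk_cons]; exact h2 l _ ih

/-- boundary in the Cayley graph -/
noncomputable def bd1 : (G × P →₀ ℤ) →+ (G × Unit →₀ ℤ) :=
  lin fun p => single (p.1 * f (FreeGroup.mk [(p.2, true)]), ()) 1 - single (p.1, ()) 1

theorem bd1_fox (w : FreeGroup P) :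
    ∀ g, bd1 f (fox f g w) = single (g * f w, ()) 1 - single (g, ()) 1 := by
  induction w using free_ind with
  | h1 => simp
  | h2 l w ih =>
    intro g
    rw [fox_mul, map_add, ih, fox_letter, map_mul, ← mul_assoc]
    obtain ⟨x, _ | _⟩ := l
    · have := mk_rv (x, false)
      simp only [rv, Bool.not_false] at this
      simp only [lc, bd1, map_neg, lin_single, one_smul, this, map_inv, mul_inv_cancel_right]
      abel
    · simp [lc, bd1]

theorem bd1_tr (g : G) (y : G × P →₀ ℤ) : bd1 f (tr g y) = tr g (bd1 f y) :=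
  chain_ext (a := (bd1 f).comp (tr g)) (b := (tr g).comp (bd1 f))
    (fun ⟨h, x⟩ => by simp [bd1, mul_assoc]) y

end fox

end Crest.Agent.H6.Kap
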