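import Mathlib
import Crest.Agent.H6.KChain
import Crest.Agent.H6.KArea

/-! The group of a labelled graph and its relation module. -/

namespace Crest.Agent.H6.Kap

open Finset Finsupp Equiv

variable {P E W B C : Type} (M : Mdl P E W B C) (π : Perm E)

/-- chain of a dart -/
noncomputable def ec : E × Bool → (E →₀ ℤ)
  | (e, true) => single e 1
  | (e, false) => - single e 1

theorem ec_rv (d : E × Bool) : ec (rv d) = - ec d := by
  obtain ⟨e, _ | _⟩ := d <;> simp [ec, rv]

namespace Mdl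

/-- paths with their value and chain -/
inductive Pt (u : W ⊕ B) : FreeGroup P → (E →₀ ℤ) → W ⊕ B → Prop
  | nil : Pt u 1 0 u
  | snoc {w c} (d : E × Bool) : Pt u w c (M.tl π d) →
      Pt u (w * FreeGroup.mk [M.dl d]) (c + ec d) (M.hd π d)

variable {M π}

theorem Pt.single (d : E × Bool) : M.Pt π (M.tl π d) (FreeGroup.mk [M.dl d]) (ec d) (M.hd π d) := by
  simpa using Pt.snoc d Pt.nil

theorem Pt.trans {u v x : W ⊕ B} {w w' : FreeGroup P} {c c' : E →₀ ℤ} (h : M.Pt π u w c v)
    (h' : M.Pt π v w' c' x) : M.Pt π u (w * w') (c + c') x := by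
  induction h' with
  | nil => simpa using h
  | snoc d _ ih => rw [← mul_assoc, ← add_assoc]; exact ih.snoc d

theorem Pt.symm {u v : W ⊕ B} {w : FreeGroup P} {c : E →₀ ℤ} (h : M.Pt π u w c v) :
    M.Pt π v w⁻¹ (-c) u := by
  induction h with
  | nil => simpa using Pt.nil
  | snoc d _ ih =>
    have := (Pt.single (M := M) (π := π) (rv d))
    rw [hd_rv] at this
    have := this.trans ih
    rwa [tl_rv, dl_rv, mk_rv, ec_rv, ← mul_inv_rev, ← neg_add_rev] at this

theorem wv_congr {f f' : ℕ → P × Bool} {n : ℕ} (h : ∀ i < n, f i = f' i) : wv f n = wv f' n := by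
  unfold wv
  rw [List.map_congr_left fun i hi => h i (List.mem_range.1 hi)]

theorem Pt.wk [Nonempty E] {u v : W ⊕ B} {w : FreeGroup P} {c : E →₀ ℤ} (h : M.Pt π u w c v) :
    ∃ τ z n, M.Wk π τ z n ∧ Red z n ∧ τ 0 = u ∧ τ n = v ∧ w = wv (fun i => M.dl (z i)) n ∧
      c = ∑ i ∈ range n, ec (z i) := by
  induction h with
  | nil =>
    exact ⟨fun _ => u, fun _ => (Classical.arbitrary E, true), 0, fun i hi => by omega,
      fun i hi => by omega, rfl, rfl, rfl, rfl⟩
  | snoc d _ ih =>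
    obtain ⟨τ, z, n, h1, h2, h3, h4, rfl, rfl⟩ := ih
    by_cases hc : 0 < n ∧ d = rv (z (n - 1))
    · obtain ⟨m, rfl⟩ : ∃ m, n = m + 1 := ⟨n - 1, by omega⟩
      obtain ⟨-, rfl⟩ := hc
      refine ⟨τ, z, m, fun i hi => h1 i (by omega), fun i hi => h2 i (by omega), h3, ?_, ?_, ?_⟩
      · simpa using (h1 m (by omega)).1.symm
      · rw [wv_succ, add_tsub_cancel_right, dl_rv, mk_rv, mul_inv_cancel_right]
      · simp [sum_range_succ, ec_rv]
    · refine ⟨Function.update τ (n + 1) (M.hd π d), Function.update z n d, n + 1, fun i hi => ?_,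
        fun i hi => ?_, by simpa using h3, by simp, ?_, ?_⟩
      · rw [Function.update_of_ne (show i ≠ n + 1 by omega)]
        by_cases e : i = n
        · simp [e, h4]
        · rw [Function.update_of_ne e, Function.update_of_ne (show i + 1 ≠ n + 1 by omega)]
          exact h1 i (by omega)
      · rw [Function.update_of_ne (show i ≠ n by omega)]
        by_cases e : i + 1 = n
        · subst e
          rw [Function.update_self]
          exact fun h => hc ⟨by omega, h⟩
        · rw [Function.update_of_ne e]; exact h2 i (by omega)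
      · rw [wv_succ, Function.update_self]
        congr 1
        exact wv_congr fun i hi => by rw [Function.update_of_ne hi.ne]
      · rw [sum_range_succ, Function.update_self]
        congr 1
        exact sum_congr rfl fun i hi => by rw [Function.update_of_ne (mem_range.1 hi).ne]

variable (M π)

/-- connectedness -/
def cn : Setoid (W ⊕ B) :=
  ⟨fun u v => ∃ w c, M.Pt π u w c v, fun _ => ⟨_, _, Pt.nil⟩, fun ⟨_, _, h⟩ => ⟨_, _, h.symm⟩,
    fun ⟨_, _, h⟩ ⟨_, _, h'⟩ => ⟨_, _, h.trans h'⟩⟩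

/-- root of the component -/
noncomputable def rt (v : W ⊕ B) : W ⊕ B := (Quotient.mk (M.cn π) v).out

theorem exists_pt (v : W ⊕ B) : ∃ w c, M.Pt π (M.rt π v) w c v := Quotient.mk_out (s := M.cn π) v

/-- value of the chosen path from the root -/
noncomputable def σ (v : W ⊕ B) : FreeGroup P := (M.exists_pt π v).choose
/-- chain of the chosen path from the root -/
noncomputable def pσ (v : W ⊕ B) : E →₀ ℤ := (M.exists_pt π v).choose_spec.choose

theorem pt_σ (v : W ⊕ B) : M.Pt π (M.rt π v) (M.σ π v) (M.pσ π v) v :=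
  (M.exists_pt π v).choose_spec.choose_spec

variable {M π} in
theorem Pt.rt_eq {u v : W ⊕ B} {w : FreeGroup P} {c : E →₀ ℤ} (h : M.Pt π u w c v) :
    M.rt π u = M.rt π v := by
  unfold rt; rw [Quotient.sound (s := M.cn π) ⟨w, c, h⟩]

/-- the relators -/
noncomputable def ρ (e : E) : FreeGroup P :=
  M.σ π (M.tl π (e, true)) * FreeGroup.mk [M.dl (e, true)] * (M.σ π (M.hd π (e, true)))⁻¹

/-- fundamental cycles -/
noncomputable def cyc (e : E) : E →₀ ℤ :=
  M.pσ π (M.tl π (e, true)) + ec (e, true) + - M.pσ π (M.hd π (e, true))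

theorem pt_ρ (e : E) : M.Pt π (M.rt π (M.tl π (e, true))) (M.ρ π e) (M.cyc π e)
    (M.rt π (M.tl π (e, true))) := by
  have := ((M.pt_σ π _).snoc (e, true)).trans (M.pt_σ π _).symm
  rwa [← (Pt.single (M := M) (π := π) (e, true)).rt_eq] at this

/-- the group -/
abbrev Gp : Type := PresentedGroup (Set.range (M.ρ π))

/-- the quotient map -/
def fG : FreeGroup P →* M.Gp π := PresentedGroup.mk _

/-- position of a vertex -/
noncomputable def av (v : W ⊕ B) : M.Gp π := M.fG π (M.σ π v)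

theorem fG_ρ (e : E) : M.fG π (M.ρ π e) = 1 := PresentedGroup.one_of_mem ⟨e, rfl⟩

theorem av_hd (d : E × Bool) :
    M.av π (M.hd π d) = M.av π (M.tl π d) * M.fG π (FreeGroup.mk [M.dl d]) := by
  have h : ∀ e, M.av π (M.hd π (e, true)) =
      M.av π (M.tl π (e, true)) * M.fG π (FreeGroup.mk [M.dl (e, true)]) := fun e => by
    have := M.fG_ρ π e
    rw [ρ, map_mul, map_mul, map_inv, mul_inv_eq_one] at this
    exact this.symm
  obtain ⟨e, _ | _⟩ := d
  · have := h e
    change M.av π (M.tl π (e, true)) =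
      M.av π (M.hd π (e, true)) * M.fG π (FreeGroup.mk [rv (M.dl (e, true))])
    rw [this, mk_rv, map_inv, mul_inv_cancel_right]
  · exact h e

variable {M π} in
theorem Pt.av_eq {u v : W ⊕ B} {w : FreeGroup P} {c : E →₀ ℤ} (h : M.Pt π u w c v) :
    M.av π v = M.av π u * M.fG π w := by
  induction h with
  | nil => simp
  | snoc d _ ih => rw [av_hd, ih, map_mul, mul_assoc]

theorem av_rt (v : W ⊕ B) : M.av π (M.rt π v) = 1 := by
  have := (M.pt_σ π v).av_eq
  exact (right_eq_mul.1 this)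

/-- placing a chain in a copy of the graph -/
noncomputable def place {G : Type} (g : G) : (E →₀ ℤ) →+ (G × E →₀ ℤ) :=
  mapDomain.addMonoidHom fun e => (g, e)

@[simp] theorem place_single {G : Type} (g : G) (e : E) (n : ℤ) :
    place g (Finsupp.single e n) = Finsupp.single (g, e) n := by simp [place]

theorem tr_place {G : Type} [Group G] (g h : G) (c : E →₀ ℤ) : tr g (place h c) = place (g * h) c :=
  chain_ext (a := (tr g).comp (place h)) (fun e => by simp) c

/-- class of a placed dart -/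
noncomputable def cl (g : M.Gp π) (d : E × Bool) : M.Gp π × E →₀ ℤ :=
  place (g * (M.av π (M.tl π d))⁻¹) (ec d)

theorem hcl (g : M.Gp π) (d : E × Bool) :
    M.cl π (g * M.fG π (FreeGroup.mk [M.dl d])) (rv d) = - M.cl π g d := by
  simp [cl, av_hd, ec_rv, mul_assoc]

/-- products of conjugates of closed paths with their classes -/
inductive Kp : FreeGroup P → (M.Gp π × E →₀ ℤ) → Prop
  | one : Kp 1 0
  | mul {w w' c c'} : Kp w c → Kp w' c' → Kp (w * w') (c + c')
  | gen {v w c} (u : FreeGroup P) : M.Pt π v w c v →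
      Kp (u * w * u⁻¹) (place (M.fG π u * (M.av π v)⁻¹) c)

variable {M π}

theorem Kp.inv {w : FreeGroup P} {c : M.Gp π × E →₀ ℤ} (h : M.Kp π w c) : M.Kp π w⁻¹ (-c) := by
  induction h with
  | one => simpa using Kp.one
  | mul _ _ ih ih' => rw [mul_inv_rev, neg_add_rev]; exact ih'.mul ih
  | gen u h =>
    have := Kp.gen u h.symm
    rwa [map_neg, ← conj_inv] at this

theorem Kp.conj {w : FreeGroup P} {c : M.Gp π × E →₀ ℤ} (h : M.Kp π w c) (u : FreeGroup P) :
    M.Kp π (u * w * u⁻¹) (tr (M.fG π u) c) := by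
  induction h with
  | one => simpa using Kp.one
  | mul _ _ ih ih' =>
    have := ih.mul ih'
    rwa [conj_mul, ← map_add] at this
  | gen u' h =>
    have := Kp.gen (u * u') h
    rw [tr_place, ← mul_assoc (M.fG π u), ← map_mul]
    convert this using 1
    group

theorem Kp.f_eq {w : FreeGroup P} {c : M.Gp π × E →₀ ℤ} (h : M.Kp π w c) : M.fG π w = 1 := by
  induction h with
  | one => simp
  | mul _ _ ih ih' => simp [ih, ih']
  | gen u h => simp [left_eq_mul.1 h.av_eq]

theorem Kp.exists {w : FreeGroup P} (h : M.fG π w = 1) : ∃ c, M.Kp π w c := by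
  let N : Subgroup (FreeGroup P) :=
    { carrier := {w | ∃ c, M.Kp π w c}
      mul_mem' := fun ⟨_, a⟩ ⟨_, b⟩ => ⟨_, a.mul b⟩
      one_mem' := ⟨_, Kp.one⟩
      inv_mem' := fun ⟨_, a⟩ => ⟨_, a.inv⟩ }
  haveI : N.Normal := ⟨fun _ ⟨_, a⟩ u => ⟨_, a.conj u⟩⟩
  refine Subgroup.normalClosure_le_normal (N := N) ?_ (PresentedGroup.mk_eq_one_iff.1 h)
  rintro _ ⟨e, rfl⟩
  exact ⟨_, by simpa using Kp.gen 1 (M.pt_ρ π e)⟩

theorem Wk.pt {τ : ℕ → W ⊕ B} {z : ℕ → E × Bool} {n : ℕ} (h : M.Wk π τ z n) :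
    ∀ i ≤ n, M.Pt π (τ 0) (wv (fun i => M.dl (z i)) i) (∑ j ∈ range i, ec (z j)) (τ i) := by
  intro i
  induction i with
  | zero => exact fun _ => Pt.nil
  | succ i ih =>
    intro hi
    rw [wv_succ, sum_range_succ, ← (h i hi).2]
    exact Pt.snoc _ (by rw [(h i hi).1]; exact ih (by omega))

theorem Kp.has [Nonempty E] (v0 : W ⊕ B) {w : FreeGroup P} {c : M.Gp π × E →₀ ℤ}
    (h : M.Kp π w c) : Has M π (M.fG π) (M.cl π) False v0 v0 w (-c) := by
  induction h with
  | one => simpa using Has.one (Classical.arbitrary E, true)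
  | mul _ _ ih ih' => rw [neg_add]; exact ih.mul ih'
  | gen u h =>
    induction u using free_ind with
    | h1 =>
      have h0 := left_eq_mul.1 h.av_eq
      obtain ⟨τ, z, n, h1, -, h3, h4, rfl, rfl⟩ := h.wk
      have := Has.polygon (v0 := v0) (M.hcl π) h1 (h4.trans h3.symm) h0
      simp only [one_mul, inv_one, mul_one, map_one, map_sum]
      rwa [sum_congr rfl fun i hi => ?_] at this
      rw [cl, (h1 i (mem_range.1 hi)).1, (h1.pt i (mem_range.1 hi).le).av_eq, h3]
      simp
    | h2 l u ih =>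
      have := ih.conj l (tr (M.fG π (FreeGroup.mk [l]))) fun g d => by
        simp [cl, tr_place, mul_assoc]
      rw [map_neg, tr_place, ← mul_assoc (M.fG π _), ← map_mul] at this
      convert this using 1
      group

variable (M π)

/-- projection onto cycles -/
noncomputable def Qc : (M.Gp π × E →₀ ℤ) →+ (M.Gp π × E →₀ ℤ) :=
  lin fun p => place p.1 (M.cyc π p.2)

/-- map to the Cayley graph -/
noncomputable def d2 : (M.Gp π × E →₀ ℤ) →+ (M.Gp π × P →₀ ℤ) :=
  mapDomain.addMonoidHom fun p => (p.1 * M.av π (Sum.inl (M.src p.2)), M.lab (M.col p.2))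

@[simp] theorem d2_single (g : M.Gp π) (e : E) (n : ℤ) : M.d2 π (Finsupp.single (g, e) n) =
    Finsupp.single (g * M.av π (Sum.inl (M.src e)), M.lab (M.col e)) n := by simp [d2]

variable {M π}

theorem Pt.Qc_eq {u v : W ⊕ B} {w : FreeGroup P} {c : E →₀ ℤ} (h : M.Pt π u w c v) (g : M.Gp π) :
    M.Qc π (place g c) = place g (M.pσ π u + c - M.pσ π v) := by
  induction h with
  | nil => simp
  | snoc d _ ih =>
    rw [map_add, map_add, ih]
    obtain ⟨e, _ | _⟩ := d <;> simp [ec, Qc, cyc] <;> abel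

theorem Pt.d2_eq {u v : W ⊕ B} {w : FreeGroup P} {c : E →₀ ℤ} (h : M.Pt π u w c v) (g : M.Gp π) :
    M.d2 π (place g c) = fox (M.fG π) (g * M.av π u) w := by
  induction h with
  | nil => simp
  | snoc d h ih =>
    rw [map_add, map_add, ih, fox_mul, fox_letter, mul_assoc, ← h.av_eq]
    obtain ⟨e, _ | _⟩ := d
    · have := M.av_hd π (e, false)
      simp only [hd_f, tl_f, dl] at this
      simp [ec, lc, dl, this, mul_assoc]
    · simp [ec, lc, dl]

theorem Kp.Qc_eq {w : FreeGroup P} {c : M.Gp π × E →₀ ℤ} (h : M.Kp π w c) : M.Qc π c = c := by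
  induction h with
  | one => simp
  | mul _ _ ih ih' => simp [ih, ih']
  | gen u h => rw [h.Qc_eq]; simp

theorem Kp.d2_eq {w : FreeGroup P} {c : M.Gp π × E →₀ ℤ} (h : M.Kp π w c) :
    M.d2 π c = fox (M.fG π) 1 w := by
  induction h with
  | one => simp
  | mul h _ ih ih' => rw [map_add, ih, ih', fox_mul, h.f_eq, one_mul]
  | gen u h =>
    rw [h.d2_eq, fox_mul, fox_mul, map_mul, left_eq_mul.1 h.av_eq, mul_one, fox_inv]
    simp

theorem Qc_tr (g : M.Gp π) (y : M.Gp π × E →₀ ℤ) : M.Qc π (tr g y) = tr g (M.Qc π y) :=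
  chain_ext (a := (M.Qc π).comp (tr g)) (b := (tr g).comp (M.Qc π))
    (fun ⟨h, x⟩ => by simp [Qc, tr_place]) y

theorem d2_tr (g : M.Gp π) (y : M.Gp π × E →₀ ℤ) : M.d2 π (tr g y) = tr g (M.d2 π y) :=
  chain_ext (a := (M.d2 π).comp (tr g)) (b := (tr g).comp (M.d2 π))
    (fun ⟨h, x⟩ => by simp [mul_assoc]) y

open Classical in
theorem res_place {G : Type} (t : G → Prop) (g : G) (c : E →₀ ℤ) :
    res t (place g c) = if t g then place g c else 0 := by
  split_ifs with h
  · exact chain_ext (a := (res t).comp (place g)) (fun e => by simp [res, h]) c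
  · exact chain_ext (a := (res t).comp (place g)) (b := 0) (fun e => by simp [res, h]) c

theorem Qc_res (t : M.Gp π → Prop) (y : M.Gp π × E →₀ ℤ) : M.Qc π (res t y) = res t (M.Qc π y) :=
  chain_ext (a := (M.Qc π).comp (res t)) (b := (res t).comp (M.Qc π))
    (fun ⟨h, x⟩ => by
      simp only [Qc, AddMonoidHom.comp_apply, lin_single, one_smul, res_place]
      simp only [res, lin_single, one_smul]
      split_ifs <;> simp) y

theorem d2_cyc (g : M.Gp π) (e : E) :
    M.d2 π (place g (M.cyc π e)) = fox (M.fG π) g (M.ρ π e) := by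
  rw [(M.pt_ρ π e).d2_eq, av_rt, mul_one]

theorem bd1_d2 {z : M.Gp π × E →₀ ℤ} (h : M.Qc π z = z) : bd1 (M.fG π) (M.d2 π z) = 0 := by
  rw [← h]
  exact chain_ext (a := (bd1 (M.fG π)).comp ((M.d2 π).comp (M.Qc π))) (b := 0)
    (fun ⟨g, e⟩ => by simp [Qc, d2_cyc, bd1_fox, fG_ρ]) z

variable (M π)

theorem fG_surj : Function.Surjective (M.fG π) := PresentedGroup.mk_surjective _

/-- a section of the quotient map -/
noncomputable def sec (g : M.Gp π) : FreeGroup P := (M.fG_surj π g).choose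

@[simp] theorem fG_sec (g : M.Gp π) : M.fG π (M.sec π g) = g := (M.fG_surj π g).choose_spec

theorem exists_fill (g : M.Gp π) (x : P) : ∃ c, M.Kp π (M.sec π g * FreeGroup.mk [(x, true)] *
    (M.sec π (g * M.fG π (FreeGroup.mk [(x, true)])))⁻¹) c :=
  Kp.exists (by simp)

/-- the filling map -/
noncomputable def Lam : (M.Gp π × P →₀ ℤ) →+ (M.Gp π × E →₀ ℤ) :=
  lin fun p => (M.exists_fill π p.1 p.2).choose

theorem kp_Lam (w : FreeGroup P) : ∀ g, M.Kp π (M.sec π g * w * (M.sec π (g * M.fG π w))⁻¹)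
    (M.Lam π (fox (M.fG π) g w)) := by
  induction w using free_ind with
  | h1 => simpa using Kp.one
  | h2 l w ih =>
    intro g
    have h1 : M.Kp π (M.sec π g * FreeGroup.mk [l] * (M.sec π (g * M.fG π (FreeGroup.mk [l])))⁻¹)
        (M.Lam π (lc (M.fG π) g l)) := by
      obtain ⟨x, _ | _⟩ := l
      · have e := mk_rv (x, false)
        simp only [rv, Bool.not_false] at e
        have := (M.exists_fill π (g * M.fG π (FreeGroup.mk [(x, false)])) x).choose_spec.inv
        simp only [lc, Lam, map_neg, lin_single, one_smul]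
        convert this using 1
        rw [e, map_inv, mul_inv_cancel_right]; group
      · simpa [lc, Lam] using (M.exists_fill π g x).choose_spec
    have := h1.mul (ih (g * M.fG π (FreeGroup.mk [l])))
    rw [fox_mul, map_add, fox_letter, map_mul, ← mul_assoc g]
    convert this using 1
    group

theorem Qc_Lam (y : M.Gp π × P →₀ ℤ) : M.Qc π (M.Lam π y) = M.Lam π y :=
  chain_ext (a := (M.Qc π).comp (M.Lam π)) (fun ⟨g, x⟩ => by
    simpa [Lam] using (M.exists_fill π g x).choose_spec.Qc_eq) y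

theorem d2_Lam (y : M.Gp π × P →₀ ℤ) : M.d2 π (M.Lam π y) =
    y - lin (fun p => fox (M.fG π) 1 (M.sec π p.1)) (bd1 (M.fG π) y) :=
  chain_ext (a := (M.d2 π).comp (M.Lam π))
    (b := AddMonoidHom.id _ - (lin fun p => fox (M.fG π) 1 (M.sec π p.1)).comp (bd1 (M.fG π)))
    (fun ⟨g, x⟩ => by
      have := (M.exists_fill π g x).choose_spec.d2_eq
      have e := fox_inv (M.fG π) 1 (M.sec π (g * M.fG π (FreeGroup.mk [(x, true)])))
      rw [fox_mul, fox_mul, fox_letter, map_mul] at this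
      simp only [fG_sec, one_mul] at this e
      simp only [Lam, AddMonoidHom.comp_apply, lin_single, one_smul, this, e, lc, bd1,
        AddMonoidHom.sub_apply, AddMonoidHom.id_apply, map_sub]
      abel) y

/-- The hypotheses under which the group is analysed. -/
structure Ok (root : W) (r g : ℕ) : Prop where
  cp : M.CP π
  girth : M.Girth π g
  hr8 : 8 * r ≤ g
  hlin : Lin M π root r

variable {M π} {root : W} {r g : ℕ} [Nonempty E]

omit [Nonempty E] in
theorem Ok.hr (H : M.Ok π root r g) : 4 * r ≤ g := by have := H.hr8; omega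

theorem Ok.gen_ne (H : M.Ok π root r g) (x : P) : M.fG π (FreeGroup.mk [(x, true)]) ≠ 1 := by
  classical
  intro h
  obtain ⟨c, hc⟩ := Kp.exists h
  have := ((hc.has (Sum.inl root)).area H.cp H.girth H.hr H.hlin (M.hcl π)).2 (by
    have := FreeGroup.norm_mk_le (L₁ := [(x, true)])
    have := H.hr8
    simp only [List.length_singleton] at *
    nlinarith)
  have e := hc.d2_eq
  rw [neg_eq_zero.1 this, map_zero, fox_letter] at e
  exact one_ne_zero (Finsupp.single_eq_zero.1 e.symm)

theorem Ok.kp_unique (H : M.Ok π root r g) {w : FreeGroup P} {c c' : M.Gp π × E →₀ ℤ}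
    (h : M.Kp π w c) (h' : M.Kp π w c') : c = c' := by
  classical
  have := ((h.mul h'.inv).has (Sum.inl root)).area H.cp H.girth H.hr H.hlin (M.hcl π)
  have := this.2 (by simpa using H.hr)
  rwa [neg_eq_zero, ← sub_eq_add_neg, sub_eq_zero] at this

theorem Ok.Lam_d2 (H : M.Ok π root r g) {z : M.Gp π × E →₀ ℤ} (h : M.Qc π z = z) :
    M.Lam π (M.d2 π z) = z := by
  have := chain_ext (a := (M.Lam π).comp ((M.d2 π).comp (M.Qc π))) (b := M.Qc π)
    (fun ⟨g, e⟩ => by
      have a := M.kp_Lam π (M.ρ π e) g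
      have b := Kp.gen (M.sec π g) (M.pt_ρ π e)
      rw [fG_ρ, mul_one] at a
      simp only [av_rt, inv_one, mul_one, fG_sec] at b
      simpa [Qc, d2_cyc] using H.kp_unique a b) z
  simpa [h] using this

theorem Ok.torsionFree (H : M.Ok π root r g) (x : M.Gp π) (hx : IsOfFinOrder x) : x = 1 :=
  chase (bd1 (M.fG π)) (M.d2 π) (M.Lam π) (M.Qc π) (fun g => fox (M.fG π) 1 (M.sec π g))
    (bd1_tr _) d2_tr Qc_tr Qc_res (M.Qc_Lam π) (fun _ => H.Lam_d2) (fun _ => bd1_d2)
    (fun y hy => by rw [d2_Lam, hy]; simp) (fun g => by simp [bd1_fox])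
    (fun y => chain_ext (a := (lin fun _ => (1 : ℤ)).comp (bd1 (M.fG π))) (b := 0)
      (fun ⟨g, x⟩ => by simp [bd1]) y) x hx

theorem Ok.root_inj (H : M.Ok π root r g) {v : W ⊕ B} (h1 : M.rt π v = M.rt π (Sum.inl root))
    (h2 : M.av π v = M.av π (Sum.inl root)) : v = Sum.inl root := by
  have p := (M.pt_σ π (Sum.inl root)).symm.trans (h1 ▸ M.pt_σ π v)
  have q := p.av_eq
  rw [h2, left_eq_mul] at q
  obtain ⟨c, hc⟩ := Kp.exists q
  obtain ⟨τ, z, n, a1, a2, a3, a4, a5, -⟩ := p.wk
  have := hc.has (Sum.inl root)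
  rw [a5] at this
  rw [← a4, this.root_eq H.cp H.girth H.hr H.hlin (M.hcl π) a1 a2 a3, a3]

theorem Ok.area [DecidableEq P] (H : M.Ok π root r g) {w : FreeGroup P} (h : M.fG π w = 1) :
    ∃ (n : ℕ) (γ : Fin n → M.Gp π) (e : Fin n → E) (s : Fin n → ℤ), n ≤ 4 * r * (w.norm + 1) ∧
      (∀ i, s i = 1 ∨ s i = -1) ∧
      fox (M.fG π) 1 w = ∑ i, s i • fox (M.fG π) (γ i) (M.ρ π (e i)) := by
  obtain ⟨c, hc⟩ := Kp.exists h
  obtain ⟨n, γ, d, h1, h2⟩ := ((hc.has (Sum.inl root)).area H.cp H.girth H.hr H.hlin (M.hcl π)).1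
  refine ⟨n, fun i => γ i * (M.av π (M.tl π (d i)))⁻¹, fun i => (d i).1,
    fun i => if (d i).2 then -1 else 1, h1, fun i => by simp only; split_ifs <;> simp, ?_⟩
  rw [← hc.d2_eq, ← hc.Qc_eq, neg_eq_iff_eq_neg.1 h2, map_neg, map_neg, map_sum, map_sum,
    ← sum_neg_distrib]
  refine sum_congr rfl fun i _ => ?_
  simp only
  rcases d i with ⟨e, _ | _⟩ <;> simp [cl, ec, Qc, d2_cyc]

end Mdl

end Crest.Agent.H6.Kap
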