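import Mathlib
import Crest.Agent.H6.KGroup
import Crest.Agent.H3.Hyp

/-! The handshake identities in the group algebra, and hyperbolicity. -/

namespace Crest.Agent.H6.Kap

open Finset Equiv

variable {P E W B C : Type} {M : Mdl P E W B C} {π : Perm E}

namespace Mdl

variable (M) in
/-- Parts and signs. -/
structure Signed (R : Type) [CommRing R] (v0 w0 w1 : W) where
  ptc : C → Fin 3
  pw : W → Fin 3
  sgc : C → R
  sw : W → R
  pw_src : ∀ e, pw (M.src e) = ptc (M.col e)
  sw_src : ∀ e, sw (M.src e) = sgc (M.col e)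
  p0 : pw v0 = 0
  p1 : pw w0 = 1
  p2 : pw w1 = 2
  s0 : sw v0 = 1
  s1 : sw w0 = 1
  s2 : sw w1 = 1
  white : ∀ v w, pw v = 0 → pw w ≠ 0 → ∀ Q : Finset (E × E), (∀ q, q ∈ Q ↔ M.src q.1 = v ∧
    M.src q.2 = w ∧ M.lab (M.col q.1) = M.lab (M.col q.2)) →
      ((v = v0 ∧ w = w0) → (Q.card : R) = 0) ∧ (¬ (v = v0 ∧ w = w0) → (Q.card : R) = 1)
  black : ∀ β β' j, j ≠ 0 → ∀ Q : Finset (E × E), (∀ q, q ∈ Q ↔ M.tg q.1 = β ∧ M.tg q.2 = β' ∧
    ptc (M.col q.1) = 0 ∧ ptc (M.col q.2) = j ∧ M.lab (M.col q.1) = M.lab (M.col q.2)) →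
      ∑ q ∈ Q, sgc (M.col q.1) * sgc (M.col q.2) = 0

variable [Fintype E] [Fintype W] [Fintype B] {R : Type} [CommRing R] {v0 w0 w1 : W}

open Classical in
variable (π) in
/-- white vertices of a part in a component -/
noncomputable def Signed.cmp (S : M.Signed R v0 w0 w1) (j : Fin 3) (u : W) : Finset W :=
  univ.filter fun v => M.rt π (Sum.inl v) = M.rt π (Sum.inl u) ∧ S.pw v = j

open Classical in
theorem Signed.hand (S : M.Signed R v0 w0 w1) (hπ : M.CP π) {j : Fin 3} (hj : j ≠ 0) (u : W) :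
    (∑ v ∈ S.cmp π 0 v0, MonoidAlgebra.single (M.av π (Sum.inl v)) (S.sw v)) *
      (∑ w ∈ S.cmp π j u, MonoidAlgebra.single (M.av π (Sum.inl w))⁻¹ (S.sw w)) =
      if w0 ∈ S.cmp π j u then
        MonoidAlgebra.single (M.av π (Sum.inl v0) * (M.av π (Sum.inl w0))⁻¹) 1 else 0 := by
  let Q := univ.filter fun q : E × E => M.src q.1 ∈ S.cmp π 0 v0 ∧ M.src q.2 ∈ S.cmp π j u ∧
    M.lab (M.col q.1) = M.lab (M.col q.2)
  let F : W × W → MonoidAlgebra R (M.Gp π) := fun p =>
    MonoidAlgebra.single (M.av π (Sum.inl p.1) * (M.av π (Sum.inl p.2))⁻¹) (S.sw p.1 * S.sw p.2)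
  have h1 : ∑ q ∈ Q, F (M.src q.1, M.src q.2) = 0 := by
    rw [← sum_fiberwise_of_maps_to (t := univ) (g := fun q => (M.tg (π q.1), M.tg (π q.2)))
      fun _ _ => mem_univ _]
    refine sum_eq_zero fun b _ => ?_
    have a1 : ∀ e, M.rt π (Sum.inl (M.src e)) = M.rt π (Sum.inr (M.tg (π e))) := fun e =>
      (Pt.single (M := M) (π := π) (e, true)).rt_eq
    have a2 : ∀ e, M.av π (Sum.inr (M.tg (π e))) = M.av π (Sum.inl (M.src e)) *
        M.fG π (FreeGroup.mk [(M.lab (M.col e), true)]) := fun e => M.av_hd π (e, true)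
    by_cases hb : M.rt π (Sum.inr b.1) = M.rt π (Sum.inl v0) ∧ M.rt π (Sum.inr b.2) = M.rt π (Sum.inl u)
    · have a3 := S.black b.1 b.2 j hj (univ.filter _) fun q => mem_filter_univ q
      rw [← sum_equiv (s := Q.filter fun q => (M.tg (π q.1), M.tg (π q.2)) = b)
        (f := fun q => S.sgc (M.col q.1) * S.sgc (M.col q.2)) (π.prodCongr π) ?_
        (fun q _ => by simp [hπ _])] at a3
      · rw [sum_congr rfl (g := fun q => MonoidAlgebra.single
          (M.av π (Sum.inr b.1) * (M.av π (Sum.inr b.2))⁻¹)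
          (S.sgc (M.col q.1) * S.sgc (M.col q.2))) fun q hq => ?_]
        · have := map_sum (MonoidAlgebra.singleAddHom (R := R)
            (M.av π (Sum.inr b.1) * (M.av π (Sum.inr b.2))⁻¹))
            (fun q : E × E => S.sgc (M.col q.1) * S.sgc (M.col q.2))
            (Q.filter fun q => (M.tg (π q.1), M.tg (π q.2)) = b)
          rw [a3, map_zero] at this
          exact this.symm
        · obtain ⟨b1, rfl⟩ := mem_filter.1 hq
          simp only [F, a2, S.sw_src, (mem_filter.1 b1).2.2.2]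
          congr 1; group
      · intro q
        simp only [Q, Signed.cmp, mem_filter, mem_univ, true_and, prodCongr_apply, Prod.map_fst,
          Prod.map_snd, hπ _, a1, S.pw_src, Prod.ext_iff]
        constructor
        · tauto
        · rintro ⟨b1, b2, b3, b4, b5⟩
          rw [b1, b2]; tauto
    · refine sum_eq_zero fun q hq => absurd ?_ hb
      obtain ⟨b1, rfl⟩ := mem_filter.1 hq
      simp only [Q, Signed.cmp, mem_filter, mem_univ, true_and, a1] at b1
      tauto
  have h2 : ∑ q ∈ Q, F (M.src q.1, M.src q.2) = ∑ p ∈ S.cmp π 0 v0 ×ˢ S.cmp π j u,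
      if p = (v0, w0) then 0 else F p := by
    rw [← sum_fiberwise_of_maps_to (t := S.cmp π 0 v0 ×ˢ S.cmp π j u)
      (g := fun q => (M.src q.1, M.src q.2))
      fun q hq => mem_product.2 ⟨(mem_filter.1 hq).2.1, (mem_filter.1 hq).2.2.1⟩]
    refine sum_congr rfl fun p hp => ?_
    obtain ⟨b1, b2⟩ := mem_product.1 hp
    rw [sum_congr rfl (g := fun _ => F p) fun q hq => by rw [(mem_filter.1 hq).2], sum_const,
      ← Nat.cast_smul_eq_nsmul R]
    have := S.white p.1 p.2 (mem_filter.1 b1).2.2 (by rw [(mem_filter.1 b2).2.2]; exact hj)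
      (Q.filter fun q => (M.src q.1, M.src q.2) = p) (fun q => by
        simp only [Q, mem_filter, mem_univ, true_and, Prod.ext_iff]
        constructor
        · tauto
        · rintro ⟨c1, c2, c3⟩
          rw [c1, c2]; tauto)
    split_ifs with c
    · rw [this.1 (Prod.ext_iff.1 c), zero_smul]
    · rw [this.2 fun h => c (Prod.ext_iff.2 h), one_smul]
  have h3 : v0 ∈ S.cmp π 0 v0 := by simp [Signed.cmp, S.p0]
  rw [sum_mul_sum, ← sum_product']
  simp only [MonoidAlgebra.single_mul_single]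
  change ∑ p ∈ _, F p = _
  rw [sum_congr rfl (g := fun p => (if p = (v0, w0) then 0 else F p) +
    if p = (v0, w0) then F p else 0) fun p _ => by split_ifs <;> simp, sum_add_distrib, ← h2, h1,
    zero_add, sum_ite_eq']
  simp [h3, F, S.s0, S.s1]

theorem Ok.kaplansky [Nonempty E] [Nontrivial R] {r g : ℕ} (H : M.Ok π w1 r g)
    (S : M.Signed R v0 w0 w1) :
    ∃ a b c : MonoidAlgebra R (M.Gp π), a * b = 1 ∧ a * c = 0 ∧ c ≠ 0 := by
  classical
  have h1 := S.hand H.cp (j := 1) (by decide) w0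
  have h2 := S.hand H.cp (j := 2) (by decide) w1
  rw [if_pos (by simp [Signed.cmp, S.p1])] at h1
  rw [if_neg (by simp [Signed.cmp, S.p1])] at h2
  refine ⟨MonoidAlgebra.single (M.av π (Sum.inl v0))⁻¹ 1 * _,
    _ * MonoidAlgebra.single (M.av π (Sum.inl w0)) 1, _,
    by
      rw [mul_assoc, ← mul_assoc _ _ (MonoidAlgebra.single _ _), h1]
      simp [MonoidAlgebra.single_mul_single, MonoidAlgebra.one_def],
    by rw [mul_assoc, h2, mul_zero], fun h => ?_⟩
  · have := congrArg (fun x => x.coeff (M.av π (Sum.inl w1))⁻¹) h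
    simp only [MonoidAlgebra.coeff_sum, MonoidAlgebra.coeff_single, Finsupp.coe_finset_sum,
      Finset.sum_apply, MonoidAlgebra.coeff_zero, Finsupp.zero_apply] at this
    rw [sum_eq_single w1] at this
    · simp [S.s2] at this
    · intro w hw hne
      refine Finsupp.single_eq_of_ne' fun e => hne ?_
      exact Sum.inl.inj (H.root_inj (mem_filter.1 hw).2.1 (inv_injective e))
    · simp [Signed.cmp, S.p2]

omit [Fintype W] [Fintype B] in
theorem Ok.hyperbolic [Nonempty E] [Fintype P] {root : W} {r g : ℕ} (H : M.Ok π root r g) :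
    Crest.GroupTheory.IsHyperbolicGroup (M.Gp π) := by
  classical
  let gen : P → M.Gp π := PresentedGroup.of
  have g1 : ∀ x, M.fG π (FreeGroup.mk [(x, true)]) = gen x := fun _ => rfl
  have g2 : ∀ x, M.fG π (FreeGroup.mk [(x, false)]) = (gen x)⁻¹ := fun x => by
    rw [← g1, ← map_inv, ← mk_rv]; rfl
  have w1 : ∀ l, H3.Hyp.wp gen l = M.fG π (FreeGroup.mk l) := by
    intro l
    induction l with
    | nil => rfl
    | cons a l ih =>
      rw [mk_cons, map_mul, ← ih]
      obtain ⟨x, _ | _⟩ := a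
      · rw [g2]; simp [H3.Hyp.wp]
      · rw [g1]; simp [H3.Hyp.wp]
  let m2 : (M.Gp π × P →₀ ℤ) →+ (M.Gp π × P →₀ ZMod 2) := lin fun p => Finsupp.single p 1
  have z2 : ∀ y : M.Gp π × P →₀ ZMod 2, - y = y := fun y => by
    ext p; exact CharTwo.neg_eq _
  have w2 : ∀ l g, H3.Hyp.ch gen g l = m2 (fox (M.fG π) g (FreeGroup.mk l)) := by
    intro l
    induction l with
    | nil => intro g; simp [H3.Hyp.ch, fox_mk, foxL]
    | cons a l ih =>
      intro g
      rw [mk_cons, fox_mul, map_add, ← ih, fox_letter]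
      obtain ⟨x, _ | _⟩ := a
      · simp [H3.Hyp.ch, lc, g2, m2, z2]
      · simp [H3.Hyp.ch, lc, g1, m2]
  refine H3.Hyp.hyperbolic_of_linear_area gen (PresentedGroup.closure_range_of _)
    ⟨univ.sup fun e => (M.ρ π e).norm, 8 * r, fun l hl => ?_⟩
  rcases l with _ | ⟨a, l⟩
  · exact ⟨[], by simp, by simp, rfl⟩
  obtain ⟨n, γ, e, s, a1, a2, a3⟩ := H.area (w1 _ ▸ hl)
  refine ⟨List.ofFn fun i => (γ i, (M.ρ π (e i)).toWord), ?_, ?_, ?_⟩
  · have := FreeGroup.norm_mk_le (L₁ := a :: l)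
    simp only [List.length_ofFn, List.length_cons] at this ⊢
    nlinarith
  · intro q hq
    obtain ⟨i, rfl⟩ := List.mem_ofFn.1 hq
    exact ⟨by rw [w1, FreeGroup.mk_toWord, fG_ρ],
      le_sup (f := fun e => (M.ρ π e).norm) (mem_univ (e i))⟩
  · rw [w2, a3, map_sum, List.map_ofFn, List.sum_ofFn]
    refine sum_congr rfl fun i _ => ?_
    simp only [Function.comp, w2, FreeGroup.mk_toWord]
    rcases a2 i with h | h <;> simp [h, z2]

end Mdl

end Crest.Agent.H6.Kap
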