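import Mathlib
import Crest.Agent.H6.KGeo
import Crest.Agent.H6.KHand

/-! The model built from the plane. -/

namespace Crest.Agent.H6.Kap

open Finset Equiv

section blocks
variable {P : Type} [DecidableEq P]

/-- block permutations -/
def Blk (ν : Perm P) (X : Finset P) (k : ℕ) : Prop :=
  (∀ x ∉ X, ν x = x) ∧ (∀ x ∈ X, ν x ≠ x ∧ (ν (ν x) = x ∨ ν (ν (ν x)) = x)) ∧
    (X.filter fun x => ν (ν x) ≠ x).card ≤ k

theorem Blk.mem {ν : Perm P} {X : Finset P} {k : ℕ} (h : Blk ν X k) {x : P} (hx : x ∈ X) :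
    ν x ∈ X := by
  by_contra a
  exact (h.2.1 x hx).1 (ν.injective (h.1 _ a))

theorem Blk.mul {ν ν' : Perm P} {X X' : Finset P} {k k' : ℕ} (h : Blk ν X k) (h' : Blk ν' X' k')
    (d : Disjoint X X') : Blk (ν * ν') (X ∪ X') (k + k') ∧ (∀ x ∈ X, (ν * ν') x = ν x) ∧
      ∀ x ∈ X', (ν * ν') x = ν' x := by
  have a1 : ∀ x ∈ X, (ν * ν') x = ν x := fun x hx => by
    rw [Perm.mul_apply, h'.1 x (disjoint_left.1 d hx)]
  have a2 : ∀ x ∈ X', (ν * ν') x = ν' x := fun x hx => by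
    rw [Perm.mul_apply, h.1 _ (disjoint_right.1 d (h'.mem hx))]
  refine ⟨⟨fun x hx => ?_, fun x hx => ?_, ?_⟩, a1, a2⟩
  · rw [mem_union, not_or] at hx
    rw [Perm.mul_apply, h'.1 x hx.2, h.1 x hx.1]
  · rcases mem_union.1 hx with hx | hx
    · rw [a1 x hx, a1 _ (h.mem hx), a1 _ (h.mem (h.mem hx))]; exact h.2.1 x hx
    · rw [a2 x hx, a2 _ (h'.mem hx), a2 _ (h'.mem (h'.mem hx))]; exact h'.2.1 x hx
  · rw [filter_union]
    refine (card_union_le _ _).trans (Nat.add_le_add ?_ ?_)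
    · rw [filter_congr fun x hx => by rw [a1 x hx, a1 _ (h.mem hx)]]; exact h.2.2
    · rw [filter_congr fun x hx => by rw [a2 x hx, a2 _ (h'.mem hx)]]; exact h'.2.2

theorem exists_blk (X : Finset P) (h : X.card ≠ 1) : ∃ ν, Blk ν X 3 := by
  induction hn : X.card using Nat.strong_induction_on generalizing X with
  | h n ih =>
  by_cases h0 : n = 0
  · obtain rfl := card_eq_zero.1 (hn.trans h0)
    exact ⟨1, by simp, by simp, by simp⟩
  by_cases h3 : n = 3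
  · obtain ⟨a, b, c, h1, h2, h4, rfl⟩ := card_eq_three.1 (hn.trans h3)
    have e1 : (swap a b * swap b c) a = b := by simp [swap_apply_of_ne_of_ne h1 h2]
    have e2 : (swap a b * swap b c) b = c := by simp [swap_apply_of_ne_of_ne h2.symm h4.symm]
    have e3 : (swap a b * swap b c) c = a := by simp
    refine ⟨swap a b * swap b c, fun x hx => ?_, fun x hx => ?_,
      (card_filter_le _ _).trans card_le_three⟩
    · simp only [mem_insert, mem_singleton, not_or] at hx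
      simp [swap_apply_of_ne_of_ne, hx]
    · simp only [mem_insert, mem_singleton] at hx
      rcases hx with rfl | rfl | rfl <;> simp only [e1, e2, e3, or_true, and_true]
      exacts [h1.symm, h4.symm, h2]
  obtain ⟨a, ha, b, hb, hab⟩ := one_lt_card.1 (show 1 < X.card by omega)
  have s1 : {a, b} ⊆ X := by simp [insert_subset_iff, ha, hb]
  have s2 := card_sdiff_add_card_eq_card s1
  rw [card_pair hab] at s2
  obtain ⟨ν, hν⟩ := ih _ (by omega) (X \ {a, b}) (by omega) rfl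
  have s3 : Blk (swap a b) {a, b} 0 := by
    refine ⟨fun x hx => ?_, fun x hx => ?_, by simp⟩
    · simp only [mem_insert, mem_singleton, not_or] at hx
      exact swap_apply_of_ne_of_ne hx.1 hx.2
    · simp only [mem_insert, mem_singleton] at hx
      rcases hx with rfl | rfl <;> simp [hab, hab.symm]
  have := (hν.mul s3 sdiff_disjoint).1
  rw [sdiff_union_of_subset s1] at this
  exact ⟨_, this⟩

theorem exists_nu [Fintype P] (S T : Finset P) (d : Disjoint S T) (h1 : S.card ≠ 1)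
    (h2 : T.card ≠ 1) (h3 : (univ \ (S ∪ T)).card ≠ 1) : ∃ ν : Perm P, Blk ν univ 9 ∧
      (∀ x, ν x ∈ S ↔ x ∈ S) ∧ ∀ x, ν x ∈ T ↔ x ∈ T := by
  obtain ⟨ν1, a1⟩ := exists_blk S h1
  obtain ⟨ν2, a2⟩ := exists_blk T h2
  obtain ⟨ν3, a3⟩ := exists_blk _ h3
  obtain ⟨b1, b2, b3⟩ := a1.mul a2 d
  obtain ⟨c1, c2, c3⟩ := b1.mul a3 disjoint_sdiff
  rw [union_sdiff_of_subset (subset_univ _)] at c1
  have key : ∀ X : Finset P, (∀ x ∈ X, (ν1 * ν2 * ν3) x ∈ X) → ∀ x, (ν1 * ν2 * ν3) x ∈ X ↔ x ∈ X :=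
    fun X hX x => ⟨fun h => by
      rcases (c1.2.1 x (mem_univ _)).2 with e | e
      · rw [← e]; exact hX _ h
      · rw [← e]; exact hX _ (hX _ h), hX x⟩
  refine ⟨_, c1, key S fun x hx => ?_, key T fun x hx => ?_⟩
  · rw [c2 x (mem_union_left _ hx), b2 x hx]; exact a1.mem hx
  · rw [c2 x (mem_union_right _ hx), b3 x hx]; exact a2.mem hx

end blocks

open Classical

variable {p q : ℕ} {P : Type} [Fintype P] (Γ : Geo p P q) (ν : Perm P) (n : ℕ)

namespace Geo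

/-- white vertices -/
abbrev Wh (P : Type) (n : ℕ) : Type := ((Fin 3 × Bool) × P × Fin n) ⊕ Bool
/-- colours -/
abbrev Co (P : Type) : Type := (Fin 3 × Bool) × P

/-- kind of a white vertex -/
def kind : Wh P n → Fin 3 × Bool
  | Sum.inl w => w.1
  | Sum.inr true => (0, true)
  | Sum.inr false => (1, true)

/-- link of a white vertex -/
def link : Wh P n → Finset P
  | Sum.inl w => Γ.ln w.2.1
  | Sum.inr true => Γ.S
  | Sum.inr false => Γ.T

/-- edges -/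
abbrev Ed : Type := {e : Wh P n × P // e.2 ∈ Γ.link n e.1}

/-- colour of an edge -/
def col (e : Γ.Ed n) : Co P := (kind n e.1.1, e.1.2)

/-- non flipping condition -/
def NF (c : Co P) : Prop := c.1.1 = 0 ↔ c.2 ∉ Γ.T

/-- black type of a colour -/
noncomputable def bt (c : Co P) : Fin 3 × Bool × Finset P :=
  if Γ.NF c then (c.1.1, c.1.2, {c.2, ν c.2, ν (ν c.2)})
  else (c.1.1, true, {if c.1.2 then c.2 else ν.symm c.2})

/-- colour class -/
noncomputable def cls (c : Co P) : Finset (Γ.Ed n) := univ.filter fun e => Γ.col n e = c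

theorem card_cls (c : Co P) : (Γ.cls n c).card = (q + 1) * n +
    ((if c.1 = (0, true) ∧ c.2 ∈ Γ.S then 1 else 0) + if c.1 = (1, true) ∧ c.2 ∈ Γ.T then 1 else 0) := by
  have : (Γ.cls n c).card = (univ.filter fun w : Wh P n => kind n w = c.1 ∧ c.2 ∈ Γ.link n w).card := by
    refine card_bij (fun e _ => e.1.1) (fun e he => ?_) (fun e he e' he' h => ?_) fun w hw => ?_
    · obtain rfl := (mem_filter.1 he).2
      simpa [col] using e.2
    · refine Subtype.ext (Prod.ext h ?_)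
      exact congrArg (fun c : Co P => c.2) ((mem_filter.1 he).2.trans (mem_filter.1 he').2.symm)
    · obtain ⟨a, b⟩ := (mem_filter.1 hw).2
      exact ⟨⟨(w, c.2), b⟩, by simp [cls, col, a], rfl⟩
  rw [this, card_filter, Fintype.sum_sum_type, Fintype.sum_bool]
  congr 1
  · rw [← Γ.thru c.2, card_filter, sum_mul]
    rw [Fintype.sum_prod_type, sum_eq_single c.1 (fun b _ hb => by simp [kind, hb]) (by simp)]
    rw [Fintype.sum_prod_type]
    refine sum_congr rfl fun l _ => ?_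
    by_cases h : c.2 ∈ Γ.ln l <;> simp [kind, link, h]
  · simp [kind, link, eq_comm]

theorem card_cls_le (c : Co P) : (Γ.cls n c).card ≤ (q + 1) * n + 2 := by
  rw [card_cls]; split_ifs <;> omega

/-- index of an edge in its class -/
noncomputable def idx (e : Γ.Ed n) : Fin ((q + 1) * n + 2) :=
  ((Γ.cls n (Γ.col n e)).equivFin ⟨e, by simp [cls]⟩).castLE (Γ.card_cls_le n _)

theorem idx_eq {e : Γ.Ed n} {c : Co P} (h : Γ.col n e = c) :
    (Γ.idx n e).1 = ((Γ.cls n c).equivFin ⟨e, by simp [cls, h]⟩).1 := by subst h; rfl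

theorem idx_inj {e e' : Γ.Ed n} (h : Γ.col n e = Γ.col n e') (h' : Γ.idx n e = Γ.idx n e') :
    e = e' := by
  have := (Γ.idx_eq n h).symm.trans ((congrArg Fin.val h').trans (Γ.idx_eq n rfl))
  exact congrArg Subtype.val ((Γ.cls n _).equivFin.injective (Fin.ext this))

theorem idx_surj (e : Γ.Ed n) (c : Co P) (h : (Γ.cls n c).card = (Γ.cls n (Γ.col n e)).card) :
    ∃ e', Γ.col n e' = c ∧ Γ.idx n e' = Γ.idx n e := by
  let i : Fin (Γ.cls n c).card := ⟨(Γ.idx n e).1, by rw [h, Γ.idx_eq n rfl]; exact Fin.is_lt _⟩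
  have := (mem_filter.1 ((Γ.cls n c).equivFin.symm i).2).2
  exact ⟨_, this, Fin.ext (by rw [Γ.idx_eq n this]; simp [i])⟩

variable {ν} (h1 : Blk ν univ 9) (h2 : ∀ x, ν x ∈ Γ.S ↔ x ∈ Γ.S) (h3 : ∀ x, ν x ∈ Γ.T ↔ x ∈ Γ.T)

include h1 in
theorem bt_cases {c c' : Co P} (h : Γ.bt ν c = Γ.bt ν c') : c.1.1 = c'.1.1 ∧
    ((Γ.NF c ∧ Γ.NF c' ∧ c.1.2 = c'.1.2 ∧ (c'.2 = c.2 ∨ c'.2 = ν c.2 ∨ c'.2 = ν (ν c.2))) ∨
      (¬ Γ.NF c ∧ ¬ Γ.NF c' ∧ (c = c' ∨ (c.1.2 = true ∧ c'.1.2 = false ∧ c'.2 = ν c.2) ∨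
        (c.1.2 = false ∧ c'.1.2 = true ∧ c.2 = ν c'.2)))) := by
  have a : ∀ x y : P, ({x, ν x, ν (ν x)} : Finset P) ≠ {y} := fun x y e => by
    have b1 : x ∈ ({y} : Finset P) := by rw [← e]; simp
    have b2 : ν x ∈ ({y} : Finset P) := by rw [← e]; simp
    rw [mem_singleton] at b1 b2
    exact (h1.2.1 x (mem_univ _)).1 (b2.trans b1.symm)
  obtain ⟨⟨j, s⟩, x⟩ := c
  obtain ⟨⟨j', s'⟩, x'⟩ := c'
  unfold bt at h
  by_cases b1 : Γ.NF ((j, s), x) <;> by_cases b2 : Γ.NF ((j', s'), x') <;>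
    simp only [b1, b2, if_true, if_false, Prod.mk.injEq] at h
  · refine ⟨h.1, Or.inl ⟨b1, b2, h.2.1, ?_⟩⟩
    have : x' ∈ ({x, ν x, ν (ν x)} : Finset P) := by rw [h.2.2]; simp
    simpa using this
  · exact absurd h.2.2 (a _ _)
  · exact absurd h.2.2.symm (a _ _)
  · refine ⟨h.1, Or.inr ⟨b1, b2, ?_⟩⟩
    have := singleton_injective h.2.2
    cases s <;> cases s' <;> simp_all [Equiv.eq_symm_apply, Equiv.symm_apply_eq]

include h1 in
theorem bt_inj {c c' : Co P} (h : Γ.bt ν c = Γ.bt ν c') (e : c.2 = c'.2) : c = c' := by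
  obtain ⟨a, b | ⟨-, -, b | b | b⟩⟩ := Γ.bt_cases h1 h
  · exact Prod.ext (Prod.ext a b.2.2.1) e
  · exact b
  · exact absurd (b.2.2.symm.trans e.symm) (h1.2.1 _ (mem_univ _)).1
  · exact absurd (b.2.2.symm.trans e) (h1.2.1 _ (mem_univ _)).1

include h1 h2 h3 in
theorem bt_card {c c' : Co P} (h : Γ.bt ν c = Γ.bt ν c') :
    (Γ.cls n c).card = (Γ.cls n c').card := by
  have d := disjoint_left.1 Γ.disj
  rw [card_cls, card_cls]
  obtain ⟨⟨j, s⟩, x⟩ := c
  obtain ⟨⟨j', s'⟩, x'⟩ := c'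
  obtain ⟨a, ⟨-, -, b1, b2⟩ | ⟨b1, b2, b⟩⟩ := Γ.bt_cases h1 h
  · simp only at a b1 b2
    rcases b2 with rfl | rfl | rfl <;> simp [a, b1, h2, h3]
  · have k : ∀ c : Co P, ¬ Γ.NF c → ¬ (c.1 = (0, true) ∧ c.2 ∈ Γ.S) ∧
        ¬ (c.1 = (1, true) ∧ c.2 ∈ Γ.T) := by
      rintro ⟨⟨j, s⟩, x⟩ hc
      simp only [NF] at hc
      constructor
      · rintro ⟨e, e'⟩
        obtain ⟨rfl, -⟩ := Prod.mk.inj e
        exact hc (by simpa using d e')
      · rintro ⟨e, e'⟩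
        obtain ⟨rfl, -⟩ := Prod.mk.inj e
        exact hc (by simpa using e')
    rw [if_neg (k _ b1).1, if_neg (k _ b1).2, if_neg (k _ b2).1, if_neg (k _ b2).2]

/-- the model -/
noncomputable def mdl : Mdl P (Γ.Ed n) (Wh P n)
    ((Fin 3 × Bool × Finset P) × Fin ((q + 1) * n + 2)) (Co P) where
  col := Γ.col n
  lab c := c.2
  src e := e.1.1
  tg e := (Γ.bt ν (Γ.col n e), Γ.idx n e)
  hs e e' a b := Subtype.ext (Prod.ext a b)
  ht e e' a b := Γ.idx_inj n (Γ.bt_inj h1 (congrArg Prod.fst a) b) (congrArg Prod.snd a)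

theorem mdl_nice : (Γ.mdl n h1).Nice (Fintype.card P + 9) (n + 2) ((q + 1) * n + 2) := by
  refine ⟨fun e1 e2 e1' e2' a b c d => ?_, fun e1 e2 e1' e2' a b c d => ?_, ?_,
    fun c1 c2 h => ?_, fun c => le_trans (le_of_eq (by congr 1; ext; simp [cls, mdl])) (Γ.card_cls_le n c)⟩
  · refine Prod.ext ?_ d
    change kind n e2.1.1 = kind n e2'.1.1
    rw [← show e1.1.1 = e2.1.1 from a, ← show e1'.1.1 = e2'.1.1 from b]
    exact congrArg Prod.fst c
  · refine Γ.bt_inj h1 ((congrArg Prod.fst a).symm.trans (Eq.trans ?_ (congrArg Prod.fst b))) d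
    exact congrArg (Γ.bt ν) c
  · refine ⟨univ.image (fun x => (x, ν x)) ∪
      (univ.filter fun x => ν (ν x) ≠ x).image fun x => (x, ν (ν x)), ?_, fun e1 e2 a b => ?_⟩
    · refine (card_union_le _ _).trans (Nat.add_le_add card_image_le (card_image_le.trans ?_))
      convert h1.2.2
    · have c : (Γ.col n e1).2 ≠ (Γ.col n e2).2 := fun c => b ((Γ.mdl n h1).ht _ _ a c)
      change ((Γ.col n e1).2, (Γ.col n e2).2) ∈ _
      obtain ⟨-, ⟨-, -, -, d | d | d⟩ | ⟨-, -, d | d | d⟩⟩ := Γ.bt_cases h1 (congrArg Prod.fst a)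
      · exact absurd d.symm c
      · simp [d]
      · rw [d] at c ⊢
        exact mem_union_right _ (mem_image.2 ⟨_, by simpa using c.symm, rfl⟩)
      · exact absurd (congrArg Prod.snd d) c
      · simp [d.2.2]
      · rw [d.2.2]
        generalize (Γ.col n e2).2 = y
        rcases (h1.2.1 y (mem_univ _)).2 with f | f
        · exact mem_union_left _ (mem_image.2 ⟨ν y, mem_univ _, by rw [f]⟩)
        · refine mem_union_right _ (mem_image.2 ⟨ν y, ?_, by rw [f]⟩)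
          simpa [f] using (h1.2.1 y (mem_univ _)).1.symm
  · let l0 : P := if h : ∃ l, c1.2 ∈ Γ.ln l ∧ c2.2 ∈ Γ.ln l then h.choose else c1.2
    refine ⟨univ.image (fun i : Fin n => Sum.inl (c1.1, l0, i)) ∪ univ.image Sum.inr, ?_, ?_⟩
    · refine (card_union_le _ _).trans (Nat.add_le_add ?_ ?_) <;>
        exact card_image_le.trans (by simp)
    · rintro ⟨⟨w, x⟩, a1⟩ ⟨⟨w', y⟩, a2⟩ a rfl rfl
      obtain rfl : w = w' := a
      rcases w with ⟨k, l, i⟩ | b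
      · have a3 : ∃ l, x ∈ Γ.ln l ∧ y ∈ Γ.ln l := ⟨l, a1, a2⟩
        have : l0 = l := by
          have e : l0 = a3.choose := dif_pos a3
          rw [e]
          exact Γ.two x y h _ _ a3.choose_spec.1 a3.choose_spec.2 a1 a2
        exact mem_union_left _ (mem_image.2 ⟨i, mem_univ _, by rw [this]; rfl⟩)
      · exact mem_union_right _ (mem_image.2 ⟨b, mem_univ _, rfl⟩)

theorem mdl_ge (e : Γ.Ed n) : (q + 1) * n ≤
    (univ.filter fun e' => (Γ.mdl n h1).col e' = (Γ.mdl n h1).col e).card := by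
  refine le_trans ?_ (le_of_eq (show (Γ.cls n (Γ.col n e)).card = _ by congr 1))
  rw [card_cls]; omega

/-- sign -/
def sg (p : ℕ) (b : Bool) : ZMod p := if b then 1 else -1

include h1 h3 in
theorem black_col (b b' : Fin 3 × Bool × Finset P) {j : Fin 3} (hj : j ≠ 0) :
    ∑ c ∈ univ.filter fun c : Co P × Co P => Γ.bt ν c.1 = b ∧ Γ.bt ν c.2 = b' ∧ c.1.1.1 = 0 ∧
      c.2.1.1 = j ∧ c.1.2 = c.2.2, sg p c.1.1.2 * sg p c.2.1.2 = 0 := by
  let mv : Bool → P → P := fun s x => if s then ν x else ν.symm x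
  have m1 : ∀ s x, mv s x ∈ Γ.T ↔ x ∈ Γ.T := fun s x => by
    cases s
    · simp only [mv]; rw [← h3]; simp
    · simp [mv, h3]
  have m2 : ∀ s x, mv (!s) (mv s x) = x := fun s x => by cases s <;> simp [mv]
  have m3 : ∀ x, ({ν x, ν (ν x), ν (ν (ν x))} : Finset P) = {x, ν x, ν (ν x)} := fun x => by
    rcases (h1.2.1 x (mem_univ _)).2 with e | e <;> simp only [e] <;> ext <;> simp <;> tauto
  have m4 : ∀ s x, ({mv s x, ν (mv s x), ν (ν (mv s x))} : Finset P) = {x, ν x, ν (ν x)} :=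
    fun s x => by
      cases s
      · simpa [mv] using (m3 (ν.symm x)).symm
      · exact m3 x
  have m5 : ∀ k s s' x, Γ.NF ((k, s), x) → Γ.bt ν ((k, s), mv s' x) = Γ.bt ν ((k, s), x) := by
    intro k s s' x h
    have : Γ.NF ((k, s), mv s' x) := by simpa [NF, m1] using h
    simp only [bt, h, this, if_true, m4]
  have m6 : ∀ k s x, ¬ Γ.NF ((k, s), x) → Γ.bt ν ((k, !s), mv s x) = Γ.bt ν ((k, s), x) := by
    intro k s x h
    have : ¬ Γ.NF ((k, !s), mv s x) := by simpa [NF, m1] using h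
    simp only [bt, h, this, if_false]
    cases s <;> simp [mv]
  refine sum_involution (fun c _ => if c.1.2 ∈ Γ.T then
      (((0, !c.1.1.2), mv c.1.1.2 c.1.2), ((j, c.2.1.2), mv c.1.1.2 c.1.2))
    else (((0, c.1.1.2), mv c.2.1.2 c.1.2), ((j, !c.2.1.2), mv c.2.1.2 c.1.2))) ?_ ?_ ?_ ?_
  · rintro ⟨⟨⟨k, s⟩, x⟩, ⟨⟨k', s'⟩, x'⟩⟩ -
    split_ifs <;> cases s <;> cases s' <;> simp [sg]
  · rintro ⟨⟨⟨k, s⟩, x⟩, ⟨⟨k', s'⟩, x'⟩⟩ - -
    split_ifs <;> simp
  · rintro ⟨⟨⟨k, s⟩, x⟩, ⟨⟨k', s'⟩, x'⟩⟩ hc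
    simp only [mem_filter, mem_univ, true_and] at hc ⊢
    obtain ⟨a1, a2, rfl, rfl, rfl⟩ := hc
    split_ifs with h
    · exact ⟨(m6 _ _ _ (by simpa [NF] using h)).trans a1,
        (m5 _ _ _ _ (by simp [NF, hj, h])).trans a2, rfl, rfl, rfl⟩
    · exact ⟨(m5 _ _ _ _ (by simpa [NF] using h)).trans a1,
        (m6 _ _ _ (by simp [NF, hj, h])).trans a2, rfl, rfl, rfl⟩
  · rintro ⟨⟨⟨k, s⟩, x⟩, ⟨⟨k', s'⟩, x'⟩⟩ hc
    simp only [mem_filter, mem_univ, true_and] at hc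
    obtain ⟨a1, a2, rfl, rfl, rfl⟩ := hc
    by_cases h : x ∈ Γ.T <;> simp [h, m1, m2]

/-- parts and signs of the model -/
noncomputable def signed (l0 : P) (i0 : Fin n) : (Γ.mdl n h1).Signed (ZMod p) (Sum.inr true)
    (Sum.inr false) (Sum.inl ((2, true), l0, i0)) where
  ptc c := c.1.1
  pw w := (kind n w).1
  sgc c := sg p c.1.2
  sw w := sg p (kind n w).2
  pw_src _ := rfl
  sw_src _ := rfl
  p0 := rfl
  p1 := rfl
  p2 := rfl
  s0 := rfl
  s1 := rfl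
  s2 := rfl
  white v w a b Q hQ := by
    rw [show Q.card = (Γ.link n v ∩ Γ.link n w).card from ?_]
    · rcases v with v | _ | _ <;> rcases w with w | _ | _ <;> simp [kind] at a b <;>
        simp [link, Γ.meet, Γ.meetS, Γ.meetT, disjoint_iff_inter_eq_empty.1 Γ.disj]
    · refine card_bij (fun e _ => e.1.1.2) ?_ ?_ ?_
      · rintro ⟨⟨⟨v', x⟩, a1⟩, ⟨⟨w', y⟩, a2⟩⟩ he
        obtain ⟨rfl, rfl, h⟩ := (hQ _).1 he
        obtain rfl : x = y := h
        exact mem_inter.2 ⟨a1, a2⟩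
      · intro e he e' he' h
        obtain ⟨a1, a2, a3⟩ := (hQ _).1 he
        obtain ⟨b1, b2, b3⟩ := (hQ _).1 he'
        exact Prod.ext (Subtype.ext (Prod.ext (a1.trans b1.symm) h))
          (Subtype.ext (Prod.ext (a2.trans b2.symm) (a3.symm.trans (h.trans b3))))
      · intro x hx
        exact ⟨(⟨(v, x), (mem_inter.1 hx).1⟩, ⟨(w, x), (mem_inter.1 hx).2⟩),
          (hQ _).2 ⟨rfl, rfl, rfl⟩, rfl⟩
  black β β' j hj Q hQ := by
    rcases Q.eq_empty_or_nonempty with h0 | ⟨q0, h0⟩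
    · rw [h0, sum_empty]
    rw [← Γ.black_col h1 h3 β.1 β'.1 hj]
    obtain ⟨c1, c2, -⟩ := (hQ _).1 h0
    refine sum_bij (fun e _ => (Γ.col n e.1, Γ.col n e.2)) (fun e he => ?_)
      (fun e he e' he' h => ?_) (fun c hc => ?_) fun _ _ => rfl
    · obtain ⟨rfl, rfl, a⟩ := (hQ _).1 he
      exact mem_filter.2 ⟨mem_univ _, rfl, rfl, a⟩
    · obtain ⟨a1, a2, -⟩ := (hQ _).1 he
      obtain ⟨b1, b2, -⟩ := (hQ _).1 he'
      exact Prod.ext (Γ.idx_inj n (congrArg Prod.fst h) (congrArg Prod.snd (a1.trans b1.symm)))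
        (Γ.idx_inj n (congrArg Prod.snd h) (congrArg Prod.snd (a2.trans b2.symm)))
    · obtain ⟨a1, a2, a⟩ := (mem_filter.1 hc).2
      obtain ⟨e, b1, b2⟩ := Γ.idx_surj n q0.1 c.1
        (Γ.bt_card n h1 h2 h3 (a1.trans (congrArg Prod.fst c1).symm))
      obtain ⟨e', b3, b4⟩ := Γ.idx_surj n q0.2 c.2
        (Γ.bt_card n h1 h2 h3 (a2.trans (congrArg Prod.fst c2).symm))
      refine ⟨(e, e'), (hQ _).2 ⟨Prod.ext ?_ (b2.trans (congrArg Prod.snd c1)),
        Prod.ext ?_ (b4.trans (congrArg Prod.snd c2)), ?_⟩, Prod.ext b1 b3⟩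
      · rw [← a1, ← b1]; rfl
      · rw [← a2, ← b3]; rfl
      · rw [← b1, ← b3] at a; exact a

end Geo

end Crest.Agent.H6.Kap
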