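import Mathlib
import Crest.Agent.H6.KModel

/-! Choice of the parameters. -/

namespace Crest.Agent.H6.Kap

open Finset Equiv Filter

theorem ev_log (a b δ : ℝ) (hδ : 0 < δ) :
    ∀ᶠ r : ℕ in atTop, a + b * Real.log (2 * r + 1) ≤ δ * r := by
  have h1 : Tendsto (fun r : ℕ => 2 * (r : ℝ) + 1) atTop atTop :=
    tendsto_atTop_add_const_right _ _ (tendsto_natCast_atTop_atTop.const_mul_atTop two_pos)
  have h2 := (Real.isLittleO_log_id_atTop.comp_tendsto h1).bound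
    (show 0 < δ / (6 * (|b| + 1)) by positivity)
  have h3 : ∀ᶠ r : ℕ in atTop, 2 * a / δ ≤ r := tendsto_natCast_atTop_atTop.eventually_ge_atTop _
  filter_upwards [h2, h3, eventually_ge_atTop 1] with r a1 a2 a3
  simp only [Function.comp, id, Real.norm_eq_abs] at a1
  have a4 : (1 : ℝ) ≤ r := by exact_mod_cast a3
  rw [abs_of_pos (show (0 : ℝ) < 2 * r + 1 by positivity)] at a1
  rw [div_le_iff₀ hδ] at a2
  have a5 : b * Real.log (2 * r + 1) ≤ (|b| + 1) * |Real.log (2 * r + 1)| := by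
    have := le_abs_self (b * Real.log (2 * r + 1))
    rw [abs_mul] at this
    nlinarith [abs_nonneg (Real.log (2 * r + 1))]
  have a6 := mul_le_mul_of_nonneg_left a1 (show 0 ≤ |b| + 1 by positivity)
  have a7 : (|b| + 1) * (δ / (6 * (|b| + 1)) * (2 * r + 1)) = δ / 6 * (2 * r + 1) := by
    field_simp
  nlinarith

theorem log_TB (K : ℕ) : ∃ a b : ℝ, ∀ h : ℕ, Real.log (2 * TB K h) ≤ a + b * Real.log (h + 1) := by
  refine ⟨Real.log (2 * (K + 1) * 2 ^ K * (K + 1) ^ K * (3 ^ K) ^ K * (K + 1)),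
    ((K + 3 * K * K + 1 : ℕ) : ℝ), fun h => ?_⟩
  rw [← Real.log_pow, ← Real.log_mul (by positivity) (by positivity)]
  refine Real.log_le_log (by unfold TB; positivity) ?_
  have h1 : 2 * TB K h ≤ 2 * (K + 1) * 2 ^ K * (K + 1) ^ K * (3 ^ K) ^ K * (K + 1) *
      (h + 1) ^ (K + 3 * K * K + 1) := by
    have a : 2 * (h + 1) ^ 3 + 1 ≤ 3 * (h + 1) ^ 3 := by
      have := Nat.one_le_pow 3 (h + 1) (by omega); omega
    have b : K * (h + 1) + 1 ≤ (K + 1) * (h + 1) := by nlinarith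
    calc _ ≤ 2 * ((K + 1) * ((h + 1) ^ K * (2 ^ K * ((K + 1) ^ K * (((3 * (h + 1) ^ 3) ^ K) ^ K *
          ((K + 1) * (h + 1))))))) := by unfold TB; gcongr
      _ = _ := by simp only [mul_pow, ← pow_mul]; ring
  exact_mod_cast h1

theorem eta_pos (Q Np : ℕ) (hQ : 1 ≤ Q) (h1 : 1 ≤ Np) (h : Np + 1 ≤ Q ^ 2) :
    0 < Real.log ((Q : ℝ) * (13 * Q ^ 2) - 1) - Real.log ((Q : ℝ) * (13 * Q ^ 2) + 1) / 2 -
      Real.log (13 * Q ^ 2 + 1) / 2 - Real.log Np / 4 := by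
  have q1 : (1 : ℝ) ≤ Q := by exact_mod_cast hQ
  have n1 : (1 : ℝ) ≤ Np := by exact_mod_cast h1
  have n2 : (Np : ℝ) + 1 ≤ Q ^ 2 := by exact_mod_cast h
  set t : ℝ := 13 * Q ^ 2 with ht
  have t1 : 13 ≤ t := by nlinarith
  have a0 : t ≤ Q * t := by nlinarith
  have lg : ∀ x y : ℝ, 0 < x → 0 < y → Real.log x - Real.log y ≤ x / y - 1 := fun x y hx hy => by
    rw [← Real.log_div hx.ne' hy.ne']; exact Real.log_le_sub_one_of_pos (by positivity)
  have l1 := lg (Q * t) (Q * t - 1) (by positivity) (by linarith)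
  have l2 := lg (Q * t + 1) (Q * t) (by positivity) (by positivity)
  have l3 := lg (t + 1) t (by positivity) (by positivity)
  have l4 := lg Np (Q ^ 2) (by positivity) (by positivity)
  have m1 : Q * t / (Q * t - 1) - 1 ≤ 2 / t := by
    rw [div_sub_one (by linarith), div_le_div_iff₀ (by linarith) (by linarith)]; nlinarith
  have m2 : (Q * t + 1) / (Q * t) - 1 ≤ 1 / t := by
    rw [div_sub_one (by positivity), div_le_div_iff₀ (by positivity) (by linarith)]; nlinarith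
  have m3 : (t + 1) / t - 1 = 1 / t := by field_simp; ring
  have m4 : Np / (Q : ℝ) ^ 2 - 1 ≤ - (13 / t) := by
    rw [ht, div_sub_one (by positivity), div_le_iff₀ (by positivity)]
    have : -(13 / (13 * (Q : ℝ) ^ 2)) * Q ^ 2 = -1 := by field_simp
    linarith
  rw [Real.log_mul (by positivity) (by positivity)] at l1 l2
  rw [Real.log_pow] at l4
  have m5 : 0 < 1 / t := by positivity
  have m6 : 2 / t = 2 * (1 / t) := by ring
  have m7 : 13 / t = 13 * (1 / t) := by ring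
  push_cast at l4
  linarith

theorem numeric (q N NC : ℕ) (hq : 9 < q) (hN' : N = q ^ 2 + q + 1) :
    ∃ (n M0 K r : ℕ) (ε η Λ : ℝ), 0 < n ∧ 1 ≤ r ∧ 0 ≤ ε ∧ 0 < η ∧ 0 ≤ Λ ∧ PartProp K ε ∧
      M0 + 2 * (N + 1) ^ (8 * r + 1) + K * (2 * r) ≤ (q + 1) * n ∧ 1 ≤ M0 ∧
      η ≤ Real.log M0 - Real.log ((q + 1) * n + 2 : ℕ) + (Real.log ((q + 1) * n + 2 : ℕ) -
        Real.log (n + 2 : ℕ)) / 2 - Real.log (N + 9 : ℕ) / 4 ∧
      Real.log ((q + 1) * n + 2 : ℕ) - Real.log (n + 2 : ℕ) ≤ Λ ∧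
      16 * (ε * (2 * (Real.log ((q + 1) * n + 2 : ℕ) / 2) + 2 * r * (Real.log (N + 9 : ℕ) / 2)) +
        (K * (Real.log (2 * TB K (2 * r)) + 2 * (K * (2 * K + 2)) * Real.log NC) +
        (K * (2 * K + 2)) * Real.log (N + 9 : ℕ) / 2 + (K * (2 * K + 2) + K) * Λ)) ≤ η * r ∧
      η + 2 * (Real.log (N + 9 : ℕ) / 2) ≤ η * r := by
  have e0 := eta_pos (q + 1) (N + 9) (by omega) (by omega) (by rw [hN']; nlinarith)
  obtain ⟨t, ht⟩ : ∃ t, t = 13 * (q + 1) ^ 2 := ⟨_, rfl⟩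
  rw [show 13 * ((q + 1 : ℕ) : ℝ) ^ 2 = t by simp [ht]] at e0
  have t1 : 1 ≤ t := by nlinarith
  have N1 : 1 ≤ N := by omega
  clear ht hN'
  have t1' : (1 : ℝ) ≤ t := by exact_mod_cast t1
  obtain ⟨Q, hQ⟩ : ∃ Q : ℝ, Q = ((q + 1 : ℕ) : ℝ) := ⟨_, rfl⟩
  rw [← hQ] at e0
  have Q1 : 2 ≤ Q := by rw [hQ]; exact_mod_cast (by omega : 2 ≤ q + 1)
  have Λ0 : 0 ≤ Real.log (Q * t + 1) := Real.log_nonneg (by nlinarith)
  have lN0 : 0 ≤ Real.log (N + 9 : ℕ) := Real.log_natCast_nonneg _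
  have l4 : 0 ≤ Real.log 4 := Real.log_nonneg (by norm_num)
  have l5 : 0 ≤ Real.log ((N : ℝ) + 1) := Real.log_nonneg (by simp)
  generalize Real.log (N + 9 : ℕ) = lN at *
  generalize Real.log NC = lC
  obtain ⟨η, hη⟩ : ∃ η, η = Real.log (Q * t - 1) - Real.log (Q * t + 1) / 2 -
    Real.log (t + 1) / 2 - lN / 4 := ⟨_, rfl⟩
  rw [← hη] at e0
  obtain ⟨Λ, hΛ⟩ : ∃ Λ, Λ = Real.log (Q * t + 1) := ⟨_, rfl⟩
  rw [← hΛ] at hη Λ0
  obtain ⟨A1, hA1⟩ : ∃ A1, A1 = Real.log 4 + 9 * Real.log ((N : ℝ) + 1) := ⟨_, rfl⟩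
  have A00 : 0 ≤ A1 := by rw [hA1]; positivity
  obtain ⟨K, hK⟩ := exists_partProp (η / (32 * (Λ + A1 + lN + 1))) (by positivity)
  obtain ⟨a, b, hab⟩ := log_TB K
  obtain ⟨r, r1, r2, r3, r4⟩ := ((ev_log (K * (a + 2 * (K * (2 * K + 2)) * lC) +
    (K * (2 * K + 2)) * lN / 2 + (K * (2 * K + 2) + K) * Λ) (K * b) (η / 32) (by positivity)).and
    ((ev_log (η + lN) 0 η e0).and ((eventually_ge_atTop 1).and (eventually_ge_atTop K)))).exists
  have r1' : (1 : ℝ) ≤ r := by exact_mod_cast r3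
  obtain ⟨X, hX⟩ : ∃ X, X = 4 * (N + 1) ^ (8 * r + 1) := ⟨_, rfl⟩
  have x1 : 2 * (N + 1) ^ (8 * r + 1) + K * (2 * r) + 2 ≤ X := by
    have b1 : r + 1 ≤ (N + 1) ^ r :=
      (Nat.lt_two_pow_self).trans_le (Nat.pow_le_pow_left (by omega) r)
    have b2 : (N + 1) ^ r * (N + 1) ^ r ≤ (N + 1) ^ (8 * r + 1) := by
      rw [← pow_add]; exact Nat.pow_le_pow_right (by omega) (by omega)
    nlinarith
  have lX : Real.log X ≤ r * A1 := by
    rw [hX, hA1]; push_cast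
    rw [Real.log_mul (by norm_num) (by positivity), Real.log_pow]
    push_cast; nlinarith
  clear hX hA1 l4 l5
  have x2 : 2 ≤ X := by omega
  have x3 : (2 : ℝ) ≤ X := by exact_mod_cast x2
  have y0 : X ≤ t * X := Nat.le_mul_of_pos_left _ t1
  have y1 : 2 * X ≤ (q + 1) * (t * X) := Nat.mul_le_mul (by omega) y0
  have z1 : Real.log ((q + 1) * (t * X) + 2 : ℕ) ≤ Λ + Real.log X := by
    rw [hΛ, ← Real.log_mul (by positivity) (by positivity)]
    refine Real.log_le_log (by positivity) ?_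
    rw [hQ]; push_cast; linarith
  have z2 : Real.log (t * X + 2 : ℕ) ≤ Real.log (t + 1) + Real.log X := by
    rw [← Real.log_mul (by positivity) (by positivity)]
    refine Real.log_le_log (by positivity) ?_
    push_cast; linarith
  have z3 : Real.log X ≤ Real.log (t * X + 2 : ℕ) :=
    Real.log_le_log (by positivity) (by exact_mod_cast (by omega))
  have z4 : Real.log ((q + 1) * (t * X) - X : ℕ) = Real.log (Q * t - 1) + Real.log X := by
    rw [← Real.log_mul (by nlinarith) (by positivity), Nat.cast_sub (by omega)]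
    congr 1
    rw [hQ]; push_cast; ring
  refine ⟨t * X, (q + 1) * (t * X) - X, K, r, _, η, Λ, by omega, r3, by positivity, e0, Λ0, hK,
    by omega, by omega, by rw [z4]; linarith, by linarith, ?_, by linarith⟩
  have c1 := mul_le_mul_of_nonneg_left (hab (2 * r)) (Nat.cast_nonneg (α := ℝ) K)
  rw [Nat.cast_mul, Nat.cast_ofNat] at c1
  generalize Real.log ((q + 1) * (t * X) + 2 : ℕ) = L at *
  have c2 : 2 * (L / 2) + 2 * r * (lN / 2) ≤ (Λ + A1 + lN + 1) * r := by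
    nlinarith
  have c3 := mul_le_mul_of_nonneg_left c2 (show 0 ≤ η / (32 * (Λ + A1 + lN + 1)) by positivity)
  have c4 : η / (32 * (Λ + A1 + lN + 1)) * ((Λ + A1 + lN + 1) * r) = η / 32 * r := by field_simp
  linarith

theorem exists_ok (p : ℕ) [Fact p.Prime] : ∃ (P E W B C : Type) (_ : Fintype P) (_ : Fintype E)
    (_ : Fintype W) (_ : Fintype B) (_ : Nonempty E) (M : Mdl P E W B C) (π : Perm E)
    (v0 w0 w1 : W) (r g : ℕ), M.Ok π w1 r g ∧ Nonempty (M.Signed (ZMod p) v0 w0 w1) := by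
  classical
  obtain ⟨P, _, q, ⟨Γ⟩⟩ := exists_geo p
  obtain ⟨ν, h1, h2, h3⟩ := exists_nu Γ.S Γ.T Γ.disj Γ.hS Γ.hT (by convert Γ.hR)
  have hq := Γ.big
  obtain ⟨n, M0, K, r, ε, η, Λ, n0, r1, e1, e2, e3, hK, a1, a2, a3, a4, a5, a6⟩ :=
    numeric q _ (Fintype.card (Geo.Co P)) hq Γ.cardP
  haveI : Nonempty P := Fintype.card_pos_iff.1 (by rw [Γ.cardP]; omega)
  let l0 := Classical.arbitrary P
  obtain ⟨π, hπ, hloc⟩ := exists_locIneq (Γ.mdl_nice n h1) ((q + 1) * n) M0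
    K (8 * r) (2 * r) (fun e => by convert Γ.mdl_ge n h1 e) a1 a2 (by omega) (by omega)
    Fintype.card_pos (by omega) (by omega) (by nlinarith) (Sum.inl ((2, true), l0, ⟨0, n0⟩)) η Λ
    a3 a4
  obtain ⟨hcp, hg⟩ := Mdl.mem_good.1 hπ
  have hE : Nonempty (Γ.Ed n) := by
    obtain ⟨l, hl⟩ : (univ.filter fun l => l0 ∈ Γ.ln l).Nonempty := by
      rw [← card_pos]; have := Γ.thru l0; convert Nat.succ_pos q
    exact ⟨⟨(Sum.inl ((2, true), l, ⟨0, n0⟩), l0), (mem_filter.1 hl).2⟩⟩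
  refine ⟨_, _, _, _, _, inferInstance, inferInstance, inferInstance, inferInstance, hE,
    Γ.mdl n h1, π, _, _,
    _, r, 8 * r, ⟨hcp, hg, le_rfl, fun S _ D => ?_⟩, ⟨Γ.signed n h1 h2 h3 l0 ⟨0, n0⟩⟩⟩
  have lC0 : 0 ≤ Real.log (Fintype.card (Geo.Co P)) := Real.log_natCast_nonneg _
  have lN0 : 0 ≤ Real.log (Fintype.card P + 9 : ℕ) := Real.log_natCast_nonneg _
  have lT : 0 ≤ Real.log (2 * (TB K (2 * r) : ℝ)) := by
    have := Real.log_natCast_nonneg (2 * TB K (2 * r)); simpa using this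
  exact D.global hg r1 (by omega) e1 e2
    (div_nonneg (Real.log_natCast_nonneg _) two_pos.le) (by positivity) (by positivity) hK hloc
    a5 a6

end Crest.Agent.H6.Kap
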