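import Mathlib
import Crest.Agent.H6.KMain

/-! Consequences. -/

namespace Crest.Agent.H6.Kap

open Finset Equiv

theorem main (p : ℕ) [Fact p.Prime] : ∃ (G : Type) (_ : Group G), Group.FG G ∧
    (∀ g : G, IsOfFinOrder g → g = 1) ∧ Crest.GroupTheory.IsHyperbolicGroup G ∧
    ∃ a b c : MonoidAlgebra (ZMod p) G, a * b = 1 ∧ a * c = 0 ∧ c ≠ 0 := by
  obtain ⟨P, E, W, B, C, _, _, _, _, _, M, π, v0, w0, w1, r, g, H, ⟨S⟩⟩ := exists_ok p
  exact ⟨M.Gp π, inferInstance, Group.fg_of_surjective (M.fG_surj π), H.torsionFree, H.hyperbolic,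
    H.kaplansky S⟩

theorem exists_sep {G : Type} [Group G] [Group.ResiduallyFinite G] (s : Finset G) :
    ∃ H : FiniteIndexNormalSubgroup G, ∀ g ∈ s, g ∈ H → g = 1 := by
  classical
  induction s using Finset.induction_on with
  | empty => exact ⟨.ofSubgroup ⊤, by simp⟩
  | insert a s _ ih =>
    obtain ⟨H, hH⟩ := ih
    by_cases ha : a = 1
    · exact ⟨H, by simpa [ha] using hH⟩
    · obtain ⟨K, hK⟩ := Group.exists_finiteIndexNormalSubgroup_notMem a ha
      refine ⟨H ⊓ K, fun g hg h => ?_⟩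
      have h' : g ∈ H ∧ g ∈ K := h
      rcases mem_insert.1 hg with rfl | hg
      · exact absurd h'.2 hK
      · exact hH g hg h'.1

theorem not_rf {G R : Type} [Group G] [Ring R] [Finite R] {a b c : MonoidAlgebra R G}
    (hab : a * b = 1) (hac : a * c = 0) (hc : c ≠ 0) : ¬ Group.ResiduallyFinite G := by
  classical
  intro h
  obtain ⟨H, hH⟩ := exists_sep ((c.coeff.support ×ˢ c.coeff.support).image fun q => q.1⁻¹ * q.2)
  let f := QuotientGroup.mk' H.toSubgroup
  let φ := MonoidAlgebra.mapDomainRingHom R f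
  have : Finite (G ⧸ H.toSubgroup) := inferInstance
  have : Finite (MonoidAlgebra R (G ⧸ H.toSubgroup)) :=
    Finite.of_injective (fun x => (x.coeff : _ → R))
      (DFunLike.coe_injective.comp MonoidAlgebra.coeff_injective)
  have h1 : φ b * φ a = 1 := mul_eq_one_symm (by rw [← map_mul, hab, map_one])
  have h2 : φ c = 0 := by rw [← one_mul (φ c), ← h1, mul_assoc, ← map_mul, hac, map_zero, mul_zero]
  have h3 : Finsupp.mapDomain f c.coeff = 0 := congrArg MonoidAlgebra.coeff h2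
  apply hc
  ext g
  by_cases hg : g ∈ c.coeff.support
  · rw [← Finsupp.mapDomain_apply' c.coeff.support c.coeff le_rfl (f := f) ?_ hg, h3]
    · simp
    · intro x hx y hy e
      exact inv_mul_eq_one.1 (hH _ (mem_image.2 ⟨(x, y), mem_product.2 ⟨hx, hy⟩, rfl⟩)
        (QuotientGroup.eq.1 e))
  · simpa using hg

theorem ne_one {R : Type} [Ring R] {a b c : R} (hac : a * c = 0) (hc : c ≠ 0) : b * a ≠ 1 :=
  fun h => hc (by rw [← one_mul c, ← h, mul_assoc, hac, mul_zero])

theorem odd_minFac (m : ℕ) (hm : 2 ≤ m) : (Nat.minFac (m.factorial ^ 2 + 1)).Prime ∧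
    Odd (Nat.minFac (m.factorial ^ 2 + 1)) := by
  have h0 := m.factorial_pos
  have h1 : (Nat.minFac (m.factorial ^ 2 + 1)).Prime := Nat.minFac_prime (by
    have := pow_pos h0 2; omega)
  refine ⟨h1, h1.odd_of_ne_two fun h => ?_⟩
  have h2 := Nat.minFac_dvd (m.factorial ^ 2 + 1)
  rw [h] at h2
  have h3 : 2 ∣ m.factorial ^ 2 := Dvd.dvd.pow (Nat.dvd_factorial two_pos hm) two_ne_zero
  omega

theorem odd_char (p : ℕ) (hp : p.Prime) : ∃ (K : Type) (_ : Field K) (G : Type) (_ : Group G),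
    Nat.card K = p ^ 4 ∧ Group.FG G ∧ (∃ g : G, g ≠ 1 ∧ IsOfFinOrder g) ∧
      ∃ a b : MonoidAlgebra K G, a * b = 1 ∧ b * a ≠ 1 := by
  haveI := Fact.mk hp
  obtain ⟨G, _, h1, -, -, a, b, c, h2, h3, h4⟩ := main p
  let φ := (MonoidAlgebra.mapRingHom (G × Multiplicative (ZMod 2))
    (algebraMap (ZMod p) (GaloisField p 4))).comp
    (MonoidAlgebra.mapDomainRingHom (ZMod p) (MonoidHom.inl G (Multiplicative (ZMod 2))))
  have hφ : Function.Injective φ :=
    (MonoidAlgebra.map_injective _ (algebraMap (ZMod p) (GaloisField p 4)).injective).comp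
      (MonoidAlgebra.mapDomain_injective fun x y h => congrArg Prod.fst h)
  refine ⟨GaloisField p 4, inferInstance, G × Multiplicative (ZMod 2), inferInstance,
    GaloisField.card p 4 (by norm_num), inferInstance, ⟨(1, Multiplicative.ofAdd 1), fun h => ?_,
      IsOfFinOrder.prod_mk IsOfFinOrder.one (isOfFinOrder_of_finite _)⟩, φ a, φ b,
    by rw [← map_mul, h2, map_one], fun h => ne_one h3 h4 (hφ (by rw [map_mul, h, map_one]))⟩
  have : (Multiplicative.ofAdd 1 : Multiplicative (ZMod 2)) = 1 := congrArg Prod.snd h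
  exact absurd this (by decide)

end Crest.Agent.H6.Kap
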