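import Mathlib
import Crest.Agent.H6.KCor
import Crest.Agent.Lead.CWMain

/-! The classifying complex: barycentric subdivision of the coned-off Cayley graph. -/

namespace Crest.Agent.H6.Kap

open Finset Equiv

theorem cw_prod {G I : Type} [Group G] [Finite I] [Nonempty I] (col : I → Fin 3)
    (Ed : G × I → G × I → Prop) (Tr : G × I → G × I → G × I → Prop)
    (hEd : ∀ g u v, Ed u v → Ed (g * u.1, u.2) (g * v.1, v.2))
    (hTr : ∀ g u v w, Tr u v w → Tr (g * u.1, u.2) (g * v.1, v.2) (g * w.1, w.2))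
    (hlt : ∀ u v, Ed u v → col u.2 < col v.2)
    (hTE : ∀ u v w, Tr u v w → Ed u v ∧ Ed v w ∧ Ed u w) (D : Set G) (hD : D.Finite)
    (hloc : ∀ u v, Ed u v → ∃ δ ∈ D, u.1 = v.1 * δ) (hconn : ∀ u v, Relation.EqvGen Ed u v)
    (H1 : ∀ (H : Type) [Group H] (c : G × I → G × I → H),
      (∀ u v w, Tr u v w → c u v * c v w = c u w) →
      ∃ k : G × I → H, ∀ u v, Ed u v → c u v = (k u)⁻¹ * k v)
    (H2 : ∀ (A : Type) [AddCommGroup A] (z : G × I → G × I → G × I → A),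
      ∃ α : G × I → G × I → A, ∀ u v w, Tr u v w → α u v + α v w - α u w = z u v w) :
    Crest.Topology.HasFiniteClassifyingComplex G 2 := by
  classical
  letI := Fintype.ofFinite I
  letI : MulAction G (G × I) :=
    { smul g u := (g * u.1, u.2)
      one_smul u := Prod.ext (one_mul _) rfl
      mul_smul g h u := Prod.ext (mul_assoc _ _ _) rfl }
  refine Lead.CW.hasFiniteClassifyingComplex (V := G × I)
    (fun g v h => mul_eq_right.1 (congrArg Prod.fst h)) (fun u => col u.2) (fun _ _ => rfl) Ed Tr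
    hEd hTr hlt hTE ⟨univ.image fun i => (1, i), fun v => ⟨v.1⁻¹, mem_image.2
      ⟨v.2, mem_univ _, Prod.ext (inv_mul_cancel _).symm rfl⟩⟩⟩ (fun u => ?_) inferInstance hconn
      H1 H2
  refine (((hD.image fun δ => u.1 * δ⁻¹).union (hD.image fun δ => u.1 * δ)).prod
    (Set.finite_univ (α := I))).subset ?_
  rintro v (h | h) <;> obtain ⟨δ, h1, h2⟩ := hloc _ _ h
  · exact ⟨Or.inl ⟨δ, h1, by simp [h2]⟩, trivial⟩
  · exact ⟨Or.inr ⟨δ, h1, h2.symm⟩, trivial⟩

/-- cells -/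
inductive Cell (P E V Q : Type)
  | pt
  | cone (q : Q)
  | ce (x : P)
  | ra (v : V)
  | fc (e : E)

instance {P E V Q : Type} [Finite P] [Finite E] [Finite V] [Finite Q] : Finite (Cell P E V Q) :=
  Finite.of_surjective (α := Unit ⊕ Q ⊕ P ⊕ V ⊕ E)
    (Sum.elim (fun _ => .pt) (Sum.elim .cone (Sum.elim .ce (Sum.elim .ra .fc)))) (by
      rintro (_ | q | x | v | e)
      exacts [⟨.inl (), rfl⟩, ⟨.inr (.inl q), rfl⟩, ⟨.inr (.inr (.inl x)), rfl⟩,
        ⟨.inr (.inr (.inr (.inl v))), rfl⟩, ⟨.inr (.inr (.inr (.inr e))), rfl⟩])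

/-- dimension of a cell -/
def Cell.dim {P E V Q : Type} : Cell P E V Q → Fin 3
  | .pt => 0
  | .cone _ => 0
  | .ce _ => 1
  | .ra _ => 1
  | .fc _ => 2

variable {P E W B C : Type} (M : Mdl P E W B C) (π : Perm E)

namespace Mdl

open Cell

/-- vertices of the subdivision -/
abbrev Vx : Type := M.Gp π × Cell P E (W ⊕ B) (Quotient (M.cn π))

/-- generators -/
def gn (x : P) : M.Gp π := M.fG π (FreeGroup.mk [(x, true)])

/-- face relation -/
inductive Fa : M.Vx π → M.Vx π → Prop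
  | e1 (g x) : Fa (g, pt) (g, ce x)
  | e2 (g x) : Fa (g * M.gn π x, pt) (g, ce x)
  | e3 (g v) : Fa (g, cone ⟦v⟧) (g, ra v)
  | e4 (g v) : Fa (g * M.av π v, pt) (g, ra v)
  | e5 (g d) : Fa (g, ra (M.tl π d)) (g, fc d.1)
  | e6 (g e) : Fa (g * M.av π (.inl (M.src e)), ce (M.lab (M.col e))) (g, fc e)
  | e7 (g d) : Fa (g, cone ⟦M.tl π d⟧) (g, fc d.1)
  | e8 (g d) : Fa (g * M.av π (M.tl π d), pt) (g, fc d.1)

/-- flags -/
inductive Fl : M.Vx π → M.Vx π → M.Vx π → Prop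
  | t1 (g d) : Fl (g, cone ⟦M.tl π d⟧) (g, ra (M.tl π d)) (g, fc d.1)
  | t2 (g d) : Fl (g * M.av π (M.tl π d), pt) (g, ra (M.tl π d)) (g, fc d.1)
  | t3 (g d) : Fl (g * M.av π (M.tl π d), pt)
      (g * M.av π (.inl (M.src d.1)), ce (M.lab (M.col d.1))) (g, fc d.1)

theorem av_tg (e : E) : M.av π (.inr (M.tg (π e))) =
    M.av π (.inl (M.src e)) * M.gn π (M.lab (M.col e)) := M.av_hd π (e, true)

theorem mk_tg (e : E) : (⟦.inr (M.tg (π e))⟧ : Quotient (M.cn π)) = ⟦.inl (M.src e)⟧ :=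
  (Quotient.sound (s := M.cn π) ⟨_, _, Pt.single (e, true)⟩).symm

theorem fG_neg (x : P) : M.fG π (FreeGroup.mk [(x, false)]) = (M.gn π x)⁻¹ := by
  rw [gn, ← map_inv, ← mk_rv]; rfl

theorem fa_conn (u v : M.Vx π) : Relation.EqvGen (M.Fa π) u v := by
  have h1 : ∀ w g, Relation.EqvGen (M.Fa π) (g, pt) (g * M.fG π w, pt) := by
    have a : ∀ g x, Relation.EqvGen (M.Fa π) (g, pt) (g * M.gn π x, pt) := fun g x =>
      .trans _ _ _ (.rel _ _ (.e1 g x)) (.symm _ _ (.rel _ _ (.e2 g x)))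
    intro w
    induction w using free_ind with
    | h1 => exact fun g => by simpa using Relation.EqvGen.refl _
    | h2 l w ih =>
      intro g
      rw [map_mul, ← mul_assoc]
      refine .trans _ _ _ ?_ (ih _)
      obtain ⟨x, _ | _⟩ := l
      · simpa [fG_neg] using (a (g * (M.gn π x)⁻¹) x).symm
      · exact a g x
  have h2 : ∀ g, Relation.EqvGen (M.Fa π) (g, pt) (1, pt) := fun g => by
    simpa using (h1 (M.sec π g) 1).symm
  have h3 : ∀ u, Relation.EqvGen (M.Fa π) u (1, pt) := by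
    rintro ⟨g, _ | ⟨v⟩ | x | v | e⟩
    · exact h2 g
    · induction v using Quotient.inductionOn
      exact .trans _ _ _ (.rel _ _ (.e3 g _)) (.trans _ _ _ (.symm _ _ (.rel _ _ (.e4 g _))) (h2 _))
    · exact .trans _ _ _ (.symm _ _ (.rel _ _ (.e1 g x))) (h2 _)
    · exact .trans _ _ _ (.symm _ _ (.rel _ _ (.e4 g v))) (h2 _)
    · exact .trans _ _ _ (.symm _ _ (.rel _ _ (.e8 g (e, true)))) (h2 _)
  exact .trans _ _ _ (h3 u) (.symm _ _ (h3 v))

theorem fl_fa {u v w : M.Vx π} (h : M.Fl π u v w) : M.Fa π u v ∧ M.Fa π v w ∧ M.Fa π u w := by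
  cases h with
  | t1 g d => exact ⟨.e3 _ _, .e5 _ _, .e7 _ _⟩
  | t2 g d => exact ⟨.e4 _ _, .e5 _ _, .e8 _ _⟩
  | t3 g d =>
    refine ⟨?_, .e6 _ _, .e8 _ _⟩
    obtain ⟨e, _ | _⟩ := d
    · rw [tl_f, av_tg, ← mul_assoc]; exact .e2 _ _
    · exact .e1 _ _

theorem exists_pot {H : Type} [Group H] (t : M.Gp π → P → H) (s : M.Gp π → W ⊕ B → H)
    (h : ∀ g e, s g (.inr (M.tg (π e))) =
      s g (.inl (M.src e)) * t (g * M.av π (.inl (M.src e))) (M.lab (M.col e))) :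
    ∃ K : M.Gp π → H, ∀ g x, K (g * M.gn π x) = K g * t g x := by
  let a : P → Perm (M.Gp π × H) := fun x =>
    ⟨fun p => (p.1 * (M.gn π x)⁻¹, p.2 * (t (p.1 * (M.gn π x)⁻¹) x)⁻¹),
      fun p => (p.1 * M.gn π x, p.2 * t p.1 x), fun p => by simp, fun p => by simp⟩
  let φ : FreeGroup P →* Perm (M.Gp π × H) := FreeGroup.lift a
  have p1 : ∀ x p, (φ (FreeGroup.mk [(x, true)]))⁻¹ p = (p.1 * M.gn π x, p.2 * t p.1 x) :=
    fun x p => by simp [φ, a, Perm.inv_def]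
  have p2 : ∀ x p, (φ (FreeGroup.mk [(x, false)]))⁻¹ (p.1 * M.gn π x, p.2 * t p.1 x) = p :=
    fun x p => by simp [φ, a]
  have p3 : ∀ {u w c v}, M.Pt π u w c v → ∀ g k,
      (φ w)⁻¹ (g * M.av π u, k * s g u) = (g * M.av π v, k * s g v) := by
    intro u w c v hp g k
    induction hp with
    | nil => simp
    | snoc d _ ih =>
      rw [map_mul, mul_inv_rev, Perm.mul_apply, ih]
      obtain ⟨e, _ | _⟩ := d
      · rw [tl_f, av_tg, h, ← mul_assoc, ← mul_assoc]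
        exact p2 _ (g * _, k * _)
      · rw [hd_t, av_tg, h, ← mul_assoc, ← mul_assoc]
        exact p1 _ _
  have p4 : ∀ w ∈ Set.range (M.ρ π), FreeGroup.lift a w = 1 := by
    rintro _ ⟨e, rfl⟩
    refine inv_eq_one.1 (Equiv.ext fun p => ?_)
    simpa [av_rt, φ] using p3 (M.pt_ρ π e) p.1 (p.2 * (s p.1 (M.rt π (.inl (M.src e))))⁻¹)
  have p5 : ∀ w, PresentedGroup.toGroup p4 (M.fG π w) = φ w := fun w => rfl
  have p6 : ∀ w p, ((φ w)⁻¹ p).1 = p.1 * M.fG π w := by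
    intro w
    induction w using free_ind with
    | h1 => simp
    | h2 l w ih =>
      intro p
      rw [map_mul, mul_inv_rev, Perm.mul_apply, ih, map_mul, ← mul_assoc]
      congr 1
      obtain ⟨x, _ | _⟩ := l
      · simp [φ, a, fG_neg]
      · rw [p1]; rfl
  refine ⟨fun g => ((PresentedGroup.toGroup p4 g)⁻¹ (1, 1)).2, fun g x => ?_⟩
  obtain ⟨w, rfl⟩ := M.fG_surj π g
  simp only [gn, ← map_mul, p5]
  rw [map_mul, mul_inv_rev, Perm.mul_apply, p1, p6, one_mul]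

theorem fl_H1 (H : Type) [Group H] (c : M.Vx π → M.Vx π → H)
    (hc : ∀ u v w, M.Fl π u v w → c u v * c v w = c u w) :
    ∃ k : M.Vx π → H, ∀ u v, M.Fa π u v → c u v = (k u)⁻¹ * k v := by
  let t : M.Gp π → P → H := fun g x => c (g, pt) (g, ce x) * (c (g * M.gn π x, pt) (g, ce x))⁻¹
  let s : M.Gp π → W ⊕ B → H := fun g v =>
    c (g, cone ⟦v⟧) (g, ra v) * (c (g * M.av π v, pt) (g, ra v))⁻¹
  have c1 := fun g d => hc _ _ _ (.t1 g d)
  have c2 := fun g d => hc _ _ _ (.t2 g d)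
  have c3 := fun g d => hc _ _ _ (.t3 g d)
  have s1 : ∀ g d, s g (M.tl π d) = c (g, cone ⟦M.tl π d⟧) (g, fc d.1) *
      (c (g * M.av π (M.tl π d), pt) (g, fc d.1))⁻¹ := fun g d => by
    rw [← c1, ← c2]; simp [s]
  have s2 : ∀ g e, s g (.inr (M.tg (π e))) =
      s g (.inl (M.src e)) * t (g * M.av π (.inl (M.src e))) (M.lab (M.col e)) := fun g e => by
    have a1 := s1 g (e, true)
    have a2 := s1 g (e, false)
    have a3 := c3 g (e, true)
    have a4 := c3 g (e, false)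
    simp only [tl_t, tl_f, mk_tg, av_tg, ← mul_assoc] at a1 a2 a3 a4
    rw [a1, a2, ← a3, ← a4]
    simp [t, mul_assoc]
  obtain ⟨K, hK⟩ := M.exists_pot π t s s2
  have k1 : ∀ g d, K (g * M.av π (M.tl π d)) * (s g (M.tl π d))⁻¹ =
      K (g * M.av π (.inl (M.src d.1))) * (s g (.inl (M.src d.1)))⁻¹ := by
    rintro g ⟨e, _ | _⟩
    · rw [tl_f, av_tg, s2, ← mul_assoc, hK]; group
    · rfl
  have k2 : ∀ g {u w y v}, M.Pt π u w y v →
      K (g * M.av π u) * (s g u)⁻¹ = K (g * M.av π v) * (s g v)⁻¹ := by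
    intro g u w y v hp
    induction hp with
    | nil => rfl
    | snoc d _ ih => rw [ih, k1, ← tl_rv, k1]; rfl
  let k : M.Vx π → H := fun u => match u with
    | (g, pt) => K g
    | (g, cone q) => K (g * M.av π q.out) * (s g q.out)⁻¹
    | (g, ce x) => K g * c (g, pt) (g, ce x)
    | (g, ra v) => K (g * M.av π v) * c (g * M.av π v, pt) (g, ra v)
    | (g, fc e) => K (g * M.av π (.inl (M.src e))) * c (g * M.av π (.inl (M.src e)), pt) (g, fc e)
  have b1 : ∀ g x, c (g, pt) (g, ce x) = (k (g, pt))⁻¹ * k (g, ce x) := fun g x => by simp [k]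
  have b2 : ∀ g x, c (g * M.gn π x, pt) (g, ce x) = (k (g * M.gn π x, pt))⁻¹ * k (g, ce x) :=
    fun g x => by simp [k, hK, t]
  have b3 : ∀ g v, c (g, cone ⟦v⟧) (g, ra v) = (k (g, cone ⟦v⟧))⁻¹ * k (g, ra v) := fun g v => by
    have := k2 g (M.pt_σ π v)
    simp only [k]
    rw [show (⟦v⟧ : Quotient (M.cn π)).out = M.rt π v from rfl, this]
    simp [s]
  have b4 : ∀ g v, c (g * M.av π v, pt) (g, ra v) = (k (g * M.av π v, pt))⁻¹ * k (g, ra v) :=
    fun g v => by simp [k]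
  have b6 : ∀ g e, c (g * M.av π (.inl (M.src e)), ce (M.lab (M.col e))) (g, fc e) =
      (k (g * M.av π (.inl (M.src e)), ce (M.lab (M.col e))))⁻¹ * k (g, fc e) := fun g e => by
    have := c3 g (e, true)
    simp only [tl_t] at this
    simp [k, ← this]
  have b8 : ∀ g d, c (g * M.av π (M.tl π d), pt) (g, fc d.1) =
      (k (g * M.av π (M.tl π d), pt))⁻¹ * k (g, fc d.1) := by
    rintro g ⟨e, _ | _⟩
    · rw [← c3, b6, tl_f, av_tg, ← mul_assoc g, b2]; group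
    · simp [k]
  have b5 : ∀ g d, c (g, ra (M.tl π d)) (g, fc d.1) =
      (k (g, ra (M.tl π d)))⁻¹ * k (g, fc d.1) := fun g d => by
    rw [← mul_right_inj (c (g * M.av π (M.tl π d), pt) (g, ra (M.tl π d))), c2, b8, b4]; group
  refine ⟨k, ?_⟩
  rintro _ _ ⟨⟩
  exacts [b1 _ _, b2 _ _, b3 _ _, b4 _ _, b5 _ _, b6 _ _, by rw [← c1, b3, b5]; group, b8 _ _]

variable {M π}

theorem Ok.fl_H2 [Nonempty E] {root : W} {r g : ℕ} (H : M.Ok π root r g) (A : Type)
    [AddCommGroup A] (z : M.Vx π → M.Vx π → M.Vx π → A) :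
    ∃ α : M.Vx π → M.Vx π → A, ∀ u v w, M.Fl π u v w → α u v + α v w - α u w = z u v w := by
  classical
  let z1 := fun g d => z (g, cone ⟦M.tl π d⟧) (g, ra (M.tl π d)) (g, fc d.1)
  let z2 := fun g d => z (g * M.av π (M.tl π d), pt) (g, ra (M.tl π d)) (g, fc d.1)
  let z3 := fun g d => z (g * M.av π (M.tl π d), pt)
      (g * M.av π (.inl (M.src d.1)), ce (M.lab (M.col d.1))) (g, fc d.1)
  let Y : (M.Gp π × E →₀ ℤ) →+ A := lin fun p => z1 p.1 (p.2, true) - z2 p.1 (p.2, true) +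
    z3 p.1 (p.2, true) - z3 p.1 (p.2, false) + z2 p.1 (p.2, false) - z1 p.1 (p.2, false)
  let θ := Y - Y.comp ((M.Lam π).comp (M.d2 π))
  let a := fun g v => - θ (place g (M.pσ π v))
  let b := fun g x => Y (M.Lam π (Finsupp.single (g, x) 1))
  have key : ∀ g e, a g (.inl (M.src e)) - a g (.inr (M.tg (π e))) +
      b (g * M.av π (.inl (M.src e))) (M.lab (M.col e)) = Y (Finsupp.single (g, e) 1) := by
    intro g e
    have h1 := H.Lam_d2 (z := place g (M.cyc π e)) (by rw [(M.pt_ρ π e).Qc_eq]; simp)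
    have h2 : θ (place g (M.cyc π e)) = 0 := by simp [θ, h1]
    simp only [cyc, map_add, map_neg, tl_t, hd_t, ec, place_single] at h2
    have h3 : θ (Finsupp.single (g, e) 1) = Y (Finsupp.single (g, e) 1) -
      b (g * M.av π (.inl (M.src e))) (M.lab (M.col e)) := by simp [θ, b]
    rw [h3] at h2
    simp only [a]
    rw [← sub_eq_zero, ← neg_eq_zero, ← h2]; abel
  let sp := fun g d => z1 g d - a g (M.tl π d) - z2 g d
  let α : M.Vx π → M.Vx π → A := fun u v => match u, v with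
    | (_, cone _), (h, ra v) => a h v
    | (g, pt), (h, ce x) => if g = h then b h x else 0
    | (_, ra v), (h, fc e) => z (h, cone ⟦v⟧) (h, ra v) (h, fc e) - a h v
    | (g, pt), (h, fc e) => if g = h * M.av π (.inl (M.src e)) then sp h (e, true) else sp h (e, false)
    | (_, ce _), (h, fc e) => z3 h (e, false) + sp h (e, false)
    | _, _ => 0
  have n1 : ∀ g e, g * M.av π (.inr (M.tg (π e))) ≠ g * M.av π (.inl (M.src e)) := fun g e h => by
    rw [av_tg, mul_right_inj, mul_eq_left] at h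
    exact H.gen_ne _ h
  refine ⟨α, ?_⟩
  rintro _ _ _ (⟨g, d⟩ | ⟨g, e, _ | _⟩ | ⟨g, e, _ | _⟩)
  · simp [α]
  · simp [α, n1, sp, z1, z2]
  · simp [α, sp, z1, z2]
  · simp [α, n1, z3]
  · have := key g e
    simp only [Y, lin_single, one_smul] at this
    simp only [α, tl_t, if_true, sp, tl_f]
    rw [← sub_eq_zero, ← sub_eq_zero.2 this]
    simp only [z3, tl_t]
    abel

theorem Ok.cw [Nonempty E] [Finite P] [Finite E] [Finite W] [Finite B] {root : W} {r g : ℕ}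
    (H : M.Ok π root r g) : Crest.Topology.HasFiniteClassifyingComplex (M.Gp π) 2 := by
  haveI : Nonempty (Cell P E (W ⊕ B) (Quotient (M.cn π))) := ⟨pt⟩
  refine cw_prod Cell.dim (M.Fa π) (M.Fl π) ?_ ?_ ?_ (fun _ _ _ => M.fl_fa π)
    ({1} ∪ Set.range (M.gn π) ∪ Set.range (M.av π))
    (((Set.finite_singleton _).union (Set.finite_range _)).union (Set.finite_range _)) ?_
    (M.fa_conn π) (M.fl_H1 π) H.fl_H2
  · rintro k _ _ ⟨⟩ <;> simp only [← mul_assoc] <;> constructor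
  · rintro k _ _ _ ⟨⟩ <;> simp only [← mul_assoc] <;> constructor
  · rintro _ _ ⟨⟩ <;> simp [Cell.dim]
  · rintro _ _ ⟨⟩ <;> first | exact ⟨_, Or.inr ⟨_, rfl⟩, rfl⟩ | simp

end Mdl

theorem main_cw (p : ℕ) [Fact p.Prime] : ∃ (G : Type) (_ : Group G), Group.IsFinitelyPresented G ∧
    (∀ g : G, IsOfFinOrder g → g = 1) ∧ Crest.Topology.HasFiniteClassifyingComplex G 2 ∧
    ∃ a b c : MonoidAlgebra (ZMod p) G, a * b = 1 ∧ a * c = 0 ∧ c ≠ 0 := by
  obtain ⟨P, E, W, B, C, _, _, _, _, _, M, π, v0, w0, w1, r, g, H, ⟨S⟩⟩ := exists_ok p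
  exact ⟨M.Gp π, inferInstance, inferInstance, H.torsionFree, H.cw, H.kaplansky S⟩

end Crest.Agent.H6.Kap
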