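import Mathlib

/-! Combinatorics for the Lipschitz-free counterexample: involutive actions of large girth,
a counting local lemma, labelled cubic graphs with forest fibre products. -/

set_option autoImplicit false

namespace Crest.Agent.H6.LF

open Classical Finset

/-- reduced words -/
abbrev Red {S : Type} (w : List S) : Prop := w.IsChain (· ≠ ·)

/-- follow a word -/
def walk {S Q : Type} (act : S → Q → Q) : Q → List S → Q
  | q, [] => q
  | q, l :: w => walk act (act l q) w

@[simp] lemma walk_nil {S Q : Type} (act : S → Q → Q) (q : Q) : walk act q [] = q := rfl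
@[simp] lemma walk_cons {S Q : Type} (act : S → Q → Q) (q : Q) (l : S) (w : List S) :
    walk act q (l :: w) = walk act (act l q) w := rfl

lemma walk_append {S Q : Type} (act : S → Q → Q) (q : Q) (w w' : List S) :
    walk act q (w ++ w') = walk act (walk act q w) w' := by
  induction w generalizing q with
  | nil => rfl
  | cons l w ih => simp [ih]

lemma walk_inj {S Q : Type} (act : S → Q → Q) (hinv : ∀ l q, act l (act l q) = q) (w : List S)
    {q q' : Q} (h : walk act q w = walk act q' w) : q = q' := by
  induction w generalizing q q' with
  | nil => exact h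
  | cons l w ih =>
    have := ih h
    rw [← hinv l q, this, hinv]

/-- finite set with involutions acting freely up to length `L` -/
structure QD (S : Type) (L : ℕ) where
  Q : Type
  fin : Finite Q
  ne : Nonempty Q
  act : S → Q → Q
  inv : ∀ l q, act l (act l q) = q
  inj : ∀ q w w', Red w → Red w' → w.length ≤ L → w'.length ≤ L →
    walk act q w = walk act q w' → w = w'

section Girth
variable (S : Type) (L : ℕ)

abbrev Ball := {w : List S // Red w ∧ w.length ≤ L}

instance [Finite S] : Finite (Ball S L) := by
  have h : ({w : List S | Red w ∧ w.length ≤ L}).Finite :=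
    (List.finite_length_le S L).subset fun w hw => hw.2
  exact h.to_subtype

variable {S L}

noncomputable def push (l : S) (w : Ball S L) : Ball S L :=
  if h : w.1.head? = some l then ⟨w.1.tail, w.2.1.tail, by
      have := w.2.2; simp; omega⟩
  else if h2 : w.1.length < L then ⟨l :: w.1, by
      refine List.IsChain.cons w.2.1 ?_
      intro y hy hly
      apply h; rw [hly]; exact hy, by simp; omega⟩
  else w

lemma push_push (l : S) (w : Ball S L) : push l (push l w) = w := by
  obtain ⟨w, hw, hl⟩ := w
  by_cases h : w.head? = some l
  · cases w with
    | nil => simp at h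
    | cons a t =>
      simp at h; subst h
      have h1 : push a (⟨a :: t, hw, hl⟩ : Ball S L) = ⟨t, hw.tail, by simp at hl; omega⟩ := by
        simp [push]
      rw [h1]
      have h2 : ¬ t.head? = some a := by
        intro h; exact (hw.rel_head? h) rfl
      have h3 : t.length < L := by simp at hl; omega
      simp [push, h2, h3]
  · by_cases h2 : w.length < L
    · have h1 : push l (⟨w, hw, hl⟩ : Ball S L) = ⟨l :: w, by
          refine List.IsChain.cons hw ?_
          intro y hy hly
          apply h; rw [hly]; exact hy, by simp; omega⟩ := by
        simp [push, h, h2]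
      rw [h1]
      simp [push]
    · have h1 : push l (⟨w, hw, hl⟩ : Ball S L) = ⟨w, hw, hl⟩ := by
        simp [push, h, h2]
      rw [h1, h1]

noncomputable def pushE (l : S) : Equiv.Perm (Ball S L) :=
  Function.Involutive.toPerm (push l) (push_push l)

lemma walk_pushE (q : Equiv.Perm (Ball S L)) (w : List S) (hw : Red w) (hl : w.length ≤ L) :
    walk (fun l (g : Equiv.Perm (Ball S L)) => g * pushE l) q w
      ⟨[], List.isChain_nil, by simp⟩ = q ⟨w, hw, hl⟩ := by
  induction w generalizing q with
  | nil => rfl
  | cons a t ih =>
    have hl' : t.length ≤ L := by simp at hl; omega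
    rw [walk_cons, ih _ hw.tail hl']
    have h2 : ¬ t.head? = some a := by
      intro h; exact (hw.rel_head? h) rfl
    have h3 : t.length < L := by simp at hl; omega
    simp [pushE, push, h2, h3]

theorem exists_QD (S : Type) [Finite S] (L : ℕ) : Nonempty (QD S L) := by
  refine ⟨⟨Equiv.Perm (Ball S L), inferInstance, ⟨1⟩, fun l g => g * pushE l, ?_, ?_⟩⟩
  · intro l q
    ext1 w
    simp [pushE, push_push]
  · intro q w w' hw hw' hl hl' h
    have h1 := walk_pushE q w hw hl
    have h2 := walk_pushE q w' hw' hl'
    rw [h, h2] at h1
    have := q.injective h1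
    exact (congrArg Subtype.val this).symm

end Girth

section Rosenfeld

variable {V C E K : Type} [Fintype V] [Fintype C] [Fintype E] [Fintype K]

theorem rosenfeld (c0 : C) (supp : E → Finset V) (Bad : E → (V → C) → Prop)
    (key : E → (V → C) → K)
    (hdep : ∀ e f g, (∀ v ∈ supp e, f v = g v) → Bad e f → Bad e g)
    (hkey : ∀ e f g, Bad e f → Bad e g → key e f = key e g → ∀ v ∈ supp e, f v = g v)
    (L Δ β : ℕ) (hL : ∀ e f, Bad e f → L + 1 ≤ (supp e).card)
    (hΔ : ∀ v, (univ.filter fun e => v ∈ supp e).card ≤ Δ)
    (hβ : 1 ≤ β) (h : β ^ (L + 1) + Δ * Fintype.card K ≤ Fintype.card C * β ^ L) :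
    ∃ f, ∀ e, ¬ Bad e f := by
  let Good : Finset V → Finset (V → C) := fun F =>
    univ.filter fun f => (∀ v, v ∉ F → f v = c0) ∧ ∀ e, supp e ⊆ F → ¬ Bad e f
  have main : ∀ n, ∀ F : Finset V, F.card = n → ∀ v, v ∉ F →
      β * (Good F).card ≤ (Good (insert v F)).card := by
    intro n
    induction n using Nat.strong_induction_on with
    | _ n ih =>
    intro F hF v hv
    -- chains
    have chain : ∀ k, ∀ G : Finset V, G ⊆ F → (F \ G).card = k →
        β ^ k * (Good G).card ≤ (Good F).card := by
      intro k
      induction k with
      | zero =>
        intro G hG hk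
        have : F = G := by
          apply Finset.Subset.antisymm _ hG
          rw [Finset.card_eq_zero, Finset.sdiff_eq_empty_iff_subset] at hk
          exact hk
        simp [this]
      | succ k ihk =>
        intro G hG hk
        obtain ⟨u, hu⟩ : (F \ G).Nonempty := by
          rw [← Finset.card_pos]; omega
        rw [Finset.mem_sdiff] at hu
        have h1 : insert u G ⊆ F := Finset.insert_subset hu.1 hG
        have h2 : (F \ insert u G).card = k := by
          rw [Finset.sdiff_insert, Finset.card_erase_of_mem (Finset.mem_sdiff.2 hu), hk]; rfl
        have h3 := ihk _ h1 h2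
        have hlt : G.card < n := by
          rw [← hF]
          exact Finset.card_lt_card ⟨hG, fun h' => hu.2 (h' hu.1)⟩
        have h4 := ih _ hlt G rfl u hu.2
        calc β ^ (k + 1) * (Good G).card = β ^ k * (β * (Good G).card) := by ring
          _ ≤ β ^ k * (Good (insert u G)).card := Nat.mul_le_mul_left _ h4
          _ ≤ _ := h3
    let Ext : Finset (V → C) := univ.filter fun f =>
      (∀ u, u ∉ insert v F → f u = c0) ∧ ∀ e, supp e ⊆ F → ¬ Bad e f
    have hExt : Fintype.card C * (Good F).card ≤ Ext.card := by
      rw [← Finset.card_univ, ← Finset.card_product]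
      apply Finset.card_le_card_of_injOn (fun p => Function.update p.2 v p.1)
      · rintro ⟨s, f⟩ hp
        simp only [Finset.coe_product, Set.mem_prod, Finset.mem_coe, Good, Finset.mem_filter,
          Finset.mem_univ, true_and] at hp
        simp only [Ext, Finset.coe_filter, Finset.mem_univ, true_and, Set.mem_setOf_eq]
        refine ⟨fun u hu => ?_, fun e he hb => hp.2 e he (hdep e _ _ (fun u hu => ?_) hb)⟩
        · rw [Finset.mem_insert, not_or] at hu
          rw [Function.update_of_ne hu.1]; exact hp.1 u hu.2
        · have : u ≠ v := fun h' => hv (h' ▸ he hu)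
          rw [Function.update_of_ne this]
      · rintro ⟨s, f⟩ hp ⟨s', f'⟩ hp' heq
        simp only [Finset.coe_product, Set.mem_prod, Finset.mem_coe, Good, Finset.mem_filter,
          Finset.mem_univ, true_and] at hp hp'
        have h1 : s = s' := by
          have := congrFun heq v
          simpa using this
        have h2 : f = f' := by
          funext u
          by_cases hu : u = v
          · rw [hu, hp.1 v hv, hp'.1 v hv]
          · have := congrFun heq u
            simpa [Function.update_of_ne hu] using this
        rw [h1, h2]
    let Ev : Finset E := univ.filter fun e => v ∈ supp e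
    let B : E → Finset (V → C) := fun e => Ext.filter fun f => supp e ⊆ insert v F ∧ Bad e f
    have hcov : Ext ⊆ Good (insert v F) ∪ Ev.biUnion B := by
      intro f hf
      by_cases hg : f ∈ Good (insert v F)
      · exact Finset.mem_union_left _ hg
      · apply Finset.mem_union_right
        have hf' := hf
        simp only [Ext, Finset.mem_filter, Finset.mem_univ, true_and] at hf'
        simp only [Good, Finset.mem_filter, Finset.mem_univ, true_and, not_and, not_forall,
          not_not] at hg
        obtain ⟨e, he, hb⟩ := hg hf'.1
        refine Finset.mem_biUnion.2 ⟨e, ?_, Finset.mem_filter.2 ⟨hf, he, hb⟩⟩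
        simp only [Ev, Finset.mem_filter, Finset.mem_univ, true_and]
        by_contra hve
        refine hf'.2 e (fun u hu => ?_) hb
        rcases Finset.mem_insert.1 (he hu) with h' | h'
        · exact absurd (h' ▸ hu) hve
        · exact h'
    have hB : ∀ e ∈ Ev, β ^ L * (B e).card ≤ Fintype.card K * (Good F).card := by
      intro e he
      rcases (B e).eq_empty_or_nonempty with h0 | ⟨f0, hf0⟩
      · simp [h0]
      simp only [B, Finset.mem_filter] at hf0
      have hsub := hf0.2.1
      have hcard := hL e f0 hf0.2.2
      have h1 : (B e).card ≤ Fintype.card K * (Good (F \ supp e)).card := by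
        rw [← Finset.card_univ, ← Finset.card_product]
        apply Finset.card_le_card_of_injOn
          (fun f => (key e f, fun u => if u ∈ F \ supp e then f u else c0))
        · intro f hf
          simp only [B, Ext, Finset.coe_filter, Finset.mem_filter, Finset.mem_univ, true_and,
            Set.mem_setOf_eq] at hf
          simp only [Finset.coe_product, Set.mem_prod, Finset.mem_coe, Good, Finset.mem_filter,
            Finset.mem_univ, true_and]
          refine ⟨fun u hu => by rw [if_neg hu], fun e' he' hb => ?_⟩
          refine hf.1.2 e' (he'.trans Finset.sdiff_subset) (hdep e' _ _ (fun u hu => ?_) hb)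
          rw [if_pos (he' hu)]
        · intro f hf g hg heq
          simp only [B, Ext, Finset.coe_filter, Finset.mem_filter, Finset.mem_univ, true_and,
            Set.mem_setOf_eq] at hf hg
          rw [Prod.mk.injEq] at heq
          funext u
          by_cases hu : u ∈ supp e
          · exact hkey e f g hf.2.2 hg.2.2 heq.1 u hu
          · by_cases hu' : u ∈ F
            · have := congrFun heq.2 u
              simpa [hu, hu'] using this
            · have hu2 : u ∉ insert v F := by
                rw [Finset.mem_insert, not_or]
                refine ⟨fun h' => hu ?_, hu'⟩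
                simp only [Ev, Finset.mem_filter, Finset.mem_univ, true_and] at he
                exact h' ▸ he
              rw [hf.1.1 u hu2, hg.1.1 u hu2]
      have h2 := chain _ (F \ supp e) Finset.sdiff_subset rfl
      have h3 : L ≤ (F \ (F \ supp e)).card := by
        have : supp e ⊆ insert v (F \ (F \ supp e)) := by
          intro u hu
          rcases Finset.mem_insert.1 (hsub hu) with h' | h'
          · exact Finset.mem_insert.2 (Or.inl h')
          · refine Finset.mem_insert_of_mem ?_
            simp [h', hu]
        have h4 := Finset.card_le_card this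
        have h5 := Finset.card_insert_le v (F \ (F \ supp e))
        omega
      have h4 : β ^ L ≤ β ^ (F \ (F \ supp e)).card := Nat.pow_le_pow_right hβ h3
      calc β ^ L * (B e).card ≤ β ^ L * (Fintype.card K * (Good (F \ supp e)).card) :=
            Nat.mul_le_mul_left _ h1
        _ = Fintype.card K * (β ^ L * (Good (F \ supp e)).card) := by ring
        _ ≤ Fintype.card K * (β ^ (F \ (F \ supp e)).card * (Good (F \ supp e)).card) :=
            Nat.mul_le_mul_left _ (Nat.mul_le_mul_right _ h4)
        _ ≤ _ := Nat.mul_le_mul_left _ h2
    have h1 : Ext.card ≤ (Good (insert v F)).card + ∑ e ∈ Ev, (B e).card :=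
      (Finset.card_le_card hcov).trans ((Finset.card_union_le _ _).trans
        (Nat.add_le_add_left Finset.card_biUnion_le _))
    have h2 : β ^ L * ∑ e ∈ Ev, (B e).card ≤ Δ * (Fintype.card K * (Good F).card) := by
      rw [Finset.mul_sum]
      refine (Finset.sum_le_card_nsmul _ _ _ hB).trans ?_
      rw [smul_eq_mul]
      exact Nat.mul_le_mul_right _ (hΔ v)
    have h3 : β ^ L * (β * (Good F).card) ≤ β ^ L * (Good (insert v F)).card := by
      have h4 := Nat.mul_le_mul_right (Good F).card h
      have h5 := Nat.mul_le_mul_left (β ^ L) (hExt.trans h1)
      have : β ^ L * (β * (Good F).card) + Δ * (Fintype.card K * (Good F).card) ≤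
          β ^ L * (Good (insert v F)).card + Δ * (Fintype.card K * (Good F).card) := by
        calc _ = (β ^ (L + 1) + Δ * Fintype.card K) * (Good F).card := by ring
          _ ≤ Fintype.card C * β ^ L * (Good F).card := h4
          _ = β ^ L * (Fintype.card C * (Good F).card) := by ring
          _ ≤ _ := h5
          _ = β ^ L * (Good (insert v F)).card + β ^ L * ∑ e ∈ Ev, (B e).card := by ring
          _ ≤ _ := Nat.add_le_add_left h2 _
      omega
    exact Nat.le_of_mul_le_mul_left h3 (Nat.pow_pos (by omega))
  have hpos : ∀ F : Finset V, 0 < (Good F).card := by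
    intro F
    induction F using Finset.induction_on with
    | empty =>
      rw [Finset.card_pos]
      refine ⟨fun _ => c0, ?_⟩
      simp only [Good, Finset.mem_filter, Finset.mem_univ, true_and]
      refine ⟨fun _ _ => trivial, fun e he hb => ?_⟩
      have := hL e _ hb
      rw [Finset.subset_empty.1 he] at this
      simp at this
    | insert v F hv ih =>
      have := main _ F rfl v hv
      nlinarith
  obtain ⟨f, hf⟩ := Finset.card_pos.1 (hpos univ)
  simp only [Good, Finset.mem_filter, Finset.mem_univ, true_and] at hf
  exact ⟨f, fun e => hf.2 e (Finset.subset_univ _)⟩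

end Rosenfeld

end Crest.Agent.H6.LF
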