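import Crest.Agent.H6.LFa

/-! Labelled cubic graphs with pairwise forest fibre products. -/

set_option autoImplicit false

namespace Crest.Agent.H6.LF

open Classical Finset

/-- labelled cubic graph (three involutions, symbols on edges) -/
structure LG where
  V : Type
  fin : Finite V
  ne : Nonempty V
  st : Fin 3 → V → V
  inv : ∀ e v, st e (st e v) = v
  sym : V → Fin 3 → ZMod 16
  symm : ∀ e v, sym (st e v) e = sym v e

/-- symbols read along a direction word -/
def syms {V : Type} (st : Fin 3 → V → V) (sym : V → Fin 3 → ZMod 16) :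
    V → List (Fin 3) → List (ZMod 16)
  | _, [] => []
  | v, e :: u => sym v e :: syms st sym (st e v) u

lemma numeric (N : ℕ) : 8 ^ (6 * N + 1) + ((6 * N + 1) * 3 ^ (6 * N) * N) * 16
    ≤ 16 * 8 ^ (6 * N) := by
  have h1 : ∀ L : ℕ, L + 1 ≤ 2 ^ L := fun L => Nat.lt_two_pow_self
  have h2 : ∀ N : ℕ, 2 * N * 6 ^ (6 * N) ≤ 8 ^ (6 * N) := by
    intro N
    have h3 : (1 : ℝ) + (6 * N : ℕ) * (1 / 3) ≤ (1 + 1 / 3) ^ (6 * N) :=
      one_add_mul_le_pow (by norm_num) _
    have h4 : ((2 * N * 6 ^ (6 * N) : ℕ) : ℝ) ≤ ((8 ^ (6 * N) : ℕ) : ℝ) := by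
      push_cast at h3 ⊢
      have h5 : (8 : ℝ) ^ (6 * N) = (1 + 1 / 3) ^ (6 * N) * 6 ^ (6 * N) := by
        rw [← mul_pow]; norm_num
      rw [h5]
      apply mul_le_mul_of_nonneg_right _ (by positivity)
      linarith
    exact_mod_cast h4
  have h6 : (6 * N + 1) * 3 ^ (6 * N) ≤ 6 ^ (6 * N) := by
    calc _ ≤ 2 ^ (6 * N) * 3 ^ (6 * N) := Nat.mul_le_mul_right _ (h1 _)
      _ = 6 ^ (6 * N) := by rw [← mul_pow]; norm_num
  have h7 := h2 N
  have h8 : (6 * N + 1) * 3 ^ (6 * N) * N ≤ 6 ^ (6 * N) * N := Nat.mul_le_mul_right _ h6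
  rw [pow_succ]
  nlinarith

theorem exists_next (Y : Type) [Finite Y] (code : Y → List (Fin 3) → List (ZMod 16)) :
    ∃ (X : LG) (L : ℕ), ∀ v y u, u.length = L → Red u → syms X.st X.sym v u ≠ code y u := by
  haveI := Fintype.ofFinite Y
  set N := Fintype.card Y with hN
  set L := 6 * N with hLdef
  obtain ⟨D⟩ := exists_QD (Fin 3) L
  haveI := D.fin
  haveI := Fintype.ofFinite D.Q
  let sy : (D.Q → ZMod 16) → D.Q → Fin 3 → ZMod 16 := fun f v e => f v + f (D.act e v)
  let supp : D.Q × List.Vector (Fin 3) L × Y → Finset D.Q := fun e =>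
    (Finset.range (L + 1)).image fun i => walk D.act e.1 (e.2.1.1.take i)
  let Bad : D.Q × List.Vector (Fin 3) L × Y → (D.Q → ZMod 16) → Prop := fun e f =>
    Red e.2.1.1 ∧ syms D.act (sy f) e.1 e.2.1.1 = code e.2.2 e.2.1.1
  have hA : ∀ (f g : D.Q → ZMod 16) (u : List (Fin 3)) (v : D.Q),
      (∀ i, i ≤ u.length → f (walk D.act v (u.take i)) = g (walk D.act v (u.take i))) →
      syms D.act (sy f) v u = syms D.act (sy g) v u := by
    intro f g u
    induction u with
    | nil => intro v _; rfl
    | cons e u ih =>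
      intro v h
      have h0 := h 0 (by simp)
      have h1 := h 1 (by simp)
      simp only [List.take_zero, walk_nil] at h0
      simp only [List.take_succ_cons, List.take_zero, walk_cons, walk_nil] at h1
      simp only [syms, sy, h0, h1]
      congr 1
      apply ih
      intro i hi
      have := h (i + 1) (by simp; omega)
      simpa using this
  have hB : ∀ (f g : D.Q → ZMod 16) (u : List (Fin 3)) (v : D.Q),
      syms D.act (sy f) v u = syms D.act (sy g) v u → f v = g v →
      ∀ i, f (walk D.act v (u.take i)) = g (walk D.act v (u.take i)) := by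
    intro f g u
    induction u with
    | nil => intro v _ h i; simpa using h
    | cons e u ih =>
      intro v h h0 i
      simp only [syms, List.cons.injEq, sy] at h
      cases i with
      | zero => simpa using h0
      | succ i =>
        simp only [List.take_succ_cons, walk_cons]
        apply ih _ h.2
        have := h.1
        rw [h0] at this
        exact add_left_cancel this
  obtain ⟨f, hf⟩ := rosenfeld (V := D.Q) (C := ZMod 16) (K := ZMod 16) 0 supp Bad
    (fun e f => f e.1)
    (by
      rintro ⟨v, u, y⟩ f g h ⟨h1, h2⟩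
      refine ⟨h1, ?_⟩
      rw [← h2]
      symm
      apply hA
      intro i hi
      apply h
      refine Finset.mem_image.2 ⟨i, ?_, rfl⟩
      rw [u.2] at hi
      simp; omega)
    (by
      rintro ⟨v, u, y⟩ f g ⟨h1, h2⟩ ⟨h3, h4⟩ hk w hw
      obtain ⟨i, -, rfl⟩ := Finset.mem_image.1 hw
      exact hB f g _ _ (h2.trans h4.symm) hk i)
    L ((L + 1) * 3 ^ L * N) 8
    (by
      rintro ⟨v, u, y⟩ f ⟨h1, -⟩
      rw [Finset.card_image_of_injOn, Finset.card_range]
      intro i hi j hj hij
      simp only [Finset.coe_range, Set.mem_Iio] at hi hj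
      have hu : u.1.length = L := u.2
      have := D.inj v _ _ (h1.take i) (h1.take j) (by simp [hu]) (by simp [hu]) hij
      have h2 := congrArg List.length this
      simp only [List.length_take, hu] at h2
      omega)
    (by
      intro w
      have hc : (L + 1) * 3 ^ L * N =
          (univ : Finset (Fin (L + 1) × List.Vector (Fin 3) L × Y)).card := by
        simp [card_vector, hN, mul_assoc]
      rw [hc]
      have hex : ∀ e : D.Q × List.Vector (Fin 3) L × Y, ∃ i : Fin (L + 1), w ∈ supp e →
          walk D.act e.1 (e.2.1.1.take i) = w := by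
        intro e
        by_cases h : w ∈ supp e
        · obtain ⟨i, hi, h2⟩ := Finset.mem_image.1 h
          exact ⟨⟨i, Finset.mem_range.1 hi⟩, fun _ => h2⟩
        · exact ⟨0, fun h' => absurd h' h⟩
      choose ι hι using hex
      apply Finset.card_le_card_of_injOn (fun e => (ι e, e.2))
      · intro e _; simp
      · rintro ⟨v, u, y⟩ he ⟨v', u', y'⟩ he' heq
        simp only [Finset.coe_filter, Finset.mem_univ, true_and, Set.mem_setOf_eq] at he he'
        simp only [Prod.mk.injEq] at heq
        obtain ⟨h1, rfl, rfl⟩ := heq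
        have h2 := hι _ he
        have h3 := hι _ he'
        simp only at h2 h3
        rw [h1] at h2
        have := walk_inj D.act D.inv _ (h2.trans h3.symm)
        rw [this])
    (by norm_num)
    (by
      have := numeric N
      simpa [ZMod.card, hLdef] using this)
  refine ⟨⟨D.Q, D.fin, D.ne, D.act, D.inv, sy f, ?_⟩, L, ?_⟩
  · intro e v
    simp only [sy, D.inv, add_comm]
  · intro v y u hu hr heq
    exact hf (v, ⟨u, hu⟩, y) ⟨hr, heq⟩

/-- orientation of a forest: pointing towards the longest continuation -/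
theorem exists_zpar {Z : Type} (st : Fin 3 → Z → Z) (hinv : ∀ e z, st e (st e z) = z)
    (mt : Z → Fin 3 → Prop) (hmt : ∀ z e, mt z e → mt (st e z) e)
    (P : Z → List (Fin 3) → Prop) (hP0 : ∀ z, P z [])
    (hP : ∀ z e u, P z (e :: u) ↔ mt z e ∧ P (st e z) u) (L : ℕ)
    (hL : ∀ z u, u.length = L → Red u → ¬ P z u) :
    ∃ zp : Z → Fin 3, ∀ z η, mt z η → η ≠ zp z → zp (st η z) = η := by
  have htake : ∀ u z i, P z u → P z (u.take i) := by
    intro u
    induction u with
    | nil => intro z i h; simpa using h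
    | cons e u ih =>
      intro z i h
      cases i with
      | zero => simpa using hP0 z
      | succ i =>
        rw [List.take_succ_cons, hP]
        rw [hP] at h
        exact ⟨h.1, ih _ _ h.2⟩
  have hlt : ∀ z u, Red u → P z u → u.length < L := by
    intro z u hr hp
    by_contra hc
    push Not at hc
    exact hL z (u.take L) (by simp [hc]) (hr.take L) (htake _ _ _ hp)
  let R : Z → Fin 3 → ℕ → Prop := fun z e k =>
    ∃ u : List (Fin 3), u.length + 1 = k ∧ Red (e :: u) ∧ P z (e :: u)
  let h : Z → Fin 3 → ℕ := fun z e => Nat.findGreatest (R z e) L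
  have hle : ∀ z e k, R z e k → k ≤ h z e := by
    rintro z e k ⟨u, hu, hr, hp⟩
    apply Nat.le_findGreatest _ ⟨u, hu, hr, hp⟩
    have := hlt z _ hr hp
    simp at this; omega
  have hspec : ∀ z e, h z e ≠ 0 → R z e (h z e) := fun z e h0 =>
    Nat.findGreatest_of_ne_zero rfl h0
  have hpos : ∀ z e, mt z e → 1 ≤ h z e := by
    intro z e hm
    exact hle z e 1 ⟨[], rfl, List.isChain_singleton _, (hP _ _ _).2 ⟨hm, hP0 _⟩⟩
  have hstep : ∀ z η θ, mt z η → θ ≠ η → h (st η z) θ + 1 ≤ h z η := by
    intro z η θ hm hne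
    by_cases h0 : h (st η z) θ = 0
    · rw [h0]; exact hpos z η hm
    · obtain ⟨u, hu, hr, hp⟩ := hspec _ _ h0
      apply hle
      refine ⟨θ :: u, by simp [hu], ?_, (hP _ _ _).2 ⟨hm, hp⟩⟩
      exact List.isChain_cons_cons.2 ⟨hne.symm, hr⟩
  have hex : ∀ z, ∃ e : Fin 3, ∀ e', h z e' ≤ h z e := fun z => by
    obtain ⟨e, -, he⟩ := Finset.exists_max_image univ (h z) univ_nonempty
    exact ⟨e, fun e' => he e' (mem_univ _)⟩
  choose zp hzp using hex
  refine ⟨zp, fun z η hm hne => ?_⟩
  by_contra hc
  have h1 := hstep z η _ hm hc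
  have h2 := hstep (st η z) η (zp z) (hmt _ _ hm) hne.symm
  rw [hinv] at h2
  have h3 := hzp z η
  have h4 := hzp (st η z) η
  omega

/-- parent rule on the fibre product -/
def ZP (X Y : LG) (zp : X.V → Y.V → Fin 3) : Prop :=
  ∀ v' v η, X.sym v' η = Y.sym v η → η ≠ zp v' v → zp (X.st η v') (Y.st η v) = η

theorem exists_seq : ∃ X : ℕ → LG, ∀ j n, j < n → ∃ zp, ZP (X n) (X j) zp := by
  obtain ⟨X, -, hX⟩ := exists_seq_of_forall_finset_exists (fun _ : LG => True)
    (fun Y X => ∃ zp, ZP X Y zp) (by
      intro s _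
      have hne : ∀ G : LG, ∃ n : ℕ, Nonempty (G.V ≃ Fin n) := fun G => by
        haveI := G.fin
        exact Finite.exists_equiv_fin G.V
      choose nn hnn using hne
      let eq : ∀ G : LG, G.V ≃ Fin (nn G) := fun G => (hnn G).some
      let Y : Type := Σ i : Fin s.card, Fin (nn (s.equivFin.symm i).1)
      obtain ⟨X, L, hX⟩ := exists_next Y (fun y u =>
        syms (s.equivFin.symm y.1).1.st (s.equivFin.symm y.1).1.sym ((eq _).symm y.2) u)
      refine ⟨X, trivial, fun G hG => ?_⟩
      obtain ⟨i, hi⟩ : ∃ i, s.equivFin.symm i = ⟨G, hG⟩ :=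
        ⟨s.equivFin ⟨G, hG⟩, by simp⟩
      have hG' : (s.equivFin.symm i).1 = G := by rw [hi]
      subst hG'
      set G := (s.equivFin.symm i).1 with hGdef
      obtain ⟨zp, hzp⟩ := exists_zpar (Z := X.V × G.V) (fun e z => (X.st e z.1, G.st e z.2))
        (by intro e z; simp [X.inv, G.inv])
        (fun z e => X.sym z.1 e = G.sym z.2 e)
        (by intro z e h; simp only [X.symm, G.symm]; exact h)
        (fun z u => syms X.st X.sym z.1 u = syms G.st G.sym z.2 u)
        (fun z => rfl) (by intro z e u; simp [syms]) L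
        (by
          intro z u hu hr h
          apply hX z.1 ⟨i, eq _ z.2⟩ u hu hr
          simpa using h)
      exact ⟨fun v' v => zp (v', v), fun v' v η h1 h2 => hzp (v', v) η h1 h2⟩)
  exact ⟨X, hX⟩

end Crest.Agent.H6.LF
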