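import Crest.Agent.H6.LFb

/-! Flows along parent structures. -/

set_option autoImplicit false

namespace Crest.Agent.H6.LF

open Classical Finset

section Flow
variable {Z : Type} (stp : Fin 3 → Z → Z) (R : ℕ)

noncomputable def gam (d : ℕ) : ℝ := max 0 (1 - (d : ℝ) / R)

noncomputable def inn (par : Z → Fin 3) (g : Z → ℝ) (z : Z) : ℝ :=
  if par (stp (par z) z) ≠ par z then g (stp (par z) z) else 0

noncomputable def out (D : Z → ℕ) (par : Z → Fin 3) : ℕ → Z → ℝ
  | 0 => fun _ => 0
  | k + 1 => fun z => (gam R (D z) + inn stp par (out D par k) z) / 2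

noncomputable def Phi (D : Z → ℕ) (par : Z → Fin 3) (z : Z) (η : Fin 3) : ℝ :=
  if η ≠ par z then out stp R D par (R + 1) z else 0

noncomputable def GG (D : Z → ℕ) (par : Z → Fin 3) (z : Z) : ℝ :=
  gam R (D z) + inn stp par (out stp R D par R) z - inn stp par (out stp R D par (R + 1)) z

lemma gam_nonneg (d : ℕ) : 0 ≤ gam R d := le_max_left _ _

lemma gam_le_one (d : ℕ) : gam R d ≤ 1 := by
  refine max_le zero_le_one ?_
  have : (0 : ℝ) ≤ (d : ℝ) / R := by positivity
  linarith

lemma gam_zero : gam R 0 = 1 := by simp [gam]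

lemma gam_eq_zero (hR : 0 < R) (d : ℕ) (h : R ≤ d) : gam R d = 0 := by
  unfold gam
  rw [max_eq_left]
  have h1 : (0 : ℝ) < R := by exact_mod_cast hR
  have h2 : (1 : ℝ) ≤ (d : ℝ) / R := by
    rw [le_div_iff₀ h1, one_mul]; exact_mod_cast h
  linarith

lemma gam_lip (hR : 0 < R) (d d' : ℕ) (h : d ≤ d' + 1) (h' : d' ≤ d + 1) :
    |gam R d - gam R d'| ≤ 1 / R := by
  have h0 := abs_max_sub_max_le_abs (1 - (d : ℝ) / R) (1 - (d' : ℝ) / R) 0
  rw [max_comm _ (0 : ℝ), max_comm _ (0 : ℝ)] at h0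
  refine h0.trans ?_
  have h1 : (0 : ℝ) < R := by exact_mod_cast hR
  have : 1 - (d : ℝ) / R - (1 - (d' : ℝ) / R) = ((d' : ℝ) - d) / R := by ring
  rw [this, abs_div, abs_of_pos h1]
  apply div_le_div_of_nonneg_right _ h1.le
  have h2 : (d : ℝ) ≤ d' + 1 := by exact_mod_cast h
  have h3 : (d' : ℝ) ≤ d + 1 := by exact_mod_cast h'
  rw [abs_le]; constructor <;> linarith

variable (D : Z → ℕ) (par : Z → Fin 3)

lemma out_mem (k : ℕ) (z : Z) : 0 ≤ out stp R D par k z ∧ out stp R D par k z ≤ 1 := by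
  induction k generalizing z with
  | zero => simp [out]
  | succ k ih =>
    have h1 := gam_nonneg R (D z)
    have h2 := gam_le_one R (D z)
    have h3 := ih (stp (par z) z)
    simp only [out, inn]
    split_ifs <;> constructor <;> linarith

lemma inn_diff (g g' : Z → ℝ) (c : ℝ) (hc : 0 ≤ c) (h : ∀ z, |g z - g' z| ≤ c) (z : Z) :
    |inn stp par g z - inn stp par g' z| ≤ c := by
  unfold inn
  split_ifs
  · exact h _
  · simpa using hc

lemma out_succ_diff (k : ℕ) (z : Z) :
    |out stp R D par (k + 1) z - out stp R D par k z| ≤ (1 / 2) ^ (k + 1) := by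
  induction k generalizing z with
  | zero =>
    have h1 := gam_nonneg R (D z)
    have h2 := gam_le_one R (D z)
    simp only [out, inn, ite_self]
    rw [abs_le]; constructor <;> linarith
  | succ k ih =>
    have h := inn_diff stp par _ _ _ (by positivity) ih z
    have : out stp R D par (k + 1 + 1) z - out stp R D par (k + 1) z =
        (inn stp par (out stp R D par (k + 1)) z - inn stp par (out stp R D par k) z) / 2 := by
      rw [out, out]; ring
    rw [this, abs_div, pow_succ _ (k + 1)]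
    rw [abs_two]
    linarith

lemma GG_close (hR : 0 < R) (z : Z) : |GG stp R D par z - gam R (D z)| ≤ 1 / (2 * R) := by
  have h := inn_diff stp par _ _ _ (by positivity) (out_succ_diff stp R D par R) z
  have h1 : GG stp R D par z - gam R (D z) =
      -(inn stp par (out stp R D par (R + 1)) z - inn stp par (out stp R D par R) z) := by
    unfold GG; ring
  rw [h1, abs_neg]
  refine h.trans ?_
  have h2 : (R : ℝ) ≤ 2 ^ R := by exact_mod_cast (Nat.lt_two_pow_self (n := R)).le
  have h3 : (0 : ℝ) < R := by exact_mod_cast hR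
  rw [one_div_pow, pow_succ]
  apply one_div_le_one_div_of_le (by positivity)
  linarith

lemma Phi_mem (z : Z) (η : Fin 3) : 0 ≤ Phi stp R D par z η ∧ Phi stp R D par z η ≤ 1 := by
  unfold Phi
  split_ifs
  · exact out_mem stp R D par _ z
  · simp

variable {stp R D par}

lemma out_eq_zero (hR : 0 < R) (hD : ∀ η z, D z ≤ D (stp η z) + 1) (k : ℕ) (z : Z)
    (h : R + k ≤ D z + 1) : out stp R D par k z = 0 := by
  induction k generalizing z with
  | zero => rfl
  | succ k ih =>
    have h1 := gam_eq_zero R hR (D z) (by omega)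
    have h2 := ih (stp (par z) z) (by have := hD (par z) z; omega)
    simp [out, inn, h1, h2]

lemma div_eq (hR : 0 < R) (hD : ∀ η z, D z ≤ D (stp η z) + 1)
    (hP : ∀ z η, D z ≤ 2 * R + 1 → η ≠ par z → par (stp η z) = η) (z : Z) :
    ∑ η, Phi stp R D par z η - ∑ η, Phi stp R D par (stp η z) η = GG stp R D par z := by
  have h1 : ∑ η, Phi stp R D par z η = 2 * out stp R D par (R + 1) z := by
    unfold Phi
    rw [← Finset.sum_filter, Finset.sum_const, Finset.filter_ne', Finset.card_erase_of_mem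
      (mem_univ _)]
    simp
  have h2 : ∑ η, Phi stp R D par (stp η z) η = inn stp par (out stp R D par (R + 1)) z := by
    rw [Finset.sum_eq_single (par z)]
    · unfold Phi inn
      simp only [ne_comm]
    · intro η _ hη
      unfold Phi
      split_ifs with h
      · apply out_eq_zero hR hD
        by_contra hc
        have := hD η z
        exact h (hP z η (by omega) hη).symm
      · rfl
    · simp
  rw [h1, h2, GG, out]
  ring

lemma out_lip (hR : 0 < R) {D' : Z → ℕ} {par' : Z → Fin 3}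
    (hD : ∀ η z, D z ≤ D (stp η z) + 1) (hD2 : ∀ η z, D (stp η z) ≤ D z + 1)
    (hD' : ∀ η z, D' z ≤ D' (stp η z) + 1)
    (h1 : ∀ z, D z ≤ D' z + 1) (h2 : ∀ z, D' z ≤ D z + 1)
    (hp : ∀ z, D z ≤ 2 * R + 1 → par z = par' z) (k : ℕ) (hk : k ≤ R + 1) (z : Z) :
    |out stp R D par k z - out stp R D' par' k z| ≤ 1 / R := by
  induction k generalizing z with
  | zero => simp [out]
  | succ k ih =>
    have hg := gam_lip R hR (D z) (D' z) (h1 z) (h2 z)
    have hi : |inn stp par (out stp R D par k) z - inn stp par' (out stp R D' par' k) z|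
        ≤ 1 / R := by
      by_cases hz : D z ≤ 2 * R
      · unfold inn
        rw [← hp z (by omega), ← hp (stp (par z) z) (by have := hD2 (par z) z; omega)]
        split_ifs
        · exact ih (by omega) _
        · simp
      · have e1 : out stp R D par k (stp (par z) z) = 0 :=
          out_eq_zero hR hD _ _ (by have := hD (par z) z; omega)
        have e2 : out stp R D' par' k (stp (par' z) z) = 0 :=
          out_eq_zero hR hD' _ _ (by have := hD' (par' z) z; have := h1 z; omega)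
        simp [inn, e1, e2]
    have : out stp R D par (k + 1) z - out stp R D' par' (k + 1) z =
        ((gam R (D z) - gam R (D' z)) + (inn stp par (out stp R D par k) z -
          inn stp par' (out stp R D' par' k) z)) / 2 := by
      rw [out, out]; ring
    rw [this, abs_div, abs_two]
    have := abs_add_le (gam R (D z) - gam R (D' z)) (inn stp par (out stp R D par k) z -
          inn stp par' (out stp R D' par' k) z)
    linarith

lemma Phi_lip (hR : 0 < R) {D' : Z → ℕ} {par' : Z → Fin 3}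
    (hD : ∀ η z, D z ≤ D (stp η z) + 1) (hD2 : ∀ η z, D (stp η z) ≤ D z + 1)
    (hD' : ∀ η z, D' z ≤ D' (stp η z) + 1)
    (h1 : ∀ z, D z ≤ D' z + 1) (h2 : ∀ z, D' z ≤ D z + 1)
    (hp : ∀ z, D z ≤ 2 * R + 1 → par z = par' z) (z : Z) (η : Fin 3) :
    |Phi stp R D par z η - Phi stp R D' par' z η| ≤ 1 / R := by
  by_cases hz : D z ≤ 2 * R + 1
  · unfold Phi
    rw [← hp z hz]
    split_ifs
    · exact out_lip hR hD hD2 hD' h1 h2 hp _ le_rfl z
    · simp
  · have e1 : out stp R D par (R + 1) z = 0 := out_eq_zero hR hD _ _ (by omega)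
    have e2 : out stp R D' par' (R + 1) z = 0 :=
      out_eq_zero hR hD' _ _ (by have := h1 z; omega)
    simp [Phi, e1, e2]

end Flow

section Words
variable {S : Type} {L : ℕ} (Dd : QD S L)

def Near (t' : Dd.Q) (ω : List S) (t : Dd.Q) : Prop :=
  Red ω ∧ ω.length ≤ L ∧ walk Dd.act t' ω = t

noncomputable def W (t' t : Dd.Q) : List S := if h : ∃ ω, Near Dd t' ω t then h.choose else []

noncomputable def DD (t' t : Dd.Q) : ℕ :=
  if ∃ ω, Near Dd t' ω t then (W Dd t' t).length else L + 1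

variable {Dd}

lemma near_W {t' t : Dd.Q} {ω : List S} (h : Near Dd t' ω t) :
    W Dd t' t = ω ∧ DD Dd t' t = ω.length := by
  have hex : ∃ ω, Near Dd t' ω t := ⟨ω, h⟩
  have h1 : W Dd t' t = ω := by
    unfold W
    rw [dif_pos hex]
    have := hex.choose_spec
    exact Dd.inj t' _ _ this.1 h.1 this.2.1 h.2.1 (this.2.2.trans h.2.2.symm)
  refine ⟨h1, ?_⟩
  unfold DD
  rw [if_pos hex, h1]

lemma W_near {t' t : Dd.Q} (h : DD Dd t' t ≤ L) :
    Near Dd t' (W Dd t' t) t ∧ DD Dd t' t = (W Dd t' t).length := by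
  by_cases hex : ∃ ω, Near Dd t' ω t
  · obtain ⟨ω, hω⟩ := hex
    have := near_W hω
    rw [this.1]; exact ⟨hω, this.2⟩
  · unfold DD at h
    rw [if_neg hex] at h
    omega

lemma DD_le (t' t : Dd.Q) : DD Dd t' t ≤ L + 1 := by
  by_cases h : DD Dd t' t ≤ L
  · omega
  · unfold DD at h ⊢
    split_ifs at h ⊢ with hex
    · obtain ⟨ω, hω⟩ := hex
      have := (near_W hω).1
      rw [this] at h
      exact absurd hω.2.1 h
    · rfl

lemma DD_self (t : Dd.Q) : DD Dd t t = 0 :=
  (near_W (ω := []) ⟨List.isChain_nil, by simp, rfl⟩).2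

lemma left_step (l : S) {t' t : Dd.Q} (h : DD Dd t' t + 1 ≤ L) :
    (W Dd t' t = l :: W Dd (Dd.act l t') t ∨ W Dd (Dd.act l t') t = l :: W Dd t' t) ∧
      DD Dd (Dd.act l t') t ≤ DD Dd t' t + 1 := by
  obtain ⟨⟨h1, h2, h3⟩, h4⟩ := W_near (t' := t') (t := t) (by omega)
  generalize W Dd t' t = ω at h1 h2 h3 h4
  by_cases hh : ω.head? = some l
  · cases ω with
    | nil => simp at hh
    | cons a u =>
      simp only [List.head?_cons, Option.some.injEq] at hh
      subst hh
      have := near_W (t' := Dd.act a t') (t := t) (ω := u)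
        ⟨h1.tail, by simp at h2; omega, h3⟩
      rw [this.1, this.2, h4]
      exact ⟨Or.inl rfl, by simp; omega⟩
  · have := near_W (t' := Dd.act l t') (t := t) (ω := l :: ω)
      ⟨by
        refine List.IsChain.cons h1 ?_
        intro y hy hly
        apply hh; rw [hly]; exact hy, by simp; omega, by simp [Dd.inv, h3]⟩
    rw [this.1, this.2, h4]
    exact ⟨Or.inr rfl, by simp⟩

lemma right_step (l : S) {t' t : Dd.Q} (h : DD Dd t' t + 1 ≤ L) :
    (W Dd t' t = W Dd t' (Dd.act l t) ++ [l] ∨ W Dd t' (Dd.act l t) = W Dd t' t ++ [l]) ∧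
      DD Dd t' (Dd.act l t) ≤ DD Dd t' t + 1 := by
  obtain ⟨⟨h1, h2, h3⟩, h4⟩ := W_near (t' := t') (t := t) (by omega)
  generalize W Dd t' t = ω at h1 h2 h3 h4
  by_cases hh : ω.getLast? = some l
  · obtain ⟨u, rfl⟩ := List.getLast?_eq_some_iff.1 hh
    have := near_W (t' := t') (t := Dd.act l t) (ω := u)
      ⟨(List.isChain_append.1 h1).1, by simp at h2; omega, by
        rw [← h3, walk_append]; simp [Dd.inv]⟩
    rw [this.1, this.2, h4]
    exact ⟨Or.inl rfl, by simp; omega⟩
  · have := near_W (t' := t') (t := Dd.act l t) (ω := ω ++ [l])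
      ⟨by
        refine List.IsChain.append h1 (List.isChain_singleton _) ?_
        intro x hx y hy hxy
        simp only [List.head?_cons, Option.mem_def, Option.some.injEq] at hy
        apply hh; rw [hy, ← hxy]; exact hx, by simp; omega, by
        rw [walk_append, h3]; rfl⟩
    rw [this.1, this.2, h4]
    exact ⟨Or.inr rfl, by simp⟩

lemma DD_left (l : S) (t' t : Dd.Q) : DD Dd (Dd.act l t') t ≤ DD Dd t' t + 1 := by
  by_cases h : DD Dd t' t + 1 ≤ L
  · exact (left_step l h).2
  · have := DD_le (Dd.act l t') t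
    omega

lemma DD_right (l : S) (t' t : Dd.Q) : DD Dd t' (Dd.act l t) ≤ DD Dd t' t + 1 := by
  by_cases h : DD Dd t' t + 1 ≤ L
  · exact (right_step l h).2
  · have := DD_le t' (Dd.act l t)
    omega

lemma DD_left' (l : S) (t' t : Dd.Q) : DD Dd t' t ≤ DD Dd (Dd.act l t') t + 1 := by
  have := DD_left l (Dd.act l t') t
  rwa [Dd.inv] at this

lemma DD_right' (l : S) (t' t : Dd.Q) : DD Dd t' t ≤ DD Dd t' (Dd.act l t) + 1 := by
  have := DD_right l t' (Dd.act l t)
  rwa [Dd.inv] at this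

end Words

section Par

abbrev SS := Fin 3 × ZMod 16

variable {L : ℕ} (Dd : QD SS L)

def lab (Y : LG) (v : Y.V) (e : Fin 3) : SS := (e, Y.sym v e)

def stp (Y : LG) (e : Fin 3) (x : Y.V × Dd.Q) : Y.V × Dd.Q :=
  (Y.st e x.1, Dd.act (lab Y x.1 e) x.2)

lemma lab_st (Y : LG) (v : Y.V) (e : Fin 3) : lab Y (Y.st e v) e = lab Y v e := by
  simp [lab, Y.symm]

lemma stp_stp (Y : LG) (e : Fin 3) (x : Y.V × Dd.Q) : stp Dd Y e (stp Dd Y e x) = x := by
  simp [stp, lab_st, Y.inv, Dd.inv]

def dir : List SS → Fin 3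
  | [] => 0
  | l :: _ => l.1

noncomputable def par (X : LG) {U : Type} (A : List SS → U → Prop) (zp : X.V → U → Fin 3)
    (t : Dd.Q) (x : X.V × Dd.Q) : Fin 3 :=
  if h : ∃ z, A (W Dd x.2 t) z then zp x.1 h.choose else dir (W Dd x.2 t)

lemma par_prop (X Y : LG) (A : List SS → Y.V → Prop) (zp : X.V → Y.V → Fin 3)
    (hA1 : ∀ ω z z', A ω z → A ω z' → z = z')
    (hA2 : ∀ l ω z, A (l :: ω) z ↔ lab Y z l.1 = l ∧ A ω (Y.st l.1 z))
    (hz : ∀ ω v' z η, A ω z → X.sym v' η = Y.sym z η → η ≠ zp v' z →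
      zp (X.st η v') (Y.st η z) = η)
    (t : Dd.Q) (x : X.V × Dd.Q) (η : Fin 3) (h : DD Dd x.2 t + 1 ≤ L)
    (hη : η ≠ par Dd X A zp t x) : par Dd X A zp t (stp Dd X η x) = η := by
  have hpar : ∀ (y : X.V × Dd.Q) z, A (W Dd y.2 t) z → par Dd X A zp t y = zp y.1 z := by
    intro y z hy
    have hex : ∃ z, A (W Dd y.2 t) z := ⟨z, hy⟩
    unfold par
    rw [dif_pos hex, hA1 _ _ _ hex.choose_spec hy]
  have hpar' : ∀ (y : X.V × Dd.Q), (¬ ∃ z, A (W Dd y.2 t) z) →
      par Dd X A zp t y = dir (W Dd y.2 t) := by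
    intro y hy
    unfold par
    rw [dif_neg hy]
  rcases (left_step (lab X x.1 η) h).1 with h1 | h1
  · by_cases hex : ∃ z, A (W Dd x.2 t) z
    · obtain ⟨z, hz1⟩ := hex
      rw [hpar x z hz1] at hη
      have hz2 := hz1
      rw [h1, hA2] at hz2
      rw [hpar (stp Dd X η x) _ hz2.2]
      exact hz _ _ _ _ hz1 (congrArg Prod.snd hz2.1).symm hη
    · rw [hpar' x hex, h1] at hη
      exact absurd rfl hη
  · by_cases hex : ∃ z, A (W Dd (stp Dd X η x).2 t) z
    · obtain ⟨z, hz1⟩ := hex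
      rw [hpar _ z hz1]
      have hz2 := hz1
      change A (W Dd (Dd.act (lab X x.1 η) x.2) t) z at hz2
      rw [h1, hA2] at hz2
      rw [hpar x _ hz2.2] at hη
      have h3 : X.sym x.1 η = Y.sym (Y.st η z) η := by
        rw [Y.symm]; exact (congrArg Prod.snd hz2.1).symm
      have := hz _ _ _ _ hz2.2 h3 hη
      change zp (X.st η x.1) (Y.st η (Y.st η z)) = η at this
      rw [Y.inv] at this
      exact this
    · rw [hpar' _ hex]
      change dir (W Dd (Dd.act (lab X x.1 η) x.2) t) = η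
      rw [h1]; rfl

def Reads (Y : LG) (v : Y.V) : List SS → Y.V → Prop
  | [], z => z = v
  | l :: w, z => lab Y z l.1 = l ∧ Reads Y v w (Y.st l.1 z)

lemma reads_unique (Y : LG) (v : Y.V) (ω : List SS) (z z' : Y.V) (h : Reads Y v ω z)
    (h' : Reads Y v ω z') : z = z' := by
  induction ω generalizing z z' with
  | nil => exact h.trans h'.symm
  | cons l w ih =>
    have := ih _ _ h.2 h'.2
    rw [← Y.inv l.1 z, this, Y.inv]

lemma reads_append (Y : LG) (v : Y.V) (e : Fin 3) (ω : List SS) (z : Y.V) :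
    Reads Y (Y.st e v) (ω ++ [lab Y v e]) z ↔ Reads Y v ω z := by
  induction ω generalizing z with
  | nil =>
    simp only [List.nil_append, Reads]
    constructor
    · rintro ⟨-, h⟩
      change Y.st e z = Y.st e v at h
      rw [← Y.inv e z, h, Y.inv]
    · rintro rfl
      exact ⟨rfl, rfl⟩
  | cons l w ih => simp only [List.cons_append, Reads, ih]

lemma par_indep_aux (X Y : LG) (zp : X.V → Y.V → Fin 3) (v : Y.V) (e : Fin 3) (t1 t2 : Dd.Q)
    (x : X.V × Dd.Q) (h : W Dd x.2 t2 = W Dd x.2 t1 ++ [lab Y v e]) :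
    par Dd X (Reads Y v) zp t1 x = par Dd X (Reads Y (Y.st e v)) zp t2 x := by
  have h1 : Reads Y (Y.st e v) (W Dd x.2 t2) = Reads Y v (W Dd x.2 t1) := by
    funext z
    rw [h, reads_append]
  unfold par
  simp only [h1]
  split_ifs with hex
  · rfl
  · rw [h]
    cases hw : W Dd x.2 t1 with
    | nil => exact absurd ⟨v, by rw [hw]; rfl⟩ hex
    | cons l w => rfl

lemma par_indep (X Y : LG) (zp : X.V → Y.V → Fin 3) (b : Y.V × Dd.Q) (e : Fin 3)
    (x : X.V × Dd.Q) (h : DD Dd x.2 b.2 + 1 ≤ L) :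
    par Dd X (Reads Y b.1) zp b.2 x =
      par Dd X (Reads Y (stp Dd Y e b).1) zp (stp Dd Y e b).2 x := by
  rcases (right_step (lab Y b.1 e) h).1 with h1 | h1
  · have := par_indep_aux Dd X Y zp (Y.st e b.1) e (Dd.act (lab Y b.1 e) b.2) b.2 x
      (by rw [lab_st]; exact h1)
    rw [Y.inv] at this
    exact this.symm
  · exact par_indep_aux Dd X Y zp b.1 e b.2 _ x h1

end Par

end Crest.Agent.H6.LF
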