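import Mathlib
import Crest.Prelude.Def_LipschitzFree

/-! General facts on Lipschitz-free spaces over uniformly discrete spaces. -/

set_option autoImplicit false

namespace Crest.Agent.H6.LF

open Classical Finset Crest.AnalysisR UniformSpace

variable (P : PointedMetric)

/-- the distance of `P` -/
noncomputable def dd (x y : P.M) : ℝ := @dist P.M P.metric.toDist x y

/-- Dirac molecule -/
noncomputable def dl (x : P.M) : P.Mol := (Finsupp.single x (1 : ℝ) : P.M →₀ ℝ)

lemma pairing_dl (x : P.M) (f : P.M → ℝ) : P.pairing (dl P x) f = f x := by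
  unfold PointedMetric.pairing PointedMetric.coeffs dl
  rw [Finsupp.sum_single_index] <;> simp

lemma pairing_sub (a b : P.Mol) (f : P.M → ℝ) :
    P.pairing (a - b) f = P.pairing a f - P.pairing b f := by
  rw [sub_eq_add_neg, P.pairing_add, P.pairing_neg]; ring

lemma pairing_eq (a : P.Mol) (f : P.M → ℝ) :
    P.pairing a f = ∑ x ∈ (P.coeffs a).support, P.coeffs a x * f x := rfl

lemma norm_mol (a : P.Mol) : ‖a‖ = P.freeNorm a := rfl

lemma norm_le_of (a : P.Mol) (c : ℝ)
    (h : ∀ f : P.M → ℝ, (∀ x y, |f x - f y| ≤ dd P x y) → f P.base = 0 →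
      |P.pairing a f| ≤ c) : ‖a‖ ≤ c := by
  letI := P.metric
  rw [norm_mol]
  refine ciSup_le fun f => h f.1 (fun x y => ?_) f.2.2
  have := f.2.1.dist_le_mul x y
  rw [Real.dist_eq, NNReal.coe_one, one_mul] at this
  exact this

lemma abs_pairing_le_norm (a : P.Mol) (f : P.M → ℝ) (κ : ℝ) (hκ : 0 < κ)
    (hf : ∀ x y, |f x - f y| ≤ κ * dd P x y) (h0 : f P.base = 0) :
    |P.pairing a f| ≤ κ * ‖a‖ := by
  letI := P.metric
  let g : P.Lip1 := ⟨fun x => f x / κ, by
    refine LipschitzWith.of_dist_le_mul fun x y => ?_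
    rw [Real.dist_eq, NNReal.coe_one, one_mul, ← sub_div, abs_div, abs_of_pos hκ,
      div_le_iff₀ hκ, mul_comm]
    exact hf x y, by simp [h0]⟩
  have h1 : |P.pairing a g.1| ≤ ‖a‖ := le_ciSup (P.freeNorm_bddAbove a) g
  have h2 : P.pairing a f = κ * P.pairing a g.1 := by
    rw [pairing_eq, pairing_eq, Finset.mul_sum]
    refine Finset.sum_congr rfl fun x _ => ?_
    simp only [g]; field_simp
  rw [h2, abs_mul, abs_of_pos hκ]
  exact mul_le_mul_of_nonneg_left h1 hκ.le

lemma norm_dl_sub (x y : P.M) : ‖dl P x - dl P y‖ ≤ dd P x y := by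
  refine norm_le_of P _ _ fun f hf _ => ?_
  rw [pairing_sub, pairing_dl, pairing_dl]
  exact hf x y

lemma norm_dl (x : P.M) : ‖dl P x‖ ≤ dd P x P.base := by
  refine norm_le_of P _ _ fun f hf h0 => ?_
  rw [pairing_dl]
  simpa [h0] using hf x P.base

/-- multiplication of the coefficients by a weight -/
noncomputable def mulW (w : P.M → ℝ) : P.Mol →ₗ[ℝ] P.Mol where
  toFun a := (Finsupp.onFinset (P.coeffs a).support (fun x => w x * P.coeffs a x) (by
    intro x hx
    rw [Finsupp.mem_support_iff]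
    intro h; simp [h] at hx) : P.M →₀ ℝ)
  map_add' a b := by
    apply Finsupp.ext
    intro x
    change w x * (P.coeffs a + P.coeffs b) x = w x * P.coeffs a x + w x * P.coeffs b x
    simp [mul_add]
  map_smul' c a := by
    apply Finsupp.ext
    intro x
    change w x * (c • P.coeffs a) x = c • (w x * P.coeffs a x)
    simp; ring

lemma coeffs_mulW (w : P.M → ℝ) (a : P.Mol) (x : P.M) :
    P.coeffs (mulW P w a) x = w x * P.coeffs a x := rfl

lemma pairing_mulW (w f : P.M → ℝ) (a : P.Mol) :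
    P.pairing (mulW P w a) f = P.pairing a (fun x => w x * f x) := by
  rw [pairing_eq, pairing_eq]
  rw [Finset.sum_subset (s₂ := (P.coeffs a).support)]
  · refine Finset.sum_congr rfl fun x _ => ?_
    rw [coeffs_mulW]; ring
  · intro x hx
    rw [Finsupp.mem_support_iff] at hx ⊢
    intro h; rw [coeffs_mulW, h] at hx; simp at hx
  · intro x _ hx
    rw [Finsupp.notMem_support_iff] at hx
    rw [hx]; simp

theorem exists_op (w : P.M → ℝ) (C : ℝ) (hC : 0 < C)
    (h : ∀ f : P.M → ℝ, (∀ x y, |f x - f y| ≤ dd P x y) → f P.base = 0 →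
      ∀ x y, |w x * f x - w y * f y| ≤ C * dd P x y) :
    ∃ T : P.FreeSpace →L[ℝ] P.FreeSpace, ‖T‖ ≤ C ∧
      ∀ a : P.Mol, T (a : P.FreeSpace) = ((mulW P w a : P.Mol) : P.FreeSpace) := by
  have hb : ∀ a, ‖mulW P w a‖ ≤ C * ‖a‖ := by
    intro a
    refine norm_le_of P _ _ fun f hf h0 => ?_
    rw [pairing_mulW]
    exact abs_pairing_le_norm P a _ C hC (h f hf h0) (by simp [h0])
  let T0 : P.Mol →L[ℝ] P.Mol := (mulW P w).mkContinuous C hb
  have hT : ∀ a : P.Mol, T0.completion (a : P.FreeSpace) = ((mulW P w a : P.Mol) : P.FreeSpace) :=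
    fun a => by rw [ContinuousLinearMap.completion_apply_coe]; rfl
  refine ⟨T0.completion, ?_, hT⟩
  refine ContinuousLinearMap.opNorm_le_bound _ hC.le fun x => ?_
  induction x using Completion.induction_on with
  | hp => exact isClosed_le (by fun_prop) (by fun_prop)
  | ih a => rw [hT, Completion.norm_coe, Completion.norm_coe]; exact hb a

theorem exists_net (K : Set P.FreeSpace) (hK : IsCompact K) (δ : ℝ) (hδ : 0 < δ) :
    ∃ B : Finset P.M, ∀ x ∈ K, ∃ a : P.Mol, (P.coeffs a).support ⊆ B ∧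
      ‖x - (a : P.FreeSpace)‖ ≤ δ := by
  obtain ⟨t, ht⟩ := hK.elim_finite_subcover
    (fun a : P.Mol => Metric.ball (a : P.FreeSpace) δ) (fun a => Metric.isOpen_ball) (by
      intro x _
      obtain ⟨a, ha⟩ := (Completion.denseRange_coe (α := P.Mol)).exists_dist_lt x hδ
      exact Set.mem_iUnion.2 ⟨a, ha⟩)
  refine ⟨t.biUnion fun a => (P.coeffs a).support, fun x hx => ?_⟩
  obtain ⟨a, ha, h2⟩ := Set.mem_iUnion₂.1 (ht hx)
  refine ⟨a, Finset.subset_biUnion_of_mem (fun a => (P.coeffs a).support) ha, ?_⟩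
  rw [← dist_eq_norm]
  exact (Metric.mem_ball.1 h2).le

theorem exists_net_range (T : P.FreeSpace →L[ℝ] P.FreeSpace)
    (hT : FiniteDimensional ℝ (LinearMap.range T.toLinearMap)) (C δ : ℝ) (hδ : 0 < δ) :
    ∃ B : Finset P.M, ∀ x, ‖T x‖ ≤ C → ∃ a : P.Mol, (P.coeffs a).support ⊆ B ∧
      ‖T x - (a : P.FreeSpace)‖ ≤ δ := by
  haveI := FiniteDimensional.proper_real (LinearMap.range T.toLinearMap)
  have hK : IsCompact ((fun y : LinearMap.range T.toLinearMap => (y : P.FreeSpace)) ''
      Metric.closedBall 0 C) := (isCompact_closedBall _ _).image continuous_subtype_val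
  obtain ⟨B, hB⟩ := exists_net P _ hK δ hδ
  refine ⟨B, fun x hx => hB _ ⟨⟨T x, ⟨x, rfl⟩⟩, ?_, rfl⟩⟩
  simpa using hx

lemma dd_comm (x y : P.M) : dd P x y = dd P y x := by
  letI := P.metric; exact dist_comm x y

lemma dd_tri (x y z : P.M) : dd P x z ≤ dd P x y + dd P y z := by
  letI := P.metric; exact dist_triangle x y z

lemma dd_nonneg (x y : P.M) : 0 ≤ dd P x y := by
  letI := P.metric; exact dist_nonneg

lemma dd_self (x : P.M) : dd P x x = 0 := by
  letI := P.metric; exact dist_self x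

theorem hasAP (hsep : ∀ x y : P.M, x ≠ y → 1 ≤ dd P x y) : HasAP P.FreeSpace := by
  intro K hK ε hε
  obtain ⟨B1, hB1⟩ := exists_net P K hK (ε / 8) (by positivity)
  obtain ⟨ρ, hρ, hρB⟩ : ∃ ρ : ℝ, 0 < ρ ∧ ∀ x ∈ B1, dd P x P.base ≤ ρ := by
    refine ⟨1 + ∑ x ∈ B1, dd P x P.base, ?_, fun x hx => ?_⟩
    · have := Finset.sum_nonneg (s := B1) fun x _ => dd_nonneg P x P.base
      linarith
    · have := Finset.single_le_sum (s := B1) (fun x _ => dd_nonneg P x P.base) hx
      linarith
  let ψ : P.M → ℝ := fun x => max 0 (min 1 (2 - dd P x P.base / ρ))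
  have hψ0 : ∀ x, 0 ≤ ψ x := fun x => le_max_left _ _
  have hψ1 : ∀ x, ψ x ≤ 1 := fun x => max_le zero_le_one (min_le_left _ _)
  have hψB : ∀ x ∈ B1, ψ x = 1 := by
    intro x hx
    have h1 : dd P x P.base / ρ ≤ 1 := (div_le_one hρ).2 (hρB x hx)
    simp only [ψ]
    rw [min_eq_left (by linarith), max_eq_right zero_le_one]
  have hψz : ∀ x, 2 * ρ ≤ dd P x P.base → ψ x = 0 := by
    intro x hx
    have h1 : 2 ≤ dd P x P.base / ρ := (le_div_iff₀ hρ).2 hx
    simp only [ψ]
    rw [max_eq_left]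
    exact (min_le_right _ _).trans (by linarith)
  have hψL : ∀ x y, |ψ x - ψ y| ≤ dd P x y / ρ := by
    intro x y
    have h0 := abs_max_sub_max_le_abs (min 1 (2 - dd P x P.base / ρ))
      (min 1 (2 - dd P y P.base / ρ)) 0
    rw [max_comm _ (0 : ℝ), max_comm _ (0 : ℝ)] at h0
    refine h0.trans ((abs_min_sub_min_le_max _ _ _ _).trans ?_)
    rw [sub_self, abs_zero]
    refine max_le (div_nonneg (dd_nonneg P _ _) hρ.le) ?_
    have h1 := dd_tri P x y P.base
    have h2 := dd_tri P y x P.base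
    rw [dd_comm P y x] at h2
    have : 2 - dd P x P.base / ρ - (2 - dd P y P.base / ρ)
        = (dd P y P.base - dd P x P.base) / ρ := by ring
    rw [this, abs_div, abs_of_pos hρ]
    apply div_le_div_of_nonneg_right _ hρ.le
    rw [abs_le]; constructor <;> linarith
  have hfb : ∀ f : P.M → ℝ, (∀ x y, |f x - f y| ≤ dd P x y) → f P.base = 0 →
      ∀ x, |ψ x * f x| ≤ 2 * ρ := by
    intro f hf h0 x
    by_cases hx : 2 * ρ ≤ dd P x P.base
    · rw [hψz x hx]; simp; exact hρ.le
    · have h1 := hf x P.base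
      rw [h0, sub_zero] at h1
      rw [abs_mul, abs_of_nonneg (hψ0 x)]
      have := hψ1 x
      have := hψ0 x
      have := abs_nonneg (f x)
      push Not at hx
      nlinarith
  obtain ⟨S, hS, hSa⟩ := exists_op P ψ 3 (by norm_num) (by
    intro f hf h0
    have key : ∀ x y, dd P y P.base < 2 * ρ → |ψ x * f x - ψ y * f y| ≤ 3 * dd P x y := by
      intro x y hy
      have h1 := hf y P.base
      rw [h0, sub_zero] at h1
      have h2 : ψ x * f x - ψ y * f y = ψ x * (f x - f y) + (ψ x - ψ y) * f y := by ring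
      rw [h2]
      refine (abs_add_le _ _).trans ?_
      rw [abs_mul, abs_mul, abs_of_nonneg (hψ0 x)]
      have h3 : ψ x * |f x - f y| ≤ 1 * dd P x y :=
        mul_le_mul (hψ1 x) (hf x y) (abs_nonneg _) zero_le_one
      have h4 : |ψ x - ψ y| * |f y| ≤ dd P x y / ρ * (2 * ρ) :=
        mul_le_mul (hψL x y) (by linarith) (abs_nonneg _) (div_nonneg (dd_nonneg P _ _) hρ.le)
      have h5 : dd P x y / ρ * (2 * ρ) = 2 * dd P x y := by field_simp
      linarith
    intro x y
    by_cases hy : dd P y P.base < 2 * ρ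
    · exact key x y hy
    · by_cases hx : dd P x P.base < 2 * ρ
      · rw [abs_sub_comm, dd_comm]; exact key y x hx
      · push Not at hx hy
        rw [hψz x hx, hψz y hy]
        have := dd_nonneg P x y
        simp; linarith)
  obtain ⟨B, hB⟩ := exists_net P K hK (ε / (2 * (4 * ρ + 3))) (by positivity)
  obtain ⟨T, hT, hTa⟩ := exists_op P (fun x => if x ∈ B then ψ x else 0) (4 * ρ) (by positivity) (by
    intro f hf h0 x y
    by_cases hxy : x = y
    · subst hxy; simp [dd_self]
    have h1 := hsep x y hxy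
    have h2 : ∀ x, |(if x ∈ B then ψ x else 0) * f x| ≤ 2 * ρ := by
      intro x
      split_ifs
      · exact hfb f hf h0 x
      · simp; exact hρ.le
    refine (abs_sub _ _).trans ?_
    have := h2 x
    have := h2 y
    nlinarith)
  refine ⟨T, ?_, fun x hx => ?_⟩
  · let W : Submodule ℝ P.FreeSpace :=
      Submodule.span ℝ ((B.image fun b => ((dl P b : P.Mol) : P.FreeSpace) : Finset _) : Set _)
    haveI : FiniteDimensional ℝ W := FiniteDimensional.span_finset ℝ _
    have hW : IsClosed (W : Set P.FreeSpace) := W.closed_of_finiteDimensional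
    refine Submodule.finiteDimensional_of_le (S₂ := W) ?_
    rintro _ ⟨x, rfl⟩
    change T x ∈ (W : Set P.FreeSpace)
    induction x using Completion.induction_on with
    | hp => exact hW.preimage T.continuous
    | ih a =>
      rw [hTa]
      have h1 : mulW P (fun x => if x ∈ B then ψ x else 0) a =
          ∑ b ∈ B, (ψ b * P.coeffs a b) • dl P b := by
        apply Finsupp.ext
        intro x
        change P.coeffs (mulW P _ a) x =
          (∑ b ∈ B, (ψ b * P.coeffs a b) • (Finsupp.single b (1 : ℝ) : P.M →₀ ℝ)) x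
        rw [coeffs_mulW]
        simp [Finsupp.finset_sum_apply, Finsupp.single_apply]
      rw [h1]
      change (Completion.toComplL : P.Mol →L[ℝ] P.FreeSpace) _ ∈ W
      rw [map_sum]
      refine W.sum_mem fun b hb => ?_
      rw [map_smul]
      refine W.smul_mem _ (Submodule.subset_span ?_)
      simp only [Finset.coe_image, Set.mem_image, Finset.mem_coe]
      exact ⟨b, hb, rfl⟩
  · obtain ⟨a, ha, h1⟩ := hB1 x hx
    obtain ⟨b, hb, h2⟩ := hB x hx
    have e1 : S (a : P.FreeSpace) = a := by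
      rw [hSa]; congr 1
      apply Finsupp.ext
      intro y
      change P.coeffs (mulW P _ a) y = P.coeffs a y
      rw [coeffs_mulW]
      by_cases hy : y ∈ (P.coeffs a).support
      · rw [hψB y (ha hy), one_mul]
      · rw [Finsupp.notMem_support_iff.1 hy, mul_zero]
    have e2 : T (b : P.FreeSpace) = S b := by
      rw [hSa, hTa]; congr 1
      apply Finsupp.ext
      intro y
      change P.coeffs (mulW P _ b) y = P.coeffs (mulW P _ b) y
      rw [coeffs_mulW, coeffs_mulW]
      by_cases hy : y ∈ (P.coeffs b).support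
      · rw [if_pos (hb hy)]
      · rw [Finsupp.notMem_support_iff.1 hy, mul_zero, mul_zero]
    have e3 : T x - x = T (x - b) - S (x - b) + S (x - a) - (x - a) := by
      simp only [map_sub, e1, e2]; abel
    have n1 : ‖T (x - b)‖ ≤ 4 * ρ * (ε / (2 * (4 * ρ + 3))) :=
      (T.le_opNorm _).trans (mul_le_mul hT h2 (norm_nonneg _) (by positivity))
    have n2 : ‖S (x - b)‖ ≤ 3 * (ε / (2 * (4 * ρ + 3))) :=
      (S.le_opNorm _).trans (mul_le_mul hS h2 (norm_nonneg _) (by positivity))
    have n3 : ‖S (x - a)‖ ≤ 3 * (ε / 8) :=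
      (S.le_opNorm _).trans (mul_le_mul hS h1 (norm_nonneg _) (by positivity))
    have n4 : 4 * ρ * (ε / (2 * (4 * ρ + 3))) + 3 * (ε / (2 * (4 * ρ + 3))) = ε / 2 := by
      field_simp
    rw [e3]
    have n5 := norm_sub_le (T (x - b) - S (x - b) + S (x - a)) (x - a)
    have n6 := norm_add_le (T (x - b) - S (x - b)) (S (x - a))
    have n7 := norm_sub_le (T (x - b)) (S (x - b))
    linarith

/-- metric generated by edges of length at least one -/
theorem exists_metric {M : Type} (E : M → M → ℝ → Prop) (o : M) (ht : M → ℝ)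
    (hE : ∀ p q c, E p q c → 1 ≤ c)
    (hht : ∀ f : M → ℝ, (∀ p q c, E p q c → |f p - f q| ≤ c) → ∀ p, |f p - f o| ≤ ht p) :
    ∃ m : MetricSpace M, (∀ p q, p ≠ q → 1 ≤ dd ⟨M, m, o⟩ p q) ∧
      (∀ p q c, E p q c → dd ⟨M, m, o⟩ p q ≤ c) ∧ (∀ p, dd ⟨M, m, o⟩ p o ≤ ht p) ∧
      ∀ (f : M → ℝ) (κ : ℝ), 0 < κ → (∀ p q c, E p q c → |f p - f q| ≤ κ * c) →
        ∀ p q, |f p - f q| ≤ κ * dd ⟨M, m, o⟩ p q := by
  let L : Type := {f : M → ℝ // ∀ p q c, E p q c → |f p - f q| ≤ c}
  haveI : Nonempty L := ⟨⟨fun _ => 0, fun p q c h => by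
    have := hE p q c h; simp; linarith⟩⟩
  let d : M → M → ℝ := fun p q => ⨆ f : L, |f.1 p - f.1 q|
  have hbdd : ∀ p q, BddAbove (Set.range fun f : L => |f.1 p - f.1 q|) := by
    intro p q
    refine ⟨ht p + ht q, ?_⟩
    rintro _ ⟨f, rfl⟩
    have h1 := hht f.1 f.2 p
    have h2 := hht f.1 f.2 q
    have h3 := abs_sub_le (f.1 p) (f.1 o) (f.1 q)
    rw [abs_sub_comm (f.1 o)] at h3
    simp only
    linarith
  have hle : ∀ (f : L) p q, |f.1 p - f.1 q| ≤ d p q := fun f p q => le_ciSup (hbdd p q) f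
  have hsep : ∀ p q, p ≠ q → 1 ≤ d p q := by
    intro p q hpq
    have := hle ⟨fun x => if x = p then 1 else 0, fun x y c h => by
      have := hE x y c h
      simp only
      split_ifs <;> simp <;> linarith⟩ p q
    simpa [hpq.symm] using this
  let m : MetricSpace M :=
    { dist := d
      dist_self := fun p => by simp [d]
      dist_comm := fun p q => by simp only [d, abs_sub_comm]
      dist_triangle := fun p q s => ciSup_le fun f =>
        (abs_sub_le _ _ _).trans (add_le_add (hle f p q) (hle f q s))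
      eq_of_dist_eq_zero := fun {p q} h => by
        by_contra hpq
        have := hsep p q hpq
        change d p q = 0 at h
        linarith }
  refine ⟨m, hsep, fun p q c h => ciSup_le fun f => f.2 p q c h,
    fun p => ciSup_le fun f => hht f.1 f.2 p, fun f κ hκ hf p q => ?_⟩
  have := hle ⟨fun x => f x / κ, fun x y c h => by
    rw [← sub_div, abs_div, abs_of_pos hκ, div_le_iff₀ hκ, mul_comm]
    exact hf x y c h⟩ p q
  simp only at this
  rw [← sub_div, abs_div, abs_of_pos hκ, div_le_iff₀ hκ, mul_comm] at this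
  exact this

end Crest.Agent.H6.LF
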