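import Crest.Agent.H6.LFd

/-! The duality inequality behind the failure of the bounded approximation property. -/

set_option autoImplicit false

namespace Crest.Agent.H6.LF

open Classical Finset Crest.AnalysisR UniformSpace

variable (P : PointedMetric)

theorem dual_ineq (T : P.FreeSpace →L[ℝ] P.FreeSpace)
    (hfin : FiniteDimensional ℝ (LinearMap.range T.toLinearMap)) (lam : ℝ) (hT : ‖T‖ ≤ lam)
    (A : Set P.M)
    (hA : ∀ a ∈ A, ‖T ((dl P a : P.Mol) : P.FreeSpace) - ((dl P a : P.Mol) : P.FreeSpace)‖ ≤ 1)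
    (C r κG κW θ : ℝ) (hκG : 0 < κG) (hκW : 0 < κW)
    (hcert : ∀ B : Finset P.M, ∃ (Z : Type) (_ : Finite Z) (_ : Nonempty Z)
      (stp : Fin 3 → Z → Z) (pt an : Z → P.M) (G : Z → P.M → ℝ) (Φ : Z → Fin 3 → P.M → ℝ),
      (∀ η z, stp η (stp η z) = z) ∧ (∀ z, an z ∈ A) ∧ (∀ z, dd P (pt z) P.base ≤ C) ∧
      (∀ z, dd P (an z) P.base ≤ C) ∧ (∀ z, dd P (an z) (pt z) ≤ r) ∧
      (∀ η z, dd P (pt z) (pt (stp η z)) ≤ 1) ∧ (∀ z, G z P.base = 0) ∧
      (∀ z η, Φ z η P.base = 0) ∧ (∀ z p q, |G z p - G z q| ≤ κG * dd P p q) ∧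
      (∀ z η p q, |Φ z η p - Φ z η q| ≤ κW * dd P p q) ∧
      (∀ z, ∀ p ∈ B, ∑ η, Φ z η p - ∑ η, Φ (stp η z) η p = G z p) ∧
      (∀ z, θ ≤ G z (an z))) :
    θ - 2 * κG ≤ κG * (lam * r + 2) + 3 * (κW * (lam + 2)) := by
  have hlam : 0 ≤ lam := (norm_nonneg _).trans hT
  obtain ⟨B, hB⟩ := exists_net_range P T hfin (lam * C) 1 one_pos
  obtain ⟨Z, _, _, stp, pt, an, G, Φ, hinv, hanA, hptC, hanC, hr, h1, hG0, hΦ0, hGL, hΦL,
    hdiv, hθ⟩ := hcert B
  haveI := Fintype.ofFinite Z
  have hw : ∀ p : P.M, ∃ a : P.Mol, dd P p P.base ≤ C → (P.coeffs a).support ⊆ B ∧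
      ‖T ((dl P p : P.Mol) : P.FreeSpace) - (a : P.FreeSpace)‖ ≤ 1 := by
    intro p
    by_cases hp : dd P p P.base ≤ C
    · obtain ⟨a, ha⟩ := hB ((dl P p : P.Mol) : P.FreeSpace) (by
        refine (T.le_opNorm _).trans (mul_le_mul hT ?_ (norm_nonneg _) hlam)
        rw [Completion.norm_coe]
        exact (norm_dl P p).trans hp)
      exact ⟨a, fun _ => ha⟩
    · exact ⟨0, fun h => absurd h hp⟩
  choose w hw using hw
  have hdiff : ∀ p q c, dd P p P.base ≤ C → dd P q P.base ≤ C → dd P p q ≤ c →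
      ‖w p - w q‖ ≤ lam * c + 2 := by
    intro p q c hp hq hc
    rw [← Completion.norm_coe, Completion.coe_sub]
    have h2 := (hw p hp).2
    have h3 := (hw q hq).2
    have h4 : ‖T (((dl P p : P.Mol) : P.FreeSpace) - ((dl P q : P.Mol) : P.FreeSpace))‖
        ≤ lam * c := by
      refine (T.le_opNorm _).trans (mul_le_mul hT ?_ (norm_nonneg _) hlam)
      rw [← Completion.coe_sub, Completion.norm_coe]
      exact (norm_dl_sub P p q).trans hc
    rw [map_sub] at h4
    set a := T ((dl P p : P.Mol) : P.FreeSpace)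
    set b := T ((dl P q : P.Mol) : P.FreeSpace)
    have h5 : ((w p : P.Mol) : P.FreeSpace) - (w q : P.Mol) =
        (a - b) - (a - (w p : P.Mol)) + (b - (w q : P.Mol)) := by abel
    rw [h5]
    have h6 := norm_add_le ((a - b) - (a - (w p : P.Mol))) (b - (w q : P.Mol))
    have h7 := norm_sub_le (a - b) (a - (w p : P.Mol))
    linarith
  have hup : ∑ z, (P.pairing (w (an z) - w (pt z)) (G z) +
      ∑ η, P.pairing (w (pt z) - w (pt (stp η z))) (Φ z η)) ≤
      ∑ _z : Z, (κG * (lam * r + 2) + 3 * (κW * (lam + 2))) := by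
    refine Finset.sum_le_sum fun z _ => add_le_add ?_ ?_
    · refine (le_abs_self _).trans ((abs_pairing_le_norm P _ _ κG hκG (hGL z) (hG0 z)).trans ?_)
      exact mul_le_mul_of_nonneg_left (hdiff _ _ _ (hanC z) (hptC z) (hr z)) hκG.le
    · have : ∀ η ∈ (univ : Finset (Fin 3)), P.pairing (w (pt z) - w (pt (stp η z))) (Φ z η) ≤
          κW * (lam + 2) := by
        intro η _
        refine (le_abs_self _).trans
          ((abs_pairing_le_norm P _ _ κW hκW (hΦL z η) (hΦ0 z η)).trans ?_)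
        have := hdiff _ _ _ (hptC z) (hptC (stp η z)) (h1 η z)
        rw [mul_one] at this
        exact mul_le_mul_of_nonneg_left this hκW.le
      have := Finset.sum_le_card_nsmul _ _ _ this
      simpa using this
  have hre : ∑ z, ∑ η, P.pairing (w (pt (stp η z))) (Φ z η) =
      ∑ z, ∑ η, P.pairing (w (pt z)) (Φ (stp η z) η) := by
    rw [Finset.sum_comm, Finset.sum_comm (f := fun z η => P.pairing (w (pt z)) (Φ (stp η z) η))]
    refine Finset.sum_congr rfl fun η _ => ?_
    let e : Z ≃ Z := Function.Involutive.toPerm (stp η) (hinv η)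
    rw [← Equiv.sum_comp e]
    refine Finset.sum_congr rfl fun z _ => ?_
    simp [e, hinv]
  have hz : ∀ z, ∑ η, P.pairing (w (pt z)) (Φ z η) - ∑ η, P.pairing (w (pt z)) (Φ (stp η z) η)
      = P.pairing (w (pt z)) (G z) := by
    intro z
    simp only [pairing_eq]
    rw [Finset.sum_comm, Finset.sum_comm (s := univ), ← Finset.sum_sub_distrib]
    refine Finset.sum_congr rfl fun p hp => ?_
    rw [← Finset.mul_sum, ← Finset.mul_sum, ← mul_sub, hdiv z p ((hw _ (hptC z)).1 hp)]
  have heq : ∑ z, (P.pairing (w (an z) - w (pt z)) (G z) +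
      ∑ η, P.pairing (w (pt z) - w (pt (stp η z))) (Φ z η)) =
      ∑ z, P.pairing (w (an z)) (G z) := by
    simp only [pairing_sub, Finset.sum_add_distrib, Finset.sum_sub_distrib]
    rw [hre, ← Finset.sum_congr rfl fun z _ => hz z, Finset.sum_sub_distrib]
    ring
  have hlow : ∑ _z : Z, (θ - 2 * κG) ≤ ∑ z, P.pairing (w (an z)) (G z) := by
    refine Finset.sum_le_sum fun z _ => ?_
    have h2 : ‖w (an z) - dl P (an z)‖ ≤ 2 := by
      rw [← Completion.norm_coe, Completion.coe_sub]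
      have h3 := (hw _ (hanC z)).2
      have h4 := hA _ (hanA z)
      set a := T ((dl P (an z) : P.Mol) : P.FreeSpace)
      have h5 : ((w (an z) : P.Mol) : P.FreeSpace) - (dl P (an z) : P.Mol) =
          (a - (dl P (an z) : P.Mol)) - (a - (w (an z) : P.Mol)) := by abel
      rw [h5]
      have h7 := norm_sub_le (a - (dl P (an z) : P.Mol)) (a - (w (an z) : P.Mol))
      linarith
    have h3 := abs_pairing_le_norm P (w (an z) - dl P (an z)) _ κG hκG (hGL z) (hG0 z)
    rw [pairing_sub, pairing_dl] at h3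
    have h4 := neg_abs_le (P.pairing (w (an z)) (G z) - G z (an z))
    have h5 := mul_le_mul_of_nonneg_left h2 hκG.le
    have := hθ z
    linarith
  rw [heq] at hup
  have hfin := hlow.trans hup
  simp only [Finset.sum_const, Finset.card_univ, nsmul_eq_mul] at hfin
  have hpos : (0 : ℝ) < Fintype.card Z := by exact_mod_cast Fintype.card_pos
  exact le_of_mul_le_mul_left hfin hpos

end Crest.Agent.H6.LF
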