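import Crest.Agent.H6.LFc

/-! The dual certificate inside one block. -/

set_option autoImplicit false

namespace Crest.Agent.H6.LF

open Classical Finset

abbrev Pt (X : ℕ → LG) (Q : Type) : Type := Q ⊕ Σ j, (X j).V × Q

theorem cert (X : ℕ → LG) (hX : ∀ j n, j < n → ∃ zp, ZP (X n) (X j) zp) (R : ℕ) (hR : 0 < R)
    (Dd : QD SS (2 * R + 2)) (n : ℕ) :
    ∃ (G : (X n).V × Dd.Q → Pt X Dd.Q → ℝ) (Φ : (X n).V × Dd.Q → Fin 3 → Pt X Dd.Q → ℝ),
      (∀ z t, |G z (Sum.inl t)| ≤ 2) ∧ (∀ z η p, 0 ≤ Φ z η p ∧ Φ z η p ≤ 1) ∧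
      (∀ z j x, |G z (Sum.inl x.2) - G z (Sum.inr ⟨j, x⟩)| ≤ 1 / R) ∧
      (∀ z j x e, |G z (Sum.inr ⟨j, x⟩) - G z (Sum.inr ⟨j, stp Dd (X j) e x⟩)| ≤ 2 / R) ∧
      (∀ z η j x e, |Φ z η (Sum.inr ⟨j, x⟩) - Φ z η (Sum.inr ⟨j, stp Dd (X j) e x⟩)| ≤ 1 / R) ∧
      (∀ z t, ∑ η, Φ z η (Sum.inl t) - ∑ η, Φ (stp Dd (X n) η z) η (Sum.inl t)
        = G z (Sum.inl t)) ∧
      (∀ z j x, j < n → ∑ η, Φ z η (Sum.inr ⟨j, x⟩) -
        ∑ η, Φ (stp Dd (X n) η z) η (Sum.inr ⟨j, x⟩) = G z (Sum.inr ⟨j, x⟩)) ∧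
      (∀ z, 1 - 1 / (R : ℝ) ≤ G z (Sum.inl z.2)) := by
  have hzp : ∀ j, ∃ zp, j < n → ZP (X n) (X j) zp := by
    intro j
    by_cases h : j < n
    · obtain ⟨zp, h2⟩ := hX j n h
      exact ⟨zp, fun _ => h2⟩
    · exact ⟨fun _ _ => 0, fun h' => absurd h' h⟩
  choose zp hzp using hzp
  have hR' : (0 : ℝ) < R := by exact_mod_cast hR
  have hR1 : (1 : ℝ) ≤ R := by exact_mod_cast hR
  let Dt : Dd.Q → (X n).V × Dd.Q → ℕ := fun t z => DD Dd z.2 t
  let parA : Dd.Q → (X n).V × Dd.Q → Fin 3 := fun t =>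
    par Dd (X n) (fun _ (_ : (X n).V) => False) (fun _ _ => 0) t
  let parX : ∀ j, (X j).V × Dd.Q → (X n).V × Dd.Q → Fin 3 := fun j x =>
    par Dd (X n) (Reads (X j) x.1) (zp j) x.2
  have hD : ∀ t η z, Dt t z ≤ Dt t (stp Dd (X n) η z) + 1 := fun t η z => DD_left' _ _ _
  have hD2 : ∀ t η z, Dt t (stp Dd (X n) η z) ≤ Dt t z + 1 := fun t η z => DD_left _ _ _
  let G : (X n).V × Dd.Q → Pt X Dd.Q → ℝ := fun z p =>
    match p with
    | Sum.inl t => GG (stp Dd (X n)) R (Dt t) (parA t) z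
    | Sum.inr ⟨j, x⟩ => if j < n then GG (stp Dd (X n)) R (Dt x.2) (parX j x) z
        else gam R (Dt x.2 z)
  let Φ : (X n).V × Dd.Q → Fin 3 → Pt X Dd.Q → ℝ := fun z η p =>
    match p with
    | Sum.inl t => Phi (stp Dd (X n)) R (Dt t) (parA t) z η
    | Sum.inr ⟨j, x⟩ => if j < n then Phi (stp Dd (X n)) R (Dt x.2) (parX j x) z η else 0
  have hG1 : ∀ z t, |G z (Sum.inl t) - gam R (Dt t z)| ≤ 1 / (2 * R) := fun z t =>
    GG_close _ R _ _ hR z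
  have hG2 : ∀ z j x, |G z (Sum.inr ⟨j, x⟩) - gam R (Dt x.2 z)| ≤ 1 / (2 * R) := by
    intro z j x
    simp only [G]
    split_ifs
    · exact GG_close _ R _ _ hR z
    · simp
  have hhalf : (1 : ℝ) / (2 * R) + 1 / (2 * R) = 1 / R := by field_simp; norm_num
  have hle1 : (1 : ℝ) / R ≤ 1 := by rw [div_le_one hR']; exact hR1
  have hpos : (0 : ℝ) < 1 / (2 * R) := by positivity
  refine ⟨G, Φ, ?_, ?_, ?_, ?_, ?_, ?_, ?_, ?_⟩
  · intro z t
    have h1 := abs_le.1 (hG1 z t)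
    have h2 := gam_nonneg R (Dt t z)
    have h3 := gam_le_one R (Dt t z)
    rw [abs_le]; constructor <;> linarith
  · rintro z η (t | ⟨j, x⟩)
    · exact Phi_mem _ R _ _ z η
    · simp only [Φ]
      split_ifs
      · exact Phi_mem _ R _ _ z η
      · simp
  · intro z j x
    have h1 := abs_le.1 (hG1 z x.2)
    have h2 := abs_le.1 (hG2 z j x)
    rw [abs_le]; constructor <;> linarith
  · intro z j x e
    have h1 := abs_le.1 (hG2 z j (stp Dd (X j) e x))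
    have h2 := abs_le.1 (hG2 z j x)
    have h3 := abs_le.1 (gam_lip R hR (Dt x.2 z) (Dt (stp Dd (X j) e x).2 z)
      (DD_right' _ _ _) (DD_right _ _ _))
    have : (2 : ℝ) / R = 1 / R + 1 / R := by ring
    rw [abs_le]; constructor <;> linarith
  · intro z η j x e
    simp only [Φ]
    split_ifs
    · exact Phi_lip hR (hD _) (hD2 _) (hD _) (fun z => DD_right' _ _ _) (fun z => DD_right _ _ _)
        (fun z hz => par_indep Dd (X n) (X j) (zp j) x e z (by change DD Dd z.2 x.2 ≤ _ at hz; omega))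
        z η
    · simp
  · intro z t
    exact div_eq hR (hD t) (fun z η hz hη => par_prop Dd (X n) (X n) _ _
      (fun _ _ _ h => h.elim) (by simp) (fun _ _ _ _ h => h.elim) t z η
      (by change DD Dd z.2 t ≤ _ at hz; omega) hη) z
  · intro z j x hj
    simp only [Φ, G, if_pos hj]
    exact div_eq hR (hD x.2) (fun z η hz hη => par_prop Dd (X n) (X j) _ _
      (reads_unique (X j) x.1) (fun _ _ _ => Iff.rfl) (fun _ v' z η _ => hzp j hj v' z η) x.2 z η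
      (by change DD Dd z.2 x.2 ≤ _ at hz; omega) hη) z
  · intro z
    have h1 := abs_le.1 (hG1 z z.2)
    have h2 : gam R (Dt z.2 z) = 1 := by
      simp only [Dt, DD_self, gam_zero]
    linarith

end Crest.Agent.H6.LF
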