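import Crest.Agent.H6.LFe
import Crest.Agent.H6.LFf

/-! The space. -/

set_option autoImplicit false

namespace Crest.Agent.H6.LF

open Classical Finset Crest.AnalysisR UniformSpace

def rr (k : ℕ) : ℕ := 20 * (k + 1)
def RR (k : ℕ) : ℕ := rr k ^ 2

noncomputable def Dk (k : ℕ) : QD SS (2 * RR k + 2) := (exists_QD SS _).some

variable (X : ℕ → LG)

abbrev MM : Type := Option (Σ k, Pt X (Dk k).Q)

def emb (k : ℕ) (q : Pt X (Dk k).Q) : MM X := some ⟨k, q⟩

def Edge (p q : MM X) (c : ℝ) : Prop :=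
  (∃ k t, p = none ∧ q = emb X k (Sum.inl t) ∧ c = RR k) ∨
  (∃ k j x, p = emb X k (Sum.inl x.2) ∧ q = emb X k (Sum.inr ⟨j, x⟩) ∧ c = rr k) ∨
  (∃ k j x e, p = emb X k (Sum.inr ⟨j, x⟩) ∧
    q = emb X k (Sum.inr ⟨j, stp (Dk k) (X j) e x⟩) ∧ c = 1)

noncomputable def ht : MM X → ℝ
  | none => 0
  | some ⟨k, _⟩ => RR k + rr k

lemma rr_pos (k : ℕ) : 0 < rr k := by unfold rr; omega
lemma RR_pos (k : ℕ) : 0 < RR k := pow_pos (rr_pos k) 2

lemma edge_ge (p q : MM X) (c : ℝ) (h : Edge X p q c) : 1 ≤ c := by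
  rcases h with ⟨k, t, -, -, rfl⟩ | ⟨k, j, x, -, -, rfl⟩ | ⟨k, j, x, e, -, -, rfl⟩
  · exact_mod_cast RR_pos k
  · exact_mod_cast rr_pos k
  · exact le_rfl

lemma edge_ht (f : MM X → ℝ) (hf : ∀ p q c, Edge X p q c → |f p - f q| ≤ c) (p : MM X) :
    |f p - f none| ≤ ht X p := by
  rcases p with _ | ⟨k, t | ⟨j, x⟩⟩
  · simp [ht]
  · have := hf _ _ _ (Or.inl ⟨k, t, rfl, rfl, rfl⟩)
    rw [abs_sub_comm] at this
    have h2 : (0 : ℝ) ≤ rr k := by positivity
    simp only [ht]
    exact this.trans (by linarith)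
  · have h1 := abs_le.1 (hf _ _ _ (Or.inl ⟨k, x.2, rfl, rfl, rfl⟩))
    have h2 := abs_le.1 (hf _ _ _ (Or.inr (Or.inl ⟨k, j, x, rfl, rfl, rfl⟩)))
    simp only [ht]
    change |f (emb X k (Sum.inr ⟨j, x⟩)) - f none| ≤ _
    rw [abs_le]; constructor <;> linarith

lemma emb_inj (k : ℕ) : Function.Injective (emb X k) := by
  intro a b h
  simpa [emb] using h

noncomputable def ext (k : ℕ) (g : Pt X (Dk k).Q → ℝ) : MM X → ℝ :=
  Function.extend (emb X k) g 0

lemma ext_emb (k : ℕ) (g : Pt X (Dk k).Q → ℝ) (q : Pt X (Dk k).Q) :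
    ext X k g (emb X k q) = g q := (emb_inj X k).extend_apply _ _ _

lemma ext_none (k : ℕ) (g : Pt X (Dk k).Q → ℝ) : ext X k g none = 0 :=
  Function.extend_apply' _ _ _ (by rintro ⟨a, h⟩; simp [emb] at h)

lemma ext_ne (k : ℕ) (g : Pt X (Dk k).Q → ℝ) (k' : ℕ) (h : k' ≠ k) (q : Pt X (Dk k').Q) :
    ext X k g (emb X k' q) = 0 :=
  Function.extend_apply' _ _ _ (by
    rintro ⟨a, h2⟩
    simp only [emb, Option.some.injEq, Sigma.mk.injEq] at h2
    exact h h2.1.symm)

lemma ext_edge (k : ℕ) (g : Pt X (Dk k).Q → ℝ) (κ : ℝ) (hκ : 0 < κ)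
    (h1 : ∀ t, |g (Sum.inl t)| ≤ κ * RR k)
    (h2 : ∀ j x, |g (Sum.inl x.2) - g (Sum.inr ⟨j, x⟩)| ≤ κ * rr k)
    (h3 : ∀ j x e, |g (Sum.inr ⟨j, x⟩) - g (Sum.inr ⟨j, stp (Dk k) (X j) e x⟩)| ≤ κ * 1)
    (p q : MM X) (c : ℝ) (h : Edge X p q c) : |ext X k g p - ext X k g q| ≤ κ * c := by
  rcases h with ⟨k', t, rfl, rfl, rfl⟩ | ⟨k', j, x, rfl, rfl, rfl⟩ | ⟨k', j, x, e, rfl, rfl, rfl⟩
  · by_cases hk : k' = k
    · subst hk
      rw [ext_none, ext_emb, zero_sub, abs_neg]
      exact h1 t
    · rw [ext_none, ext_ne X k g k' hk]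
      simp; positivity
  · by_cases hk : k' = k
    · subst hk
      rw [ext_emb, ext_emb]
      exact h2 j x
    · rw [ext_ne X k g k' hk, ext_ne X k g k' hk]
      simp; positivity
  · by_cases hk : k' = k
    · subst hk
      rw [ext_emb, ext_emb]
      exact h3 j x e
    · rw [ext_ne X k g k' hk, ext_ne X k g k' hk]
      simp; positivity

def level : MM X → ℕ
  | some ⟨_, Sum.inr ⟨j, _⟩⟩ => j
  | _ => 0

theorem main : ∃ P : PointedMetric, P.IsCountableSeparatedUnboundedNonproper ∧
    HasAP P.FreeSpace ∧ ¬ HasBAP P.FreeSpace := by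
  obtain ⟨X, hX⟩ := exists_seq
  obtain ⟨m, hsep, hE, hht, hL⟩ := exists_metric (Edge X) none (ht X) (edge_ge X) (edge_ht X)
  let P : PointedMetric := ⟨MM X, m, none⟩
  refine ⟨P, ⟨?_, hsep, ?_, ?_⟩, hasAP P hsep, ?_⟩
  · haveI := fun j => (X j).fin
    haveI := fun k => (Dk k).fin
    change Countable (MM X)
    infer_instance
  · intro hb
    letI := P.metric
    obtain ⟨C, hC⟩ := Metric.isBounded_iff.1 hb
    obtain ⟨k, hk⟩ := exists_nat_gt C
    obtain ⟨t⟩ := (Dk k).ne
    have h1 := hL (ext X k fun _ => RR k) 1 one_pos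
      (ext_edge X k _ 1 one_pos (by simp) (by simp) (by simp)) (emb X k (Sum.inl t)) none
    rw [ext_emb, ext_none, sub_zero, one_mul] at h1
    have h2 : dd P (emb X k (Sum.inl t)) none ≤ C := hC (Set.mem_univ _) (Set.mem_univ _)
    have h3 : k ≤ RR k := by unfold RR rr; nlinarith
    have h4 : (k : ℝ) ≤ RR k := by exact_mod_cast h3
    have h5 := le_abs_self (RR k : ℝ)
    linarith
  · intro hp
    letI := P.metric
    haveI : DiscreteTopology P.M := by
      rw [discreteTopology_iff_isOpen_singleton]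
      intro x
      have : Metric.ball x 1 = {x} := by
        ext y
        simp only [Metric.mem_ball, Set.mem_singleton_iff]
        constructor
        · intro h
          by_contra hxy
          exact absurd (hsep y x hxy) (not_le.2 h)
        · rintro rfl; simp
      rw [← this]
      exact Metric.isOpen_ball
    have hfin := (isCompact_closedBall P.base ((RR 0 : ℝ) + rr 0)).finite_of_discrete
    obtain ⟨t⟩ := (Dk 0).ne
    refine Set.infinite_of_injective_forall_mem
      (f := fun j : ℕ => (emb X 0 (Sum.inr ⟨j, (X j).ne.some, t⟩) : P.M)) ?_ ?_ hfin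
    · intro i j h
      exact congrArg (level X) h
    · intro j
      exact hht (emb X 0 (Sum.inr ⟨j, (X j).ne.some, t⟩))
  · rintro ⟨lam, hlam⟩
    obtain ⟨k, hk⟩ := exists_nat_ge lam
    haveI := (Dk k).fin
    obtain ⟨T, hfin, hT, hTK⟩ := hlam
      (Set.range fun t : (Dk k).Q => ((dl P (emb X k (Sum.inl t)) : P.Mol) : P.FreeSpace))
      (Set.finite_range _).isCompact 1 one_pos
    have hr : (0 : ℝ) < rr k := by exact_mod_cast rr_pos k
    have hR : (0 : ℝ) < RR k := by exact_mod_cast RR_pos k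
    have hRr : (RR k : ℝ) = (rr k : ℝ) ^ 2 := by simp [RR]
    have hrk : (rr k : ℝ) = 20 * (k + 1) := by simp [rr]
    have hk0 : (0 : ℝ) ≤ k := by positivity
    have hr1 : (1 : ℝ) ≤ rr k := by linarith
    have key := dual_ineq P T hfin k (hT.trans hk)
      (Set.range fun t : (Dk k).Q => emb X k (Sum.inl t))
      (by rintro _ ⟨t, rfl⟩; exact hTK _ ⟨t, rfl⟩)
      (RR k + rr k) (rr k) (2 / RR k) (1 / rr k) (1 - 1 / RR k) (by positivity) (by positivity)
      (by
        intro B
        let n := B.sup (level X) + 1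
        obtain ⟨G, Φ, c1, c2, c3, c4, c5, c6, c7, c8⟩ := cert X hX (RR k) (RR_pos k) (Dk k) n
        haveI := (X n).fin
        haveI := (X n).ne
        haveI := (Dk k).ne
        refine ⟨(X n).V × (Dk k).Q, inferInstance, inferInstance, stp (Dk k) (X n),
          fun z => emb X k (Sum.inr ⟨n, z⟩), fun z => emb X k (Sum.inl z.2),
          fun z => ext X k (G z), fun z η => ext X k (Φ z η), stp_stp _ _, fun z => ⟨z.2, rfl⟩,
          fun z => hht _, fun z => hht _,
          fun z => hE _ _ _ (Or.inr (Or.inl ⟨k, n, z, rfl, rfl, rfl⟩)),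
          fun η z => hE _ _ _ (Or.inr (Or.inr ⟨k, n, z, η, rfl, rfl, rfl⟩)),
          fun z => ext_none _ _ _, fun z η => ext_none _ _ _, fun z => ?_, fun z η => ?_,
          fun z p hp => ?_, fun z => ?_⟩
        · refine hL _ _ (by positivity) (ext_edge X k _ _ (by positivity) (fun t => ?_)
            (fun j x => ?_) (fun j x e => ?_))
          · rw [div_mul_cancel₀ _ hR.ne']; exact c1 z t
          · refine (c3 z j x).trans ?_
            rw [div_mul_eq_mul_div]
            apply div_le_div_of_nonneg_right _ hR.le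
            linarith
          · rw [mul_one]; exact c4 z j x e
        · refine hL _ _ (by positivity) (ext_edge X k _ _ (by positivity) (fun t => ?_)
            (fun j x => ?_) (fun j x e => ?_))
          · have := c2 z η (Sum.inl t)
            rw [abs_of_nonneg this.1, hRr]
            have h2 : 1 / (rr k : ℝ) * (rr k : ℝ) ^ 2 = rr k := by field_simp
            linarith [this.2]
          · rw [div_mul_cancel₀ _ hr.ne']
            have h1 := c2 z η (Sum.inl x.2)
            have h2 := c2 z η (Sum.inr ⟨j, x⟩)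
            rw [abs_le]; constructor <;> linarith [h1.1, h1.2, h2.1, h2.2]
          · refine (c5 z η j x e).trans ?_
            rw [mul_one]
            apply one_div_le_one_div_of_le hr
            rw [hRr]; nlinarith
        · rcases p with _ | ⟨k', q⟩
          · simp [ext_none]
          · change ∑ η, ext X k (Φ z η) (emb X k' q) -
              ∑ η, ext X k (Φ (stp (Dk k) (X n) η z) η) (emb X k' q) = ext X k (G z) (emb X k' q)
            by_cases hk' : k' = k
            · subst hk'
              simp only [ext_emb]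
              rcases q with t | ⟨j, x⟩
              · exact c6 z t
              · refine c7 z j x ?_
                have := Finset.le_sup (f := level X) hp
                change j ≤ _ at this
                omega
            · simp [ext_ne X k _ k' hk']
        · simp only [ext_emb]
          exact c8 z)
    rw [hRr] at key
    generalize (rr k : ℝ) = r at key hr hrk hr1
    have h1 : 2 / r ^ 2 * (k * r + 2) + 3 * (1 / r * (k + 2)) + 1 / r ^ 2 + 2 * (2 / r ^ 2)
        = ((5 * k + 6) * r + 9) / r ^ 2 := by field_simp; ring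
    have h2 : ((5 * k + 6) * r + 9) / r ^ 2 < 1 := by
      rw [div_lt_one (by positivity)]
      nlinarith
    linarith

end Crest.Agent.H6.LF
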